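import Vale.Agent.P106.U.H425.TopC
import Vale.Agent.P106.U.S5.Run

/-!
# P106 / U / H425 : [TOP] : `pTop : PTop RA` (helper425)
-/

set_option autoImplicit false

namespace Vale.Agent.P106.U.H425

open Finset Vale.Agent.P127 Vale.Agent.P127.Stk Vale.Agent.P127.U Vale.Agent.P106.W Vale.Agent.P106.K Vale.Agent.P106.U
open Vale.Agent.P127.U.CellD (q2)
open Vale.Agent.P106.U.S5

/-- **[TOP]** for one record, at any level `a1` where the functional of `W` is known to `r1` digits -/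
theorem top_rec {σ : Cst} {ε : ℝ} {ρ : Thr} (hρ : ρ.Ok) {m B : ℕ} {Ω : Type} [Fintype Ω] {Q : Law Ω} {l : Ω → Ry} {t : Ω → ℝ}
    {L h q r0 Rn : ℕ} {W : Ω → Cbx} {τ υ : Type} {R : S3.Run Ω τ υ} {p : S3.Run.Num} {g' gU e κ₀ : ℝ} {a1 r1 : ℕ}
    (hR : RunOk σ ε ρ m B Q l t L h q r0 Rn W R p g' gU e κ₀ a1 r1) {a r : ℕ} (hs : SwF R ρ.K a r)
    (hm : 4 * ρ.K ≤ 2 ^ m) {i : ℕ} (hi : i < R.n) (hA : R.IsA i) (ha : a ≤ R.C.a i) (hG : TG R p ρ.c' i) :
    min r p.QF ≤ R.C.rk i + 12 * m := by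
  have hK : 4 * ρ.K * q2 R.m ≤ 1 := by
    rw [hR.hm]
    have h1 := mul_le_mul_of_nonneg_right hm (CellD.q2_pos m).le
    rwa [CellD.q2_mul_pow] at h1
  have hs4 := hR.hs
  have hB : 1 ≤ p.B₁ := by
    have h1 := hR.cap.top
    have h2 := hR.cap.low
    have h3 := hR.ok.pth.m1
    have h4 : 1 ≤ R.m * (R.b1 + B) := Nat.mul_pos h3 (by omega)
    omega
  have h1 := top_core hR.ok hs.p hs.ka hi hA hG.time hG.phi (ε := 1 / 2) (by norm_num) hG.line ha hK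
    (by linarith [hρ.K1]) hK (by omega) hB
  refine h1.trans ?_
  rw [hR.hm]
  have : (p.s + 2) * m ≤ 12 * m := Nat.mul_le_mul_right _ (by omega)
  omega

/-- the bound of the record without the factor `K ^ 8` -/
theorem div_pow_le {X K m : ℝ} (hX : 0 ≤ X) (hK : 1 ≤ K) (hm : 0 < m) : X / (1000 * K ^ 8 * m) ≤ X / (1000 * m) := by
  have h1 : (1 : ℝ) ≤ K ^ 8 := one_le_pow₀ hK
  refine div_le_div_of_nonneg_left hX (by positivity) ?_
  have h2 : 1 * m ≤ K ^ 8 * m := mul_le_mul_of_nonneg_right h1 hm.le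
  linarith

/-- **[TOP]** -/
theorem pTop : PTop RA := by
  intro b hb η hη
  refine ⟨1, one_pos, fun θ hθ0 hθ1 => ?_⟩
  have hC1 : 1 ≤ b.C1 := by
    have := hb.lam0
    unfold Bs.C1
    have : 0 < 1000 / b.lam := by positivity
    linarith
  refine ⟨η / (20 * b.C1), by positivity, fun δ1 hδ0 hδ1 σ hσ hσO => ⟨1, one_pos, fun ε hε0 hε1 ρ hρ g hg => ?_⟩⟩
  obtain ⟨m0, hm0⟩ := pow_unbounded_of_one_lt (4 * ρ.K) (one_lt_two)
  refine ⟨m0, fun m B hm => ?_⟩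
  have hσ1 : σ.δ1 = δ1 := by rw [hσ]
  have hσC : σ.C1 = b.C1 := by
    show σ.toBs.C1 = b.C1
    rw [hσ]
  have hσb : σ.toBs = b := by rw [hσ]
  obtain ⟨n1, hn1⟩ := exists_nat_ge ((m : ℝ) / δ1)
  obtain ⟨n2, hn2⟩ := exists_nat_ge (24 * (m : ℝ) / η)
  refine ⟨max (n1 + 1) n2, ?_⟩
  intro Ω _ Q l t L h q r0 Rn W S hh hne hRA
  obtain ⟨τ, υ, R, p, g', gU, e, κ₀, a1, r1, hR⟩ := hRA
  have hh1 : n1 + 1 ≤ h := (le_max_left _ _).trans hh
  have hh2 : n2 ≤ h := (le_max_right _ _).trans hh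
  have hh0 : (0 : ℝ) < h := by exact_mod_cast (by omega : 0 < h)
  have hmh : (m : ℝ) < δ1 * h := by
    have h1 : (m : ℝ) / δ1 < h := hn1.trans_lt (by exact_mod_cast (by omega : n1 < h))
    rw [div_lt_iff₀ hδ0] at h1
    linarith
  have hmη : 24 * (m : ℝ) ≤ η * h := by
    have h1 : 24 * (m : ℝ) / η ≤ h := hn2.trans (by exact_mod_cast hh2)
    rw [div_le_iff₀ hη] at h1
    linarith
  have hδη : 20 * (b.C1 * (δ1 * h)) ≤ η * h := by
    rw [le_div_iff₀ (by positivity)] at hδ1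
    have := mul_le_mul_of_nonneg_right hδ1 hh0.le
    have e : δ1 * (20 * b.C1) * (h : ℝ) = 20 * (b.C1 * (δ1 * h)) := by ring
    linarith
  have hm1 : 1 ≤ m := by
    have := hR.ok.pth.m1
    rwa [hR.hm] at this
  have hmr : (1 : ℝ) ≤ m := by exact_mod_cast hm1
  have hK : 4 * ρ.K ≤ 2 ^ m := hm0.le.trans (pow_le_pow_right₀ (by norm_num) hm)
  have hsw1 := hR.sw1
  have hsw2 := hR.sw2
  have hQK2 := hR.QK2
  have hQF2 := hR.QF2
  have hA2 := hR.A2
  rw [hσ1] at hsw1 hsw2 hQK2 hQF2 hA2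
  have hc10 : σ.toBs.C1 = b.C1 := by rw [hσb]
  rw [hc10] at hsw2 hQK2 hQF2
  have e10 : 10 * b.C1 * δ1 * (h : ℝ) = 10 * (b.C1 * (δ1 * h)) := by ring
  have e5 : 5 * b.C1 * δ1 * (h : ℝ) = 5 * (b.C1 * (δ1 * h)) := by ring
  have e1 : b.C1 * δ1 * (h : ℝ) = b.C1 * (δ1 * h) := by ring
  rw [e10] at hsw2
  rw [e5] at hQK2
  rw [e1] at hQF2
  have hCδ : 0 ≤ b.C1 * (δ1 * h) := by positivity
  have hδh : 0 < δ1 * h := by positivity
  have hδC : δ1 * h ≤ b.C1 * (δ1 * h) := le_mul_of_one_le_left hδh.le hC1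
  rcases hR.ok.pth.fin with hf | hf
  · -- exit by the time
    have hfr : (p.A : ℝ) ≤ R.C.a R.n := by exact_mod_cast hf
    have hcnt : 8 * e * R.m < ρ.c' * ((R.C.a R.n : ℝ) - a1 - R.m) := by
      rw [hR.hm]
      have h1 : e ≤ ε ^ 2 * ρ.c' * σ.δ1 * h / (1000 * m) := by
        have hc0 := hρ.c'0
        have hd0 := hσO.δ0
        first
          | exact hR.le
          | exact hR.le.trans (div_pow_le (by positivity) hρ.K1 (by linarith))
      rw [hσ1] at h1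
      have h2 : e * m ≤ ε ^ 2 * ρ.c' * (δ1 * h) / 1000 := by
        have h3 := mul_le_mul_of_nonneg_right h1 (by linarith : (0 : ℝ) ≤ m)
        refine h3.trans (le_of_eq ?_)
        field_simp
      have h3 : ε ^ 2 ≤ 1 := pow_le_one₀ hε0.le hε1
      have hc0 := hρ.c'0
      have h4 : ε ^ 2 * ρ.c' * (δ1 * h) ≤ ρ.c' * (δ1 * h) := by
        have h5 : 0 ≤ ρ.c' * (δ1 * h) := by positivity
        have h6 := mul_le_mul_of_nonneg_right h3 h5
        have e : ε ^ 2 * ρ.c' * (δ1 * h) = ε ^ 2 * (ρ.c' * (δ1 * h)) := by ring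
        linarith
      have h5 : ρ.c' * (δ1 * h) < ρ.c' * ((R.C.a R.n : ℝ) - a1 - m) := by
        refine mul_lt_mul_of_pos_left ?_ hc0
        linarith
      have h6 : 0 ≤ ρ.c' * (δ1 * h) := by positivity
      linarith
    obtain ⟨i, hi, hA, ha, hG⟩ := ex_good hR.ok.pth hR.light hρ.c'0 (by linarith [hρ.c'1]) hcnt
    have h1 := top_rec hρ hR hR.sw hK hi hA ha hG
    have h2 : R.C.rk i ≤ Rn := by
      rw [hR.hRn]
      exact R.C.hk hi.le
    have h3 : ((min r1 p.QF : ℕ) : ℝ) ≤ Rn + 12 * m := by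
      exact_mod_cast h1.trans (Nat.add_le_add_right h2 _)
    rw [Nat.cast_min] at h3
    rcases le_total (r1 : ℝ) (p.QF : ℝ) with g | g
    · rw [min_eq_left g] at h3
      linarith
    · rw [min_eq_right g] at h3
      linarith
  · -- exit by the precision
    have h2 : (p.QK : ℝ) ≤ Rn := by
      rw [hR.hRn]
      exact_mod_cast hf
    linarith

end Vale.Agent.P106.U.H425
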