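import Vale.Agent.P106.U.MIC.PSat
import Vale.Agent.P106.U.H425.PTop
import Vale.Agent.P106.U.H543.Hov
import Vale.Agent.P106.U.H931.Sd
import Vale.Agent.P106.U.H118.GlueL
import Vale.Agent.P106.U.H652.Ev3

/-!
# P106 / U / H425 : [QS] the sum of the prices `q` (helper425)

* `ex_good_at` : a light time step between the level `a1` and the step `k`.
* `rise_end` : growth of the precision after a level slightly above `a2` (second level of the field `SwF`).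
* `xo_sum` : total price of the overhang (helper543's `xoR`), `L0 = 2 θ h`, `ν = ⌊√θ h / (2 m)⌋`.
* `L0_ok` : the condition on `L0` of `heavy_ovh`.
* `qc_sum`, `qG_sum2` : prices of the letters, two zones.
* `QCst`, `qcst_ex` : the constants `θ, δ1, ε`; `QNum`, `ev_QNum` : the numbers `m, h` (rule of helper652).
* **`qs_rec`** : the whole sum of the prices over the record, `s = √θ`; `L0_rec`.
-/

set_option autoImplicit false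

namespace Vale.Agent.P106.U.H425

open Finset Vale.Agent.P127 Vale.Agent.P127.Stk Vale.Agent.P127.U Vale.Agent.P106.W Vale.Agent.P106.K Vale.Agent.P106.U
open Vale.Agent.P127.U.CellD (q2)
open Vale.Agent.P106.U.S3 (Run)
open Vale.Agent.P106.U.S5
open Vale.Agent.P106.U.MIC (ix nz az rz bc)
open Vale.Agent.P106.U.H833 (aN RN lev_a lev_R)
open Vale.Agent.P106.U.H823
open Vale.Agent.P106.U.Top543 (xoR sum_xoR)

open Classical in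
/-- a light time step of a level `≥ a1` before the step `k` -/
theorem ex_good_at {Ω : Type} [Fintype Ω] {τ υ : Type} {R : Run Ω τ υ} {p : Run.Num} {e κ₀ c' : ℝ} (h : R.Path p)
    (hL : R.Light p e κ₀) (hc0 : 0 < c') (hc1 : c' ≤ 1) {a1 k : ℕ} (hk : k ≤ R.n)
    (hcnt : 8 * e * R.m < c' * ((R.C.a k : ℝ) - a1 - R.m)) : ∃ i < k, R.IsA i ∧ a1 ≤ R.C.a i ∧ TG R p c' i := by
  by_contra hno
  push Not at hno
  have h1 := win_card h a1 k hk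
  have h2 : ((range k).filter fun i => R.IsA i ∧ a1 ≤ R.C.a i) ⊆ R.aS.filter fun i => ¬ TG R p c' i := by
    intro i hi
    rw [Finset.mem_filter, Finset.mem_range] at hi
    refine Finset.mem_filter.2 ⟨Finset.mem_filter.2 ⟨Finset.mem_range.2 (by omega), hi.2.1⟩, ?_⟩
    exact hno i hi.1 hi.2.1 hi.2.2
  have h3 : ((((range k).filter fun i => R.IsA i ∧ a1 ≤ R.C.a i).card : ℕ) : ℝ) ≤
      ((R.aS.filter fun i => ¬ TG R p c' i).card : ℝ) := by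
    exact_mod_cast Finset.card_le_card h2
  have h4 := tbad hL hc0 hc1
  have h5 : (R.C.a k : ℝ) ≤ a1 + R.m + R.m * (((range k).filter fun i => R.IsA i ∧ a1 ≤ R.C.a i).card : ℕ) := by
    exact_mod_cast h1
  have hm : (0 : ℝ) ≤ R.m := Nat.cast_nonneg _
  have h6 : (R.C.a k : ℝ) - a1 - R.m ≤ R.m * ((R.aS.filter fun i => ¬ TG R p c' i).card : ℝ) := by
    have := mul_le_mul_of_nonneg_left h3 hm
    linarith
  have h7 := mul_le_mul_of_nonneg_left h6 hc0.le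
  have h8 := mul_le_mul_of_nonneg_right h4 hm
  nlinarith

section rec

variable {σ : Cst} {ε : ℝ} {ρ : Thr} {m B : ℕ} {Ω : Type} [Fintype Ω] {Q : Law Ω} {l : Ω → Ry} {t : Ω → ℝ}
  {L h q r0 Rn : ℕ} {W : Ω → Cbx} {τ υ : Type} {R : Run Ω τ υ} {p : Run.Num} {g' gU e κ₀ : ℝ} {a1 r1 : ℕ}

/-- `C.R i b ≤ q` -/
theorem R_le_q {K c' g' gU : ℝ} (hok : R.Ok p K c' g' gU) {i b : ℕ} (hi : i ≤ R.n + p.J) : R.C.R i b ≤ R.q := by
  have h1 := hok.pth.leF i hi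
  have h2 := hok.pth.rF
  have h3 := R.C.hkf i
  have h4 : R.C.R i b ≤ R.C.rf i := by
    unfold Cell.Pth.R Cell.Pth.bs
    omega
  omega

/-- **growth at the end** : after the step `k`, `a k` slightly above the second level `a2` -/
theorem rise_end (hρ : ρ.Ok) (hR : RunOk σ ε ρ m B Q l t L h q r0 Rn W R p g' gU e κ₀ a1 r1) {a2 r2 : ℕ}
    (hs : r2 = 0 ∨ SwF R ρ.K a2 r2) (hm : 4 * ρ.K ≤ 2 ^ m) {D : ℝ} (hD : (q : ℝ) ≤ r2 + D)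
    {k : ℕ} (hk : k ≤ R.n) (hcnt : 8 * e * m < ρ.c' * ((R.C.a k : ℝ) - a2 - m)) (b : ℕ) :
    (R.C.R R.n b : ℝ) - R.C.R k b ≤ max D (σ.C1 * σ.δ1 * h) + 12 * m := by
  have hRq : (R.C.R R.n b : ℝ) ≤ q := by
    have := R_le_q hR.ok (i := R.n) (b := b) (by omega)
    rw [hR.hq] at this
    exact_mod_cast this
  have hmx1 : D ≤ max D (σ.C1 * σ.δ1 * h) := le_max_left _ _
  have hmx2 : σ.C1 * σ.δ1 * h ≤ max D (σ.C1 * σ.δ1 * h) := le_max_right _ _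
  have hm0 : (0 : ℝ) ≤ m := Nat.cast_nonneg _
  rcases hs with h0 | hs
  · have h1 : (0 : ℝ) ≤ R.C.R k b := Nat.cast_nonneg _
    rw [h0, Nat.cast_zero, zero_add] at hD
    linarith
  · rw [← hR.hm] at hcnt
    obtain ⟨i, hi, hA, ha, hG⟩ := ex_good_at hR.ok.pth hR.light hρ.c'0 (by linarith [hρ.c'1]) hk hcnt
    have h1 := top_rec hρ hR hs hm (by omega) hA ha hG
    have h2 : R.C.rk i ≤ R.C.R k b := by
      have h3 : R.C.rk i ≤ R.C.rk k := R.C.hk hi.le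
      have h4 : R.C.rk k ≤ R.C.R k b := by
        unfold Cell.Pth.R
        omega
      omega
    have h3 : ((min r2 p.QF : ℕ) : ℝ) ≤ R.C.R k b + 12 * m := by
      exact_mod_cast h1.trans (Nat.add_le_add_right h2 _)
    rw [Nat.cast_min] at h3
    have hQF := hR.QF2
    rcases le_total (r2 : ℝ) (p.QF : ℝ) with g | g
    · rw [min_eq_left g] at h3
      linarith
    · rw [min_eq_right g] at h3
      linarith

end rec

/-- number of blocks near the end -/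
noncomputable def nuE (s : ℝ) (h m : ℕ) : ℕ := ⌊s * h / (2 * m)⌋₊

theorem nuE_le {s : ℝ} (hs : 0 ≤ s) {h m : ℕ} (hm : 1 ≤ m) : (m : ℝ) * nuE s h m ≤ s * h / 2 := by
  have hm0 : (0 : ℝ) < m := by exact_mod_cast hm
  have h1 : (nuE s h m : ℝ) ≤ s * h / (2 * m) := Nat.floor_le (by positivity)
  have h2 := mul_le_mul_of_nonneg_left h1 hm0.le
  refine h2.trans (le_of_eq ?_)
  field_simp

theorem le_nuE {s : ℝ} {h m : ℕ} (hm : 1 ≤ m) (hh : 4 * m ≤ s * h) : s * h / (4 * m) ≤ nuE s h m := by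
  have hm0 : (0 : ℝ) < m := by exact_mod_cast hm
  have h1 : s * h / (2 * m) < (nuE s h m : ℝ) + 1 := Nat.lt_floor_add_one _
  have h2 : 1 ≤ s * h / (4 * m) := by
    rw [le_div_iff₀ (by positivity)]
    linarith
  have h3 : s * h / (2 * m) = s * h / (4 * m) + s * h / (4 * m) := by
    field_simp
    ring
  linarith

/-- the first term -/
theorem xo_t1 {θ s h m ν K1 X : ℝ} (hs0 : 0 < s) (hθ : θ = s ^ 2) (hm0 : 0 < m) (hh0 : 0 < h)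
    (hν0 : 0 < ν) (hν1 : s * h / (4 * m) ≤ ν) (hX : 0 ≤ X) (h5 : m * X ≤ (K1 + 1) * h) :
    2 * θ * h / ν * X ≤ 8 * (K1 + 1) * s * h := by
  have c1 : 2 * θ * h / ν ≤ 8 * s * m := by
    rw [div_le_iff₀ hν0, hθ]
    have c2 := mul_le_mul_of_nonneg_left hν1 (by positivity : 0 ≤ 8 * s * m)
    have c3 : 8 * s * m * (s * h / (4 * m)) = 2 * s ^ 2 * h := by
      field_simp
      ring
    linarith
  calc 2 * θ * h / ν * X ≤ 8 * s * m * X := mul_le_mul_of_nonneg_right c1 hX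
    _ = 8 * s * (m * X) := by ring
    _ ≤ 8 * s * ((K1 + 1) * h) := mul_le_mul_of_nonneg_left h5 (by positivity)
    _ = 8 * (K1 + 1) * s * h := by ring

/-- the count -/
theorem xo_cnt {θ s h m e ε c' δ1 a a2 : ℝ} (hs0 : 0 < s) (hs1 : s ≤ 1 / 16) (hθ : θ = s ^ 2) (hm0 : 0 < m)
    (hh0 : 0 < h) (hc0 : 0 < c') (hδ0 : 0 < δ1) (hδ : 8 * δ1 ≤ θ) (hε0 : 0 ≤ ε) (hε1 : ε ≤ 1)
    (he : e ≤ ε ^ 2 * c' * δ1 * h / (1000 * m)) (ha2 : a2 ≤ (1 - s) * h) (hak : (1 - θ) * h - s * h / 2 ≤ a)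
    (hmh : 16 * m ≤ s * h) : 8 * e * m < c' * (a - a2 - m) := by
  have d2 : e * m ≤ ε ^ 2 * c' * (δ1 * h) / 1000 := by
    have h3 := mul_le_mul_of_nonneg_right he hm0.le
    refine h3.trans (le_of_eq ?_)
    field_simp
  have d3 : ε ^ 2 ≤ 1 := pow_le_one₀ hε0 hε1
  have d4 : ε ^ 2 * c' * (δ1 * h) ≤ 1 * c' * (δ1 * h) := by
    have h5 : 0 ≤ c' * (δ1 * h) := by positivity
    have h6 := mul_le_mul_of_nonneg_right d3 h5
    have e1 : ε ^ 2 * c' * (δ1 * h) = ε ^ 2 * (c' * (δ1 * h)) := by ring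
    have e2 : 1 * c' * (δ1 * h) = 1 * (c' * (δ1 * h)) := by ring
    rw [e1, e2]
    exact h6
  have d5 : s ^ 2 ≤ s / 16 := by
    have := mul_le_mul_of_nonneg_left hs1 hs0.le
    have e1 : s ^ 2 = s * s := by ring
    linarith
  have d6 : δ1 * h ≤ s / 128 * h := mul_le_mul_of_nonneg_right (by linarith) hh0.le
  have d7 : s ^ 2 * h ≤ s / 16 * h := mul_le_mul_of_nonneg_right d5 hh0.le
  have d8 : s * h / 4 ≤ a - a2 - m := by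
    rw [hθ] at hak
    have : (1 - s ^ 2) * h = h - s ^ 2 * h := by ring
    have : (1 - s) * h = h - s * h := by ring
    linarith
  have d9 : c' * (s * h / 4) ≤ c' * (a - a2 - m) := mul_le_mul_of_nonneg_left d8 hc0.le
  have d10 : c' * (δ1 * h) ≤ c' * (s / 128 * h) := mul_le_mul_of_nonneg_left d6 hc0.le
  have d11 : 0 < c' * (s * h) := by positivity
  have d12 : c' * (s / 128 * h) = c' * (s * h) / 128 := by ring
  have d13 : c' * (s * h / 4) = c' * (s * h) / 4 := by ring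
  linarith

/-- **total price of the overhang** over one record.  `s = √θ` -/
theorem xo_sum {σ : Cst} {ε : ℝ} {ρ : Thr} (hρ : ρ.Ok) {m B : ℕ} {Ω : Type} [Fintype Ω] {Q : Law Ω} {l : Ω → Ry} {t : Ω → ℝ}
    {L h q r0 Rn : ℕ} {W : Ω → Cbx} {τ υ : Type} {R : Run Ω τ υ} {p : Run.Num} {g' gU e κ₀ : ℝ} {a1 r1 : ℕ}
    (hR : RunOk σ ε ρ m B Q l t L h q r0 Rn W R p g' gU e κ₀ a1 r1) {a2 r2 : ℕ} {s : ℝ}
    (hs0 : 0 < s) (hs1 : s ≤ 1 / 16) (hsθ : σ.θ = s ^ 2) (hδ0 : 0 < σ.δ1) (hδ : 8 * σ.δ1 ≤ σ.θ) (hε0 : 0 ≤ ε) (hε1 : ε ≤ 1)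
    (hC1 : 0 ≤ σ.C1)
    (hs : r2 = 0 ∨ SwF R ρ.K a2 r2) (ha2 : (a2 : ℝ) ≤ (1 - s) * h) (hr2 : (q : ℝ) ≤ r2 + 10 * σ.C1 * s * h)
    (hm : 4 * ρ.K ≤ 2 ^ m) (hmh : 16 * (m : ℝ) ≤ s * h) {i0 : ℕ} (hi0 : i0 ≤ Cmp.Nc R R.b1) :
    0 < nuE s h m ∧ ∑ j ∈ range (nz R i0), xoR (R.m * Real.log 2) (2 * σ.θ * h) (nuE s h m) (az R i0) (rz R i0) (nz R i0) j ≤
      ((8 * (σ.K1 + 1) + 10 * σ.C1) * s + σ.C1 * σ.δ1) * h + 12 * m := by
  have hP := hR.ok.pth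
  have hm1 : 1 ≤ m := by
    have := hP.m1
    rwa [hR.hm] at this
  have hm0 : (0 : ℝ) < m := by exact_mod_cast hm1
  have hh0 : (0 : ℝ) < h := by
    by_contra hcon
    push Not at hcon
    nlinarith
  have hsh : 0 < s * h := mul_pos hs0 hh0
  have hν1 := le_nuE (s := s) (h := h) hm1 (by linarith)
  have hν0 : (0 : ℝ) < nuE s h m := lt_of_lt_of_le (by positivity) hν1
  refine ⟨by exact_mod_cast hν0, ?_⟩
  set ν := nuE s h m with hν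
  have hνm : (m : ℝ) * ν ≤ s * h / 2 := nuE_le hs0.le hm1
  set N := nz R i0 with hN
  have hfN : ix R i0 N = R.n := by
    show Cmp.idx R R.b1 (i0 + (Cmp.Nc R R.b1 - i0)) = R.n
    rw [Nat.add_sub_cancel' hi0]
    exact Cmp.idx_top
  have hfle : ∀ j, ix R i0 j ≤ R.n := fun j => Cmp.idx_le _
  have hfm : Monotone (ix R i0) := MIC.ix_mono R i0
  have hrm : ∀ j k, j ≤ k → rz R i0 j ≤ rz R i0 k := fun j k hjk =>
    H833.RN_mono hP R.b1 (hfm hjk) (by have := hfle k; omega)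
  -- the first state near the end
  have hex : ∃ j, az R i0 N ≤ az R i0 j + ν := ⟨N, Nat.le_add_right _ _⟩
  classical
  set j0 := Nat.find hex with hj0
  have hj1 : az R i0 N ≤ az R i0 j0 + ν := Nat.find_spec hex
  have hj2 : ∀ j < j0, az R i0 j + ν < az R i0 N := fun j hj => by
    have := Nat.find_min hex hj
    omega
  have hj3 : j0 ≤ N := Nat.find_min' hex (Nat.le_add_right _ _)
  have hM0 : 0 ≤ R.m * Real.log 2 := mul_nonneg (Nat.cast_nonneg _) (Real.log_nonneg (by norm_num))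
  have key := sum_xoR (M := R.m * Real.log 2) (L0 := 2 * σ.θ * h) hM0 (ν := ν) (a := az R i0) (r := rz R i0) (N := N)
    (fun j _ => hrm j (j + 1) (Nat.le_succ j)) hj3 hj2
  refine key.trans ?_
  -- digits
  have eA : ∀ j, (R.C.a (ix R i0 j) : ℝ) = m * az R i0 j := fun j => by
    have h1 := lev_a hP (i := ix R i0 j) (by have := hfle j; omega)
    rw [hR.hm] at h1
    rw [h1]
    push_cast
    rfl
  have eR : ∀ j, (R.C.R (ix R i0 j) (R.m * R.b1) : ℝ) = r0 + m * rz R i0 j := fun j => by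
    have h1 := lev_R hP R.b1 (i := ix R i0 j) (by have := hfle j; omega)
    rw [hR.hr0] at h1
    rw [h1, hR.hm]
    push_cast
    rfl
  have hRN : (R.C.R (ix R i0 N) (R.m * R.b1) : ℝ) ≤ q := by
    have := R_le_q hR.ok (i := ix R i0 N) (b := R.m * R.b1) (by have := hfle N; omega)
    rw [hR.hq] at this
    exact_mod_cast this
  have hR0 : (r0 : ℝ) ≤ R.C.R (ix R i0 0) (R.m * R.b1) := by
    rw [eR 0]
    have : (0 : ℝ) ≤ m * rz R i0 0 := by positivity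
    linarith
  -- the first term
  have c4 : (0 : ℝ) ≤ (rz R i0 N : ℝ) - rz R i0 0 := by
    have : (rz R i0 0 : ℝ) ≤ rz R i0 N := by exact_mod_cast hrm 0 N (Nat.zero_le _)
    linarith
  have c5 : (m : ℝ) * ((rz R i0 N : ℝ) - rz R i0 0) ≤ (σ.K1 + 1) * h := by
    have d1 := eR N
    have d2 := eR 0
    have d3 := hR.qr
    have d4 : (m : ℝ) * ((rz R i0 N : ℝ) - rz R i0 0) = (r0 + m * rz R i0 N) - (r0 + m * rz R i0 0) := by ring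
    rw [d4, ← d1, ← d2]
    linarith
  have t1 : 2 * σ.θ * h / ν * ((rz R i0 N : ℝ) - rz R i0 0) ≤ 8 * (σ.K1 + 1) * s * h :=
    xo_t1 hs0 hsθ hm0 hh0 hν0 hν1 c4 c5
  -- the second term
  have hak : (1 - σ.θ) * h - s * h / 2 ≤ R.C.a (ix R i0 j0) := by
    have d1 := hR.ex
    rw [← hfN, eA N] at d1
    rw [eA j0]
    have d2 : (az R i0 N : ℝ) ≤ az R i0 j0 + ν := by exact_mod_cast hj1
    have d3 := mul_le_mul_of_nonneg_left d2 hm0.le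
    rw [mul_add] at d3
    linarith
  have hcnt : 8 * e * m < ρ.c' * ((R.C.a (ix R i0 j0) : ℝ) - a2 - m) := by
    have hc0 := hρ.c'0
    have d1 : e ≤ ε ^ 2 * ρ.c' * σ.δ1 * h / (1000 * m) := by
      first
        | exact hR.le
        | exact hR.le.trans (div_pow_le (by positivity) hρ.K1 hm0)
    exact xo_cnt hs0 hs1 hsθ hm0 hh0 hc0 hδ0 hδ hε0 hε1 d1 ha2 hak hmh
  have t2 : R.m * Real.log 2 * ((rz R i0 N : ℝ) - rz R i0 j0) ≤ 10 * σ.C1 * s * h + σ.C1 * σ.δ1 * h + 12 * m := by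
    have d1 := rise_end hρ hR hs hm hr2 (hfle j0) hcnt (R.m * R.b1)
    rw [← hfN, eR N, eR j0] at d1
    have d2 : max (10 * σ.C1 * s * h) (σ.C1 * σ.δ1 * h) ≤ 10 * σ.C1 * s * h + σ.C1 * σ.δ1 * h := by
      refine max_le ?_ ?_
      · have : 0 ≤ σ.C1 * σ.δ1 * h := by positivity
        linarith
      · have : 0 ≤ 10 * σ.C1 * s * h := by positivity
        linarith
    have d3 : (0 : ℝ) ≤ (rz R i0 N : ℝ) - rz R i0 j0 := by
      have : (rz R i0 j0 : ℝ) ≤ rz R i0 N := by exact_mod_cast hrm j0 N hj3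
      linarith
    have d4 : Real.log 2 ≤ 1 := by
      have := Real.log_two_lt_d9
      linarith
    have d5 : (m : ℝ) * ((rz R i0 N : ℝ) - rz R i0 j0) ≤ 10 * σ.C1 * s * h + σ.C1 * σ.δ1 * h + 12 * m := by
      have : (m : ℝ) * ((rz R i0 N : ℝ) - rz R i0 j0) = (r0 + m * rz R i0 N) - (r0 + m * rz R i0 j0) := by ring
      linarith
    rw [hR.hm]
    calc (m : ℝ) * Real.log 2 * ((rz R i0 N : ℝ) - rz R i0 j0) =
          Real.log 2 * (m * ((rz R i0 N : ℝ) - rz R i0 j0)) := by ring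
      _ ≤ 1 * (m * ((rz R i0 N : ℝ) - rz R i0 j0)) := mul_le_mul_of_nonneg_right d4 (by positivity)
      _ ≤ _ := by rw [one_mul]; exact d5
  have e1 : ((8 * (σ.K1 + 1) + 10 * σ.C1) * s + σ.C1 * σ.δ1) * h =
      8 * (σ.K1 + 1) * s * h + 10 * σ.C1 * s * h + σ.C1 * σ.δ1 * h := by ring
  rw [e1]
  linarith

/-- the condition on `L0` -/
theorem L0_ok {σ : Cst} {ε : ℝ} {ρ : Thr} {m B : ℕ} {Ω : Type} [Fintype Ω] {Q : Law Ω} {l : Ω → Ry} {t : Ω → ℝ}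
    {L h q r0 Rn : ℕ} {W : Ω → Cbx} {τ υ : Type} {R : Run Ω τ υ} {p : Run.Num} {g' gU e κ₀ : ℝ} {a1 r1 : ℕ}
    (hR : RunOk σ ε ρ m B Q l t L h q r0 Rn W R p g' gU e κ₀ a1 r1) {β β' ε' d : ℝ} (hβ : β' - β ≤ ε) (hε' : ε' ≤ ε)
    (hd : d ≤ ε) (hθ : σ.δ1 + 4 * ε ≤ σ.θ) {i0 : ℕ} (hi0 : i0 ≤ Cmp.Nc R R.b1)
    (hnn : 0 ≤ β' + ε' - β + d) :
    (((R.h : ℝ) - R.C.a (ix R i0 (nz R i0))) + (R.m * R.b1 : ℕ) + (β' + ε' - β + d) * R.h) * Real.log 2 + gU ≤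
      2 * σ.θ * h := by
  have hfN : ix R i0 (nz R i0) = R.n := by
    show Cmp.idx R R.b1 (i0 + (Cmp.Nc R R.b1 - i0)) = R.n
    rw [Nat.add_sub_cancel' hi0]
    exact Cmp.idx_top
  rw [hfN, hR.hh]
  have h1 := hR.ex
  have hb : ((R.m * R.b1 : ℕ) : ℝ) ≤ σ.δ1 * h := by
    have h2 := hR.cap.top
    have h3 : R.m * R.b1 ≤ p.B₁ := le_trans (Nat.mul_le_mul_left _ (Nat.le_add_right _ _)) h2
    have h4 : ((R.m * R.b1 : ℕ) : ℝ) ≤ p.B₁ := by exact_mod_cast h3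
    exact h4.trans hR.B1
  have hh : (0 : ℝ) ≤ h := Nat.cast_nonneg _
  have ha : (R.C.a R.n : ℝ) ≤ h := by
    have h2 := hR.ok.pth.rA
    have h3 : R.C.a R.n ≤ R.C.a (R.n + p.J) := R.C.ha (Nat.le_add_right _ _)
    rw [hR.hh] at h2
    exact_mod_cast h3.trans h2
  have hl : Real.log 2 ≤ 1 := by
    have := Real.log_two_lt_d9
    linarith
  have h5 : (β' + ε' - β + d) * h ≤ 3 * ε * h := mul_le_mul_of_nonneg_right (by linarith) hh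
  have h6 : 0 ≤ (β' + ε' - β + d) * h := mul_nonneg hnn hh
  have h7 : (0 : ℝ) ≤ ((R.m * R.b1 : ℕ) : ℝ) := Nat.cast_nonneg _
  have h8 : (((h : ℝ) - R.C.a R.n) + (R.m * R.b1 : ℕ) + (β' + ε' - β + d) * h) * Real.log 2 ≤
      (((h : ℝ) - R.C.a R.n) + (R.m * R.b1 : ℕ) + (β' + ε' - β + d) * h) * 1 :=
    mul_le_mul_of_nonneg_left hl (by linarith)
  have h9 := hR.gU1
  have h10 : (σ.δ1 + 4 * ε) * h ≤ σ.θ * h := mul_le_mul_of_nonneg_right hθ hh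
  have h11 : (σ.δ1 + 4 * ε) * h = σ.δ1 * h + 3 * ε * h + ε * h := by ring
  have h12 : (1 - σ.θ) * h = h - σ.θ * h := by ring
  linarith

/-- **prices of the letters** along the compressed path -/
theorem qc_sum {σ : Cst} {ε : ℝ} {ρ : Thr} {m B : ℕ} {Ω : Type} [Fintype Ω] {Q : Law Ω} {l : Ω → Ry} {t : Ω → ℝ}
    {L h q r0 Rn : ℕ} {W : Ω → Cbx} {τ υ : Type} {R : Run Ω τ υ} {p : Run.Num} {g' gU e κ₀ : ℝ} {a1 r1 : ℕ}
    (hR : RunOk σ ε ρ m B Q l t L h q r0 Rn W R p g' gU e κ₀ a1 r1) (i0 N : ℕ) :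
    ∑ j ∈ range N, H833.qc R.Q R.ry (fun i => H931.Zw R (ix R i0 i))
      (fun i ω => fl1 (R.C.a (ix R i0 i)) (R.C.t ω)) j ≤ 2 * ε * h := by
  have h1 := H931.qcs_sum hR.ok (MIC.ix_mono R i0) (N := N) (by
    have : ix R i0 N ≤ R.n := Cmp.idx_le _
    omega)
  have h2 := hR.gU1
  have h3 := hR.g'1
  linarith

/-- **two zones** -/
theorem qG_sum2 {S1 S2 : Finset ℕ} {L1 L2 : ℕ} {mm c1 cz1 c2 cz2 : ℝ} {q : ℕ → ℝ} (hm : 0 ≤ mm) (hc1 : 0 ≤ c1)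
    (hcz1 : 0 ≤ cz1) (hc2 : 0 ≤ c2) (hcz2 : 0 ≤ cz2) (n : ℕ) :
    ∑ t ∈ range n, H118.qG S2 L2 mm c2 cz2 (H118.qG S1 L1 mm c1 cz1 q) t ≤ ∑ t ∈ range n, q t +
      S1.card * (3 * mm * L1 + (3 * mm + 2 * c1 + cz1)) + S2.card * (3 * mm * L2 + (3 * mm + 2 * c2 + cz2)) := by
  have h1 := H118.sum_qG (S := S2) (L2 := L2) (q := H118.qG S1 L1 mm c1 cz1 q) hm hc2 hcz2 n
  have h2 := H118.sum_qG (S := S1) (L2 := L1) (q := q) hm hc1 hcz1 n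
  linarith

/-- **[QS]** the whole sum: letters, overhang, near-losses `x`, two zones.  `s = √θ` -/
theorem qs_total {σ : Cst} {ε : ℝ} {ρ : Thr} (hρ : ρ.Ok) {m B : ℕ} {Ω : Type} [Fintype Ω] {Q : Law Ω} {l : Ω → Ry} {t : Ω → ℝ}
    {L h q r0 Rn : ℕ} {W : Ω → Cbx} {τ υ : Type} {R : Run Ω τ υ} {p : Run.Num} {g' gU e κ₀ : ℝ} {a1 r1 : ℕ}
    (hR : RunOk σ ε ρ m B Q l t L h q r0 Rn W R p g' gU e κ₀ a1 r1) {a2 r2 : ℕ} {s : ℝ}
    (hs0 : 0 < s) (hs1 : s ≤ 1 / 16) (hsθ : σ.θ = s ^ 2) (hδ0 : 0 < σ.δ1) (hδ : 8 * σ.δ1 ≤ σ.θ) (hε0 : 0 ≤ ε) (hε1 : ε ≤ 1)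
    (hC1 : 0 ≤ σ.C1)
    (hs : r2 = 0 ∨ SwF R ρ.K a2 r2) (ha2 : (a2 : ℝ) ≤ (1 - s) * h) (hr2 : (q : ℝ) ≤ r2 + 10 * σ.C1 * s * h)
    (hm : 4 * ρ.K ≤ 2 ^ m) (hmh : 16 * (m : ℝ) ≤ s * h) {i0 : ℕ} (hi0 : i0 ≤ Cmp.Nc R R.b1)
    {S1 S2 : Finset ℕ} {L1 L2 : ℕ} {c1 cz1 c2 cz2 : ℝ} (hc1 : 0 ≤ c1) (hcz1 : 0 ≤ cz1) (hc2 : 0 ≤ c2) (hcz2 : 0 ≤ cz2)
    {x : ℕ → ℝ} {X : ℝ} (hx : ∑ j ∈ range (nz R i0), x j ≤ X) :
    ∑ j ∈ range (nz R i0), H118.qG S2 L2 (m * Real.log 2) c2 cz2 (H118.qG S1 L1 (m * Real.log 2) c1 cz1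
        (fun j => H833.qc R.Q R.ry (fun i => H931.Zw R (ix R i0 i)) (fun i ω => fl1 (R.C.a (ix R i0 i)) (R.C.t ω)) j +
          xoR (R.m * Real.log 2) (2 * σ.θ * h) (nuE s h m) (az R i0) (rz R i0) (nz R i0) j + x j)) j ≤
      (2 * ε + (8 * (σ.K1 + 1) + 10 * σ.C1) * s + σ.C1 * σ.δ1) * h + 12 * m + X +
        S1.card * (3 * (m * Real.log 2) * L1 + (3 * (m * Real.log 2) + 2 * c1 + cz1)) +
        S2.card * (3 * (m * Real.log 2) * L2 + (3 * (m * Real.log 2) + 2 * c2 + cz2)) := by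
  have h0 : 0 ≤ (m : ℝ) * Real.log 2 := mul_nonneg (Nat.cast_nonneg _) (Real.log_nonneg (by norm_num))
  have h1 := qG_sum2 (S1 := S1) (S2 := S2) (L1 := L1) (L2 := L2) (q := fun j =>
    H833.qc R.Q R.ry (fun i => H931.Zw R (ix R i0 i)) (fun i ω => fl1 (R.C.a (ix R i0 i)) (R.C.t ω)) j +
      xoR (R.m * Real.log 2) (2 * σ.θ * h) (nuE s h m) (az R i0) (rz R i0) (nz R i0) j + x j) h0 hc1 hcz1 hc2 hcz2 (nz R i0)
  have h2 := qc_sum hR i0 (nz R i0)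
  have h3 := (xo_sum hρ hR hs0 hs1 hsθ hδ0 hδ hε0 hε1 hC1 hs ha2 hr2 hm hmh hi0).2
  rw [Finset.sum_add_distrib, Finset.sum_add_distrib] at h1
  have e1 : (2 * ε + (8 * (σ.K1 + 1) + 10 * σ.C1) * s + σ.C1 * σ.δ1) * h =
      2 * ε * h + ((8 * (σ.K1 + 1) + 10 * σ.C1) * s + σ.C1 * σ.δ1) * h := by ring
  rw [e1]
  linarith

/-- the constants of [QS] -/
structure QCst (σ : Cst) (ε κ : ℝ) : Prop where
  s1 : Real.sqrt σ.θ ≤ 1 / 16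
  L0 : σ.δ1 + 4 * ε ≤ σ.θ
  ε1 : ε ≤ 1
  tot : 2 * ε + (8 * (σ.K1 + 1) + 10 * σ.C1) * Real.sqrt σ.θ + σ.C1 * σ.δ1 ≤ κ

/-- the numbers of [QS] -/
structure QNum (σ : Cst) (κ : ℝ) (ρ : Thr) (m h : ℕ) : Prop where
  K : 4 * ρ.K ≤ 2 ^ m
  h16 : 16 * (m : ℝ) ≤ Real.sqrt σ.θ * h
  h12 : 12 * (m : ℝ) ≤ κ * h

theorem qcst_ex {b : Bs} (hb : b.Ok) {κ : ℝ} (hκ : 0 < κ) :
    ∃ θ0 : ℝ, 0 < θ0 ∧ ∀ θ : ℝ, 0 < θ → θ ≤ θ0 → ∃ δ0 : ℝ, 0 < δ0 ∧ ∀ δ1 : ℝ, 0 < δ1 → δ1 ≤ δ0 →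
      ∃ ε0 : ℝ, 0 < ε0 ∧ ∀ ε : ℝ, 0 < ε → ε ≤ ε0 → QCst ⟨b, θ, δ1⟩ ε κ := by
  have hl := hb.lam0
  have hC1 : 0 < b.C1 := by
    show 0 < 1000 / b.lam + 1
    positivity
  have hK1 := hb.K10
  set A : ℝ := 8 * (b.K1 + 1) + 10 * b.C1 with hA
  have hA0 : 0 < A := by positivity
  set s0 : ℝ := min (1 / 16) (κ / (4 * A)) with hs0
  have hs00 : 0 < s0 := by positivity
  refine ⟨s0 ^ 2, by positivity, fun θ hθ hθ1 => ?_⟩
  have hs1 : Real.sqrt θ ≤ s0 := Real.sqrt_le_iff.2 ⟨hs00.le, hθ1⟩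
  refine ⟨min (θ / 2) (κ / (4 * b.C1)), by positivity, fun δ1 hδ hδ1 => ?_⟩
  have hδ2 : δ1 ≤ θ / 2 := hδ1.trans (min_le_left _ _)
  have hδ3 : δ1 ≤ κ / (4 * b.C1) := hδ1.trans (min_le_right _ _)
  refine ⟨min 1 (min (θ / 8) (κ / 8)), by positivity, fun ε hε hε1 => ?_⟩
  have hε2 : ε ≤ 1 := hε1.trans (min_le_left _ _)
  have hε3 : ε ≤ θ / 8 := hε1.trans ((min_le_right _ _).trans (min_le_left _ _))
  have hε4 : ε ≤ κ / 8 := hε1.trans ((min_le_right _ _).trans (min_le_right _ _))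
  refine ⟨hs1.trans (min_le_left _ _), ?_, hε2, ?_⟩
  · show δ1 + 4 * ε ≤ θ
    linarith
  · show 2 * ε + (8 * (b.K1 + 1) + 10 * b.C1) * Real.sqrt θ + b.C1 * δ1 ≤ κ
    rw [← hA]
    have h1 : A * Real.sqrt θ ≤ κ / 4 := by
      have h2 : Real.sqrt θ ≤ κ / (4 * A) := hs1.trans (min_le_right _ _)
      have h3 := mul_le_mul_of_nonneg_left h2 hA0.le
      refine h3.trans (le_of_eq ?_)
      field_simp
    have h4 : b.C1 * δ1 ≤ κ / 4 := by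
      have h3 := mul_le_mul_of_nonneg_left hδ3 hC1.le
      refine h3.trans (le_of_eq ?_)
      field_simp
    linarith

theorem ev_QNum {σ : Cst} (hθ : 0 < σ.θ) {κ : ℝ} (hκ : 0 < κ) (ρ : Thr) : H652.Ev3 fun m _ h => QNum σ κ ρ m h := by
  have h1 : H652.Ev3 fun m _ _ => 4 * ρ.K ≤ (2 : ℝ) ^ m :=
    H652.Ev3.of_m ((tendsto_pow_atTop_atTop_of_one_lt (one_lt_two (α := ℝ))).eventually_ge_atTop _)
  have h2 : H652.Ev3 fun m _ h => 16 * (m : ℝ) ≤ Real.sqrt σ.θ * h :=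
    H652.Ev3.of_h fun m _ => H652.ev_con _ (Real.sqrt_pos.2 hθ)
  have h3 : H652.Ev3 fun m _ h => 12 * (m : ℝ) ≤ κ * h := H652.Ev3.of_h fun m _ => H652.ev_con _ hκ
  exact (h1.and (h2.and h3)).mono fun m B h H => ⟨H.1, H.2.1, H.2.2⟩

section rec

variable {σ : Cst} {ε : ℝ} {ρ : Thr} {m B : ℕ} {Ω : Type} [Fintype Ω] {Q : Law Ω} {l : Ω → Ry} {t : Ω → ℝ}
  {L h q r0 Rn : ℕ} {W : Ω → Cbx} {τ υ : Type} {R : Run Ω τ υ} {p : Run.Num} {g' gU e κ₀ : ℝ} {a1 r1 : ℕ}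

theorem C1_nonneg (hσ : σ.Ok) : 0 ≤ σ.C1 := by
  have := hσ.bs.lam0
  show 0 ≤ 1000 / σ.lam + 1
  positivity

/-- **price of the overhang** over the record -/
theorem xo_rec (hσ : σ.Ok) (hρ : ρ.Ok) (hR : RunOk σ ε ρ m B Q l t L h q r0 Rn W R p g' gU e κ₀ a1 r1) (hε0 : 0 ≤ ε) {κ : ℝ}
    (hC : QCst σ ε κ) (hN : QNum σ κ ρ m h) {i0 : ℕ} (hi0 : i0 ≤ Cmp.Nc R R.b1) :
    0 < nuE (Real.sqrt σ.θ) h m ∧
    ∑ j ∈ range (nz R i0),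
        xoR (R.m * Real.log 2) (2 * σ.θ * h) (nuE (Real.sqrt σ.θ) h m) (az R i0) (rz R i0) (nz R i0) j ≤
      ((8 * (σ.K1 + 1) + 10 * σ.C1) * Real.sqrt σ.θ + σ.C1 * σ.δ1) * h + 12 * m := by
  obtain ⟨a2, r2, h1, h2, h3, -⟩ := hR.lev2
  exact xo_sum hρ hR (Real.sqrt_pos.2 hσ.θ0) hC.s1 (Real.sq_sqrt hσ.θ0.le).symm hσ.δ0 hσ.δθ hε0 hC.ε1 (C1_nonneg hσ) h1 h2 h3
    hN.K hN.h16 hi0

/-- **[QS] over the record** : letters, overhang, near-losses `x`, two zones -/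
theorem qs_rec (hσ : σ.Ok) (hρ : ρ.Ok) (hR : RunOk σ ε ρ m B Q l t L h q r0 Rn W R p g' gU e κ₀ a1 r1) (hε0 : 0 ≤ ε) {κ : ℝ}
    (hC : QCst σ ε κ) (hN : QNum σ κ ρ m h) {i0 : ℕ} (hi0 : i0 ≤ Cmp.Nc R R.b1)
    {S1 S2 : Finset ℕ} {L1 L2 : ℕ} {c1 cz1 c2 cz2 : ℝ} (hc1 : 0 ≤ c1) (hcz1 : 0 ≤ cz1) (hc2 : 0 ≤ c2) (hcz2 : 0 ≤ cz2)
    {x : ℕ → ℝ} {X : ℝ} (hx : ∑ j ∈ range (nz R i0), x j ≤ X) :
    ∑ j ∈ range (nz R i0), H118.qG S2 L2 (m * Real.log 2) c2 cz2 (H118.qG S1 L1 (m * Real.log 2) c1 cz1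
        (fun j => H833.qc R.Q R.ry (fun i => H931.Zw R (ix R i0 i)) (fun i ω => fl1 (R.C.a (ix R i0 i)) (R.C.t ω)) j +
          xoR (R.m * Real.log 2) (2 * σ.θ * h) (nuE (Real.sqrt σ.θ) h m) (az R i0) (rz R i0) (nz R i0) j + x j)) j ≤
      2 * κ * h + X +
        S1.card * (3 * (m * Real.log 2) * L1 + (3 * (m * Real.log 2) + 2 * c1 + cz1)) +
        S2.card * (3 * (m * Real.log 2) * L2 + (3 * (m * Real.log 2) + 2 * c2 + cz2)) := by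
  obtain ⟨a2, r2, h1, h2, h3, -⟩ := hR.lev2
  have h4 := qs_total hρ hR (Real.sqrt_pos.2 hσ.θ0) hC.s1 (Real.sq_sqrt hσ.θ0.le).symm hσ.δ0 hσ.δθ hε0 hC.ε1
    (C1_nonneg hσ) h1 h2 h3 hN.K hN.h16 hi0 (S1 := S1) (S2 := S2) (L1 := L1) (L2 := L2) hc1 hcz1 hc2 hcz2 hx
  have h5 : (2 * ε + (8 * (σ.K1 + 1) + 10 * σ.C1) * Real.sqrt σ.θ + σ.C1 * σ.δ1) * h ≤ κ * h :=
    mul_le_mul_of_nonneg_right hC.tot (Nat.cast_nonneg _)
  have h6 := hN.h12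
  linarith

/-- the letters and the overhang only, in helper679's form `∑ (qc + xo)` -/
theorem qs_rec0 (hσ : σ.Ok) (hρ : ρ.Ok) (hR : RunOk σ ε ρ m B Q l t L h q r0 Rn W R p g' gU e κ₀ a1 r1) (hε0 : 0 ≤ ε) {κ : ℝ}
    (hC : QCst σ ε κ) (hN : QNum σ κ ρ m h) {i0 : ℕ} (hi0 : i0 ≤ Cmp.Nc R R.b1) :
    ∑ j ∈ range (nz R i0),
        (H833.qc R.Q R.ry (fun i => H931.Zw R (ix R i0 i)) (fun i ω => fl1 (R.C.a (ix R i0 i)) (R.C.t ω)) j +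
          xoR (R.m * Real.log 2) (2 * σ.θ * h) (nuE (Real.sqrt σ.θ) h m) (az R i0) (rz R i0) (nz R i0) j) ≤
      2 * κ * h := by
  have h1 := qc_sum hR i0 (nz R i0)
  have h2 := (xo_rec hσ hρ hR hε0 hC hN hi0).2
  rw [Finset.sum_add_distrib]
  have h5 : (2 * ε + (8 * (σ.K1 + 1) + 10 * σ.C1) * Real.sqrt σ.θ + σ.C1 * σ.δ1) * h ≤ κ * h :=
    mul_le_mul_of_nonneg_right hC.tot (Nat.cast_nonneg _)
  have h6 := hN.h12
  have h7 : (2 * ε + (8 * (σ.K1 + 1) + 10 * σ.C1) * Real.sqrt σ.θ + σ.C1 * σ.δ1) * h =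
      2 * ε * h + ((8 * (σ.K1 + 1) + 10 * σ.C1) * Real.sqrt σ.θ + σ.C1 * σ.δ1) * h := by ring
  linarith

end rec

end Vale.Agent.P106.U.H425
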