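import Vale.Agent.P106.U.H425.ActC
import Vale.Agent.P106.U.S3.Props

/-!
# P106 / U / H425 : light time blocks given the ray side and a further letter (`Run.Light.time`) (helper425)

* `light_time` : abstract, base law = the law itself.
* `time_nex` : the field `time` of `Run.Light` for a near-extremal law, `κ₀ = 2 / (ct m log 2)`.
-/

set_option autoImplicit false

namespace Vale.Agent.P106.U.H425

open Finset Vale.Agent.P127 Vale.Agent.P127.Stk Vale.Agent.P127.U.Cell Vale.Agent.P127.U.Nonat Vale.Agent.P127.U.Act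
open Vale.Agent.P127.U.Mic (cq colp colp_mono_cond colp_mono_var)

section abs

variable {Ω : Type} [Fintype Ω] (P : Law Ω) {T U X' : Type*}

/-- information of the ray side about the time blocks -/
theorem light_abs {Z₀ : ℕ → Ω → T} {Z₁ : ℕ → Ω → U} {X : ℕ → Ω → X'} {n : ℕ}
    (h0 : ∀ i < n, Fn P (Z₀ i) (Z₀ (i + 1)))
    (h01 : ∀ i ≤ n, Fn P (Z₀ i) (Z₁ i)) (hX : ∀ i < n, Fn P (X i) (Z₀ (i + 1))) {gU : ℝ}
    (hg : Stk.hc P (Z₁ 0) (Z₀ 0) + ∑ i ∈ range n, Stk.hc P (Z₁ (i + 1)) (fun ω => (Z₁ i ω, Z₀ (i + 1) ω)) ≤ gU)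
    {c : ℝ} (hc0 : 0 < c) (I : Finset ℕ) (hI : I ⊆ range n) (δ : Type) (Y : ℕ → Ω → δ) :
    ∑ i ∈ I, colp P (X i) (fun ω => (Z₁ i ω, Y i ω)) ≤
      (∑ i ∈ I, P.pr (gs P (X i) (Z₀ i) c) false + 2 / c * (gU + I.card * Real.log 2) + I.card * Real.exp (-(c / 2))) +
        2 / c * ∑ i ∈ I, mi P (X i) (Y i) (Z₁ i) := by
  have step : ∀ i ∈ I, colp P (X i) (fun ω => (Z₁ i ω, Y i ω)) ≤ P.pr (gs P (X i) (Z₀ i) c) false +
      2 / c * (mi P (X i) (Z₁ i) (Z₀ i) + mi P (X i) (Y i) (Z₁ i) + Real.log 2) + Real.exp (-(c / 2)) := by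
    intro i hi
    have hin := Finset.mem_range.1 (hI hi)
    have k0 : Fn P (Z₀ i) (fun ω => (Y i ω, Z₁ i ω)) := fun a b ha hb e =>
      h01 i hin.le a b ha hb (congrArg Prod.snd e)
    have k1 := KL.gs_transfer P (X i) (fun ω => (Y i ω, Z₁ i ω)) (Z₀ i) k0 hc0
    have k2 := colp_le P (X i) (fun ω => (Y i ω, Z₁ i ω)) (c / 2)
    have k3 : colp P (X i) (fun ω => (Z₁ i ω, Y i ω)) ≤ colp P (X i) (fun ω => (Y i ω, Z₁ i ω)) :=
      colp_mono_cond P (X i) fun a b _ _ e => by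
        simp only [Prod.mk.injEq] at e ⊢
        exact ⟨e.2, e.1⟩
    have k4 : colp P (X i) (fun ω => (Y i ω, Z₁ i ω)) = P.ex (cp P (X i) (fun ω => (Y i ω, Z₁ i ω))) := rfl
    have k5 : hc P (X i) (fun ω => (Z₁ i ω, Z₀ i ω)) = hc P (X i) (Z₁ i) := by
      refine hc_congr P (fun _ _ _ _ e => congrArg Prod.fst e) (fun _ _ _ _ e => congrArg Prod.fst e) ?_ ?_
      · intro a b ha hb e
        exact Prod.ext e (h01 i hin.le a b ha hb e)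
      · intro a b _ _ e
        exact congrArg Prod.fst e
    have k6 : hc P (X i) (Z₀ i) - hc P (X i) (fun ω => (Y i ω, Z₁ i ω)) =
        mi P (X i) (Z₁ i) (Z₀ i) + mi P (X i) (Y i) (Z₁ i) := by
      unfold mi
      linarith
    rw [k6] at k1
    linarith
  have s1 := sum_ahead P h0 (fun i => Stk.hc P (Z₁ (i + 1)) (fun ω => (Z₁ i ω, Z₀ (i + 1) ω))) (fun i _ => le_rfl) hX
  have s3 : ∑ i ∈ I, mi P (X i) (Z₁ i) (Z₀ i) ≤ ∑ i ∈ range n, mi P (X i) (Z₁ i) (Z₀ i) :=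
    Finset.sum_le_sum_of_subset_of_nonneg hI fun i _ _ => mi_nonneg P _ _ _
  have s5 := Finset.sum_le_sum step
  rw [Finset.sum_add_distrib, Finset.sum_add_distrib, Finset.sum_const, nsmul_eq_mul, ← Finset.mul_sum,
    Finset.sum_add_distrib, Finset.sum_add_distrib, Finset.sum_const, nsmul_eq_mul] at s5
  have s6 : 0 ≤ hc P (Z₁ n) (Z₀ n) := hc_nonneg P _ _
  have s8 : (0 : ℝ) ≤ 2 / c := by positivity
  have s9 : 2 / c * (∑ i ∈ I, mi P (X i) (Z₁ i) (Z₀ i) + ∑ i ∈ I, mi P (X i) (Y i) (Z₁ i) + I.card * Real.log 2) ≤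
      2 / c * (gU + ∑ i ∈ I, mi P (X i) (Y i) (Z₁ i) + I.card * Real.log 2) := by
    refine mul_le_mul_of_nonneg_left ?_ s8
    have : hc P (Z₁ 0) (Z₀ 0) - hc P (Z₁ n) (Z₀ n) + ∑ i ∈ range n, Stk.hc P (Z₁ (i + 1))
      (fun ω => (Z₁ i ω, Z₀ (i + 1) ω)) ≤ gU := by linarith
    linarith
  have s10 : 2 / c * (gU + ∑ i ∈ I, mi P (X i) (Y i) (Z₁ i) + I.card * Real.log 2) =
      2 / c * (gU + I.card * Real.log 2) + 2 / c * ∑ i ∈ I, mi P (X i) (Y i) (Z₁ i) := by ring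
  linarith

end abs

section run

open Vale.Agent.P106.K Vale.Agent.P106.U.H404 Vale.Agent.P106.U.S3
open Vale.Agent.P106.U (NEx)

/-- the error of the time blocks -/
noncomputable def eT (N k β β' ct d ε K h m n' gU cA : ℝ) : ℝ :=
  ((β' - β + d + ε) * h * Real.log 2 + K * (n' + 1)) / ((β' + N - 2 - 4 * k - N * ct) * (m * Real.log 2)) +
    2 / (ct * m * Real.log 2) * (gU + cA * Real.log 2) + cA * (2 : ℝ) ^ (-(ct * m / 2))

open Classical in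
/-- **`Run.Light.time`** for a near-extremal law -/
theorem time_nex {lam N k β β' ct : ℝ} (h0 : 0 ≤ lam) (h1 : lam ≤ 1) (hk : 0 < k) (hN : 0 ≤ N) (hβ' : 0 ≤ β')
    (hF : FIXA lam N (4 * k) β') (hct : 0 < ct) (hκ : 0 < β' + N - 2 - 4 * k - N * ct) {c : ℝ} (hc : 1 ≤ c) {ε : ℝ}
    (hε : 0 < ε) :
    ∃ K : ℝ, 0 ≤ K ∧ ∀ (Ω : Type) [Fintype Ω] (τ υ : Type) (R : Run Ω τ υ) (p : Run.Num) (gU d : ℝ),
      R.Path p → (∀ i ≤ R.n + p.J, Fn R.Q (fun ω => fl1 (R.C.a i) (R.t ω)) (R.Z i)) →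
      Stk.hc R.Q (R.U 0) R.ry +
        ∑ i ∈ range (R.n + p.J), Stk.hc R.Q (R.U (i + 1)) (fun ω => (R.Z i ω, fl1 (R.C.a (i + 1)) (R.t ω))) ≤ gU →
      NEx c lam N k β d R.Q R.ry R.t (fun _ => ()) R.L R.h R.q R.W →
      ∀ (n' : ℕ), R.m * n' ≤ R.h → (∀ i ∈ R.aS, ∃ j < n', R.C.a i = R.m * j) →
      ∀ (δ : Type) (X : ℕ → Ω → δ), ∑ i ∈ R.aS, colp R.Q (R.tb i) (fun ω => (R.Z i ω, X i ω)) ≤
        eT N k β β' ct d ε K R.h R.m n' gU R.aS.card +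
          2 / (ct * R.m * Real.log 2) * ∑ i ∈ R.aS, mi R.Q (R.tb i) (X i) (R.Z i) := by
  obtain ⟨K, hK0, hK⟩ := H404.actX lam N k β β' ct h0 h1 hk hN hβ' hF hκ.le c hc ε hε
  refine ⟨K, hK0, ?_⟩
  intro Ω _ τ υ R p gU d hpth hUt hprU hX n' hn' haj δ X
  have hlog : 0 < Real.log 2 := Real.log_pos (by norm_num)
  have hm1 := hpth.m1
  have hm0 : (0 : ℝ) < R.m := by exact_mod_cast hm1
  have hBd := hK (d * R.h * Real.log 2) Ω Unit R.Q R.ry R.t (fun _ => ()) R.L R.h (0, R.q) R.W hX.ok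
    (by have := hX.hL; omega) (fun ω hω => by
      obtain ⟨e1, e2, e3⟩ := hX.lb ω hω
      exact ⟨e1, by rw [e2]; simp, e3⟩) (by
      have := hX.ex
      linarith) R.m 0 n' (by omega)
  have e1 : d * R.h * Real.log 2 + (β' - β + ε) * R.h * Real.log 2 + K * (n' + 1) =
      (β' - β + d + ε) * R.h * Real.log 2 + K * (n' + 1) := by ring
  rw [e1] at hBd
  have hv : 0 < ct * R.m * Real.log 2 := by positivity
  -- the letters
  set Z₀ : ℕ → Ω → Ry × ℤ × Unit := fun i ω => (R.ry ω, fl1 (R.C.a i) (R.t ω), ()) with hZ₀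
  have k0 : ∀ i < R.n + p.J, Fn R.Q (Z₀ i) (Z₀ (i + 1)) := by
    intro i _ x y _ _ h
    simp only [hZ₀, Prod.mk.injEq] at h ⊢
    exact ⟨h.1, fl1_le (R.C.ha (Nat.le_succ i)) h.2.1, trivial⟩
  have k01 : ∀ i ≤ R.n + p.J, Fn R.Q (Z₀ i) (R.Z i) := by
    intro i hi x y hx hy h
    simp only [hZ₀, Prod.mk.injEq]
    exact ⟨congrArg Prod.fst h, hUt i hi x y hx hy h, trivial⟩
  have hI : R.aS ⊆ range (R.n + p.J) := by
    intro i hi
    have := Finset.mem_range.1 (Finset.mem_filter.1 hi).1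
    exact Finset.mem_range.2 (by omega)
  have hIA : ∀ i ∈ R.aS, R.C.a (i + 1) = R.C.a i + R.m := fun i hi => (Finset.mem_filter.1 hi).2
  have kX : ∀ i < R.n + p.J, Fn R.Q (fun ω => fl1 (R.C.a (i + 1)) (R.t ω)) (Z₀ (i + 1)) := by
    intro i _ x y _ _ h
    exact (Prod.mk.inj (Prod.mk.inj h).2).1
  have hgU : Stk.hc R.Q (R.Z 0) (Z₀ 0) + ∑ i ∈ range (R.n + p.J),
      Stk.hc R.Q (R.Z (i + 1)) (fun ω => (R.Z i ω, Z₀ (i + 1) ω)) ≤ gU := by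
    refine le_trans (add_le_add ?_ (Finset.sum_le_sum fun i _ => ?_)) hprU
    · have g1 : Stk.hc R.Q (R.Z 0) (Z₀ 0) ≤ Stk.hc R.Q (R.U 0) (Z₀ 0) :=
        Stk.hc_mono_left R.Q fun x y _ _ e => by
          simp only [hZ₀, Prod.mk.injEq] at e
          exact Prod.ext e.2.1 e.1
      have g2 : Stk.hc R.Q (R.U 0) (Z₀ 0) ≤ Stk.hc R.Q (R.U 0) R.ry :=
        Stk.hc_mono_right R.Q _ fun x y _ _ e => congrArg Prod.fst e
      exact g1.trans g2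
    · have g1 : Stk.hc R.Q (R.Z (i + 1)) (fun ω => (R.Z i ω, Z₀ (i + 1) ω)) ≤
          Stk.hc R.Q (R.U (i + 1)) (fun ω => (R.Z i ω, Z₀ (i + 1) ω)) :=
        Stk.hc_mono_left R.Q fun x y _ _ e => by
          simp only [hZ₀, Prod.mk.injEq] at e
          exact Prod.ext e.2.2.1 e.1
      have g2 : Stk.hc R.Q (R.U (i + 1)) (fun ω => (R.Z i ω, Z₀ (i + 1) ω)) ≤
          Stk.hc R.Q (R.U (i + 1)) (fun ω => (R.Z i ω, fl1 (R.C.a (i + 1)) (R.t ω))) :=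
        Stk.hc_mono_right R.Q _ fun x y _ _ e => by
          simp only [hZ₀, Prod.mk.injEq] at e ⊢
          exact ⟨e.1, e.2.2.1⟩
      exact g1.trans g2
  have key := light_abs R.Q (Z₀ := Z₀) (Z₁ := R.Z) (X := fun i ω => fl1 (R.C.a (i + 1)) (R.t ω)) (n := R.n + p.J) k0 k01 kX
    hgU hv R.aS hI δ X
  have etb : ∀ i ∈ R.aS, (fun ω => fl1 (R.C.a (i + 1)) (R.t ω)) = R.tb i := fun i hi => by
    funext ω
    show fl1 (R.C.a (i + 1)) (R.t ω) = fl1 (R.C.a i + R.m) (R.t ω)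
    rw [hIA i hi]
  have e2 : ∑ i ∈ R.aS, colp R.Q (fun ω => fl1 (R.C.a (i + 1)) (R.t ω)) (fun ω => (R.Z i ω, X i ω)) =
      ∑ i ∈ R.aS, colp R.Q (R.tb i) (fun ω => (R.Z i ω, X i ω)) :=
    Finset.sum_congr rfl fun i hi => by rw [etb i hi]
  have e3 : ∑ i ∈ R.aS, mi R.Q (fun ω => fl1 (R.C.a (i + 1)) (R.t ω)) (X i) (R.Z i) =
      ∑ i ∈ R.aS, mi R.Q (R.tb i) (X i) (R.Z i) :=
    Finset.sum_congr rfl fun i hi => by rw [etb i hi]
  have e4 : ∑ i ∈ R.aS, R.Q.pr (gs R.Q (fun ω => fl1 (R.C.a (i + 1)) (R.t ω)) (Z₀ i) (ct * R.m * Real.log 2)) false =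
      ∑ i ∈ R.aS, inac R.Q R.ry R.t (fun _ => ()) (R.C.a i) (R.C.a i + R.m) (ct * R.m) :=
    Finset.sum_congr rfl fun i hi => by rw [inac_eq, ← hIA i hi]
  rw [e2, e3, e4] at key
  have h3 := sum_inac_le R.Q R.ry R.t (fun _ => ()) R.C.ha hm1 0 n' (ct * R.m) R.aS hIA (fun i hi => by
    obtain ⟨j, hj1, hj2⟩ := haj i hi
    exact ⟨j, hj1, by rw [hj2, Nat.zero_add]⟩)
  have h4 : ∑ j ∈ range n', inac R.Q R.ry R.t (fun _ => ()) (0 + R.m * j) (0 + R.m * (j + 1)) (ct * R.m) ≤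
      ((β' - β + d + ε) * R.h * Real.log 2 + K * (n' + 1)) / ((β' + N - 2 - 4 * k - N * ct) * (R.m * Real.log 2)) := by
    rw [le_div_iff₀ (by positivity)]
    linarith
  have e5 : Real.exp (-(ct * R.m * Real.log 2 / 2)) = (2 : ℝ) ^ (-(ct * (R.m : ℝ) / 2)) := by
    rw [Real.rpow_def_of_pos (by norm_num : (0 : ℝ) < 2)]
    congr 1
    ring
  rw [e5] at key
  unfold eT
  linarith

end run

end Vale.Agent.P106.U.H425
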