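import Vale.Agent.P106.U.MIC.Stage
import Vale.Agent.P106.U.H931.SE0

/-!
# P106 / U / H425 : the sum of the errors of a kind over the situation, general constant (helper425)

* **`ev_seG`** : helper931's `ev_se0` with a general first constant `c0 : ℝ`, margin `μS x m` (scale `x + 12`), exceptional steps
  `XN x` apart; conclusion `η / 400 h`.
-/

set_option autoImplicit false

namespace Vale.Agent.P106.U.H425

open Finset Vale.Agent.P127 Vale.Agent.P127.Stk Vale.Agent.P127.U Vale.Agent.P106.W Vale.Agent.P106.K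
open Vale.Agent.P127.U.CellD (q2 q2_pos)
open Vale.Agent.P106.U.S3 (Run)
open Vale.Agent.P106.U.S5
open Vale.Agent.P106.U.MIC
open Vale.Agent.P106.U.H833 (aN RN errO)
open Vale.Agent.P106.U.H931 (XN xn_le errO_split sum_ind_le nz_le)
open Vale.Agent.P106.U.H652 (Ev3 err1 ev_kind ev_con)

/-- the margin of the scale -/
theorem μS_eq (x m : ℕ) : μS x m = 8 * (1000 * cN) * (xS x * m) := by
  unfold μS cμ
  ring

/-- **the sum of the errors** of a kind -/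
theorem ev_seG {K1 η c2 : ℝ} (hK1 : 0 < K1) (hη : 0 < η) (hc2 : 0 ≤ c2) :
    ∃ κ : ℝ, 0 < κ ∧ ∀ c0 : ℝ, 0 ≤ c0 → ∀ {e : ℕ}, 2 * e < 1000 * cN → ∀ {x : ℕ}, 768 * (2 * K1 + 4) / η ≤ x →
      ∀ (L1 : ℕ) (A0 C D K' : ℝ) (X1 : ℕ → ℕ → ℝ), 0 ≤ A0 → 0 ≤ C → 0 ≤ D → 0 ≤ K' → Ev3 fun m B h =>
        ∀ (σ : Cst) (ε : ℝ) (ρ : Thr) (g : Gv) (s : St η x σ ε ρ g m B h), σ.Ok → σ.K1 = K1 → 0 ≤ ε →
          1740000 * ε ≤ η →
          ∀ A : ℝ, 0 ≤ A → A ≤ A0 * 2 ^ (e * (xS x * m)) → ∀ (coll : ℕ → ℝ) (I1 I2 : ℕ → ℕ → ℝ), (∀ j k, 0 ≤ I1 j k) →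
          (∀ j k, 0 ≤ I2 j k) → (m : ℝ) * ∑ j ∈ range s.N, coll j ≤ κ * h →
          ∑ j ∈ range s.N, ∑ k ∈ Ioc j (j + L1), I1 j k ≤ D * ((h : ℝ) / B) +
            K' * (m + (μS x m : ℕ) + 1) * q2 (μS x m / 8) * (C * ((h : ℝ) / m)) + X1 m B →
          ∑ j ∈ range s.N, ∑ k ∈ Ioc j (j + L1), I2 j k ≤ D * ((h : ℝ) / B) +
            K' * (m + (μS x m : ℕ) + 1) * q2 (μS x m / 8) * (C * ((h : ℝ) / m)) + X1 m B →
          ∑ j ∈ range s.N, errO c0 c2 s.R.m A 3 L1 coll I1 I2 (XN x s.N s.a s.r s.E) j ≤ η / 400 * h := by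
  obtain ⟨κ, e0, hκ, he0, H⟩ := ev_kind (K := 2 * K1 + 4) (τ := η / 4000) (c' := c2) (xx := 3) (l := 1) (by positivity)
    (by positivity) hc2 (by norm_num) one_pos
  refine ⟨κ, hκ, fun c0 hc0 e hec x hxl L1 A0 C D K' X1 hA0 hC hD hK' => ?_⟩
  have H1 := H c0 hc0 hec (x := xS x) (by unfold xS; omega) L1 A0 C D K' X1 hA0 hC hD hK'
  have H2 : Ev3 fun m B h => 3 * (m : ℝ) ≤ η / 10000 * h := Ev3.of_h fun m B => ev_con _ (by positivity)
  refine H1.mono2 H2 fun m B h P1 P2 => ?_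
  intro σ ε ρ g s hσ hσK hε hε' A hA hAA coll I1 I2 hI1 hI2 hcoll s1 s2
  have hx1 : 768 * (2 * σ.K1 + 4) / η ≤ x := by
    rw [hσK]
    exact hxl
  have hXN := xn_le s.run hσ hε hη hx1 s.word
  have hn := nz_le s.run (i0 := s.i0)
  rw [hσK] at hn
  have hh0 : (0 : ℝ) ≤ h := Nat.cast_nonneg h
  have hN : s.N = nz s.R s.i0 := rfl
  rw [← μS_eq x m] at P1
  have key := P1 s.N (by rw [mul_one, hN]; nlinarith) A hA hAA coll I1 I2 ∅ hI1 hI2 (by rw [mul_one]; exact hcoll) s1 s2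
    (by rw [Finset.card_empty]; simp only [Nat.cast_zero, mul_zero]; positivity)
  rw [mul_one] at key
  have hm : s.R.m = m := s.run.hm
  rw [hm]
  have e1 : ∑ j ∈ range s.N, errO c0 c2 m A 3 L1 coll I1 I2 (XN x s.N s.a s.r s.E) j =
      ∑ j ∈ range s.N, err1 c0 c2 m A 3 L1 coll I1 I2 ∅ j +
        3 * m * ∑ j ∈ range s.N, (if j ∈ XN x s.N s.a s.r s.E then (1 : ℝ) else 0) := by
    rw [Finset.mul_sum, ← Finset.sum_add_distrib]
    exact Finset.sum_congr rfl fun j _ => errO_split _ _ _ _ _ _ _ _ _ _ j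
  have e2 := sum_ind_le s.N (XN x s.N s.a s.r s.E)
  have e3 := mul_le_mul_of_nonneg_left e2 (show (0 : ℝ) ≤ 3 * m by positivity)
  rw [e1]
  have e4 : 174 * ε * h ≤ η / 10000 * h := mul_le_mul_of_nonneg_right (by linarith) hh0
  have e5 : 0 ≤ η * h := by positivity
  have e6 : 3 * (m : ℝ) * (XN x s.N s.a s.r s.E).card ≤ (174 * ε + η / 512) * h + 3 * m := hXN
  linarith

end Vale.Agent.P106.U.H425
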