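import Vale.Agent.P106.U.H425.RowLa
import Vale.Agent.P106.U.H425.RowLb
import Vale.Agent.P106.U.H683.L2D

/-!
# P106 / U / H425 : the row `RowL 2` from its inputs (helper425)

* `WIn` : helper683's windows (hypothesis `W` of `win_of`).
* `HW2` (683: windows), `HSI2` (958: informations), `HSC2` (786: collisions): inputs, each for ALL sets of exceptional levels which
  contain its own small set.
* **`rowL2_of`**.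
-/

set_option autoImplicit false

namespace Vale.Agent.P106.U.H425

open Finset Vale.Agent.P127 Vale.Agent.P127.Stk
open Vale.Agent.P127.U.CellD (q2 q2_pos)
open Vale.Agent.P106.U.S3 (Run)
open Vale.Agent.P106.U.S5 (Bs Cst Thr Gv)
open Vale.Agent.P106.U.MIC
open Vale.Agent.P106.U.H833 (aN RN tdg cNst lx errO errO_nonneg)
open Vale.Agent.P106.U.H101 (lc low)
open Vale.Agent.P106.U.H118 (Sdat CS full Zw)
open Vale.Agent.P106.U.H495 (WAt)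
open Vale.Agent.P106.U.H652 (Ev3 ev_con)
open Vale.Agent.P106.U.H683.L2

variable {η : ℝ} {x : ℕ} {σ : Cst} {ε : ℝ} {ρ : Thr} {g : Gv} {m B h : ℕ}

/-- **the windows of kind 2** -/
def WIn (s : St η x σ ε ρ g m B h) (c0 c1 cj : ℝ) (L1 L2 Lk : ℕ) (Sw : Finset ℕ) : Prop :=
  ∃ (α θ : Type) (cA cN cJ j1 j2 : ℝ), 0 ≤ cA ∧ 0 ≤ cN ∧ 0 ≤ cJ ∧ 0 ≤ j1 ∧ 0 ≤ j2 ∧ cA + cN ≤ c1 ∧ cJ + j1 + j2 ≤ cj ∧
    ∀ t k, s.lm (s.a t) = t → WAt s.N s.a (Pu s Sw) L1 L2 Lk (KrS x ρ.J) t k →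
      ∃ (A : ℕ → s.Ω → α) (Θ : s.Ω → θ),
        H495.PIn s.Rl s.f (bq s) (fun u => (H683.L2.Dd s).mtr u (bq s)) t k (yx s (KrS x ρ.J) k) A Θ cA cN cJ j1 j2 0 ∧
        ∀ j ∈ CS x s.N s.gd s.a s.r t k, j ∉ Xe s →
          full s.mm s.a s.r j - (c0 + cφ * s.R.m * colL s Sw L1 L2 Lk (KrS x ρ.J) j + 2 ^ (cφ * (MIC.gS x m + 61)) *
            (Real.sqrt (I1V s Sw L1 L2 Lk (KrS x ρ.J) j k) + Real.sqrt (I2V s Sw L1 L2 Lk (KrS x ρ.J) j k))) ≤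
            hc s.R.Q (A (s.f j + 1)) (fun ω => (A (s.f j) ω, ((H683.L2.Dd s).mtr (s.f j + 1) (bq s) ω, Θ ω)))

/-- input (a) : windows; `c0`, `c1` constants after the thresholds, junctions up to `mm CJ x` -/
def HW2 : Prop :=
  ∃ CJ : ℕ → ℝ, (∀ x, 0 ≤ CJ x) ∧ Pre fun _ η x _ _ σ ε ρ => ∃ c0 c1 : ℝ, 0 ≤ c0 ∧ 0 ≤ c1 ∧
    ∀ Lk : ℕ, KrS x ρ.J ≤ Lk → ∀ L1 L2 : ℕ, 0 < L1 → L1 ≤ L2 → ∀ κ : ℝ, 0 < κ → Suf σ ε fun g m B h =>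
      ∀ s : St η x σ ε ρ g m B h, ∃ S0 : Finset ℕ, (m : ℝ) * S0.card ≤ κ * h ∧ ∀ Sw, S0 ⊆ Sw →
        WIn s c0 c1 (s.mm * CJ x) L1 L2 Lk Sw

/-- input (b) : the sums of the informations -/
def HSI2 : Prop :=
  Pre fun _ η x _ _ σ ε ρ => ∀ Lk : ℕ, KrS x ρ.J ≤ Lk → ∀ L1 L2 : ℕ, 0 < L1 → L1 ≤ L2 → ∀ κ : ℝ, 0 < κ →
    ∃ (C D K' : ℝ) (X1 : ℕ → ℕ → ℝ), 0 ≤ C ∧ 0 ≤ D ∧ 0 ≤ K' ∧ Suf σ ε fun g m B h =>
      ∀ s : St η x σ ε ρ g m B h, ∃ S0 : Finset ℕ, (m : ℝ) * S0.card ≤ κ * h ∧ ∀ Sw, S0 ⊆ Sw →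
        ∑ j ∈ range s.N, ∑ k ∈ Ioc j (j + L1), I1V s Sw L1 L2 Lk (KrS x ρ.J) j k ≤ D * ((h : ℝ) / B) +
          K' * (m + (μS x m : ℕ) + 1) * q2 (μS x m / 8) * (C * ((h : ℝ) / m)) + X1 m B ∧
        ∑ j ∈ range s.N, ∑ k ∈ Ioc j (j + L1), I2V s Sw L1 L2 Lk (KrS x ρ.J) j k ≤ D * ((h : ℝ) / B) +
          K' * (m + (μS x m : ℕ) + 1) * q2 (μS x m / 8) * (C * ((h : ℝ) / m)) + X1 m B

/-- input (c) : the collisions -/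
def HSC2 : Prop :=
  ∀ κc : ℝ, 0 < κc → Pre fun _ η x _ _ σ ε ρ => ∀ Lk : ℕ, KrS x ρ.J ≤ Lk → ∀ L1 L2 : ℕ, 0 < L1 → L1 ≤ L2 → ∀ κ : ℝ, 0 < κ →
    Suf σ ε fun g m B h => ∀ s : St η x σ ε ρ g m B h, ∃ S0 : Finset ℕ, (m : ℝ) * S0.card ≤ κ * h ∧ ∀ Sw, S0 ⊆ Sw →
      (m : ℝ) * ∑ j ∈ range s.N, colL s Sw L1 L2 Lk (KrS x ρ.J) j ≤ κc * h

theorem card3 {m : ℕ} {S1 S2 S3 : Finset ℕ} {κ h : ℝ} (h1 : (m : ℝ) * S1.card ≤ κ / 3 * h) (h2 : (m : ℝ) * S2.card ≤ κ / 3 * h)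
    (h3 : (m : ℝ) * S3.card ≤ κ / 3 * h) : (m : ℝ) * (S1 ∪ (S2 ∪ S3)).card ≤ κ * h := by
  have e1 := Finset.card_union_le S1 (S2 ∪ S3)
  have e2 := Finset.card_union_le S2 S3
  have e3 : ((S1 ∪ (S2 ∪ S3)).card : ℝ) ≤ S1.card + (S2.card + S3.card) := by exact_mod_cast (by omega)
  have e4 := mul_le_mul_of_nonneg_left e3 (Nat.cast_nonneg (α := ℝ) m)
  have e5 : (m : ℝ) * (S1.card + (S2.card + S3.card)) = m * S1.card + m * S2.card + m * S3.card := by ring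
  linarith

/-- **the row `RowL 2` from its inputs** -/
theorem rowL2_of (h1 : HW2) (h2 : HSI2) (h3 : HSC2) : RowL 2 := by
  obtain ⟨CJ, hCJ, h1⟩ := h1
  refine ⟨fun x => CJ x + 3 * (x + 1) + 1, fun x => by have := hCJ x; positivity, ?_⟩
  intro b hb η hη x δh e3 hx hδh he3
  have hK1 := hb.K10
  obtain ⟨κc, hκc, HS⟩ := ev_seG (K1 := b.K1) (η := η) (c2 := (cφ : ℝ)) hK1 hη (Nat.cast_nonneg _)
  obtain ⟨θ1, hθ1, h1⟩ := h1 b hb η hη x δh e3 hx hδh he3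
  obtain ⟨θ2, hθ2, h2⟩ := h2 b hb η hη x δh e3 hx hδh he3
  obtain ⟨θ3, hθ3, h3⟩ := h3 κc hκc b hb η hη x δh e3 hx hδh he3
  refine ⟨min θ1 (min θ2 θ3), lt_min hθ1 (lt_min hθ2 hθ3), fun θ hθ hθ' => ?_⟩
  obtain ⟨δ1', hδ1', h1⟩ := h1 θ hθ (hθ'.trans (min_le_left _ _))
  obtain ⟨δ2', hδ2', h2⟩ := h2 θ hθ (hθ'.trans ((min_le_right _ _).trans (min_le_left _ _)))
  obtain ⟨δ3', hδ3', h3⟩ := h3 θ hθ (hθ'.trans ((min_le_right _ _).trans (min_le_right _ _)))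
  refine ⟨min δ1' (min δ2' δ3'), lt_min hδ1' (lt_min hδ2' hδ3'), fun δ1 hδ hδ' σ hσ hσo => ?_⟩
  obtain ⟨ε1, hε1, h1⟩ := h1 δ1 hδ (hδ'.trans (min_le_left _ _)) σ hσ hσo
  obtain ⟨ε2, hε2, h2⟩ := h2 δ1 hδ (hδ'.trans ((min_le_right _ _).trans (min_le_left _ _))) σ hσ hσo
  obtain ⟨ε3, hε3, h3⟩ := h3 δ1 hδ (hδ'.trans ((min_le_right _ _).trans (min_le_right _ _))) σ hσ hσo
  refine ⟨min (min ε1 (min ε2 ε3)) (η / 1740000), lt_min (lt_min hε1 (lt_min hε2 hε3)) (by positivity),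
    fun ε hε hε' ρ hρ => ?_⟩
  have hεa := hε'.trans (min_le_left _ _)
  have hεb : 1740000 * ε ≤ η := by
    have := hε'.trans (min_le_right _ _)
    linarith
  obtain ⟨c0, c1, hc0, hc1, h1⟩ := h1 ε hε (hεa.trans (min_le_left _ _)) ρ hρ
  have h2 := h2 ε hε (hεa.trans ((min_le_right _ _).trans (min_le_left _ _))) ρ hρ
  have h3 := h3 ε hε (hεa.trans ((min_le_right _ _).trans (min_le_right _ _))) ρ hρ
  refine ⟨KrS x ρ.J, fun Lk hLk L1 L2 hL1 hL12 κ hκ => ?_⟩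
  have hκ3 : 0 < κ / 3 := by positivity
  have h1 := h1 Lk hLk L1 L2 hL1 hL12 (κ / 3) hκ3
  obtain ⟨C, D, K', X1, hC, hD, hK', h2⟩ := h2 Lk hLk L1 L2 hL1 hL12 (κ / 3) hκ3
  have h3 := h3 Lk hLk L1 L2 hL1 hL12 (κ / 3) hκ3
  have hcφ : 2 * (8 * cφ) < 1000 * cN := by
    have e1 : 800 ≤ cN := le_max_left _ _
    have e2 : cφ ≤ cN := le_max_right _ _
    omega
  have HS := HS c0 hc0 hcφ hx L1 (2 ^ (61 * cφ)) C D K' X1 (by positivity) hC hD hK'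
  set c1' : ℝ := max c1 (cNst ρ.K) with hc1'
  have hc10 : 0 ≤ c1' := hc1.trans (le_max_left _ _)
  have hev : Ev3 fun m _ _ => cNst ρ.K + c1' ≤ Real.log 2 * m := Ev3.of_m (ev_con _ (Real.log_pos (by norm_num)))
  have hevS : Suf σ ε fun g m B h => (∀ s : St η x σ ε ρ g m B h, ∀ A : ℝ, 0 ≤ A → A ≤ 2 ^ (61 * cφ) * 2 ^ (8 * cφ * (xS x * m)) →
      ∀ (coll : ℕ → ℝ) (I1 I2 : ℕ → ℕ → ℝ), (∀ j k, 0 ≤ I1 j k) → (∀ j k, 0 ≤ I2 j k) →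
      (m : ℝ) * ∑ j ∈ range s.N, coll j ≤ κc * h →
      ∑ j ∈ range s.N, ∑ k ∈ Ioc j (j + L1), I1 j k ≤ D * ((h : ℝ) / B) +
        K' * (m + (μS x m : ℕ) + 1) * q2 (μS x m / 8) * (C * ((h : ℝ) / m)) + X1 m B →
      ∑ j ∈ range s.N, ∑ k ∈ Ioc j (j + L1), I2 j k ≤ D * ((h : ℝ) / B) +
        K' * (m + (μS x m : ℕ) + 1) * q2 (μS x m / 8) * (C * ((h : ℝ) / m)) + X1 m B →
      ∑ j ∈ range s.N, errO c0 cφ s.R.m A 3 L1 coll I1 I2 (Xe s) j ≤ η / 400 * h) ∧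
      cNst ρ.K + c1' ≤ Real.log 2 * m := by
    refine Suf.of_ev3 fun g _ => ?_
    obtain ⟨m0, H⟩ := (HS.and hev).out
    refine ⟨m0, fun m hm => ?_⟩
    obtain ⟨B0, H⟩ := H m hm
    refine ⟨B0, fun B hB => ?_⟩
    obtain ⟨h0, H⟩ := H B hB
    refine ⟨h0, fun h hh => ⟨fun s => ?_, (H h hh).2⟩⟩
    exact (H h hh).1 σ ε ρ g s hσo (by rw [hσ]) hε.le hεb
  refine ⟨c1', hc10, (((h1.and h2).and (h3.and hevS)).and (H812.mu_ev x)).mono fun g m B h hg H s => ?_⟩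
  obtain ⟨⟨⟨H1, H2⟩, H3, H4, H5⟩, H6⟩ := H
  obtain ⟨Sa, qa, H1⟩ := H1 s
  obtain ⟨Sb, qb, H2⟩ := H2 s
  obtain ⟨Sc, qc, H3⟩ := H3 s
  have H4 := H4 s
  set Sw : Finset ℕ := Sa ∪ (Sb ∪ Sc) with hSw
  have H1 := H1 Sw Finset.subset_union_left
  obtain ⟨H2a, H2b⟩ := H2 Sw (Finset.subset_union_left.trans Finset.subset_union_right)
  have H3 := H3 Sw (Finset.subset_union_right.trans Finset.subset_union_right)
  obtain ⟨α, θ', cA, cN', cJ, j1, j2, qA, qN, qJ, q1, q2', qc1, qcj, W⟩ := H1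
  have hmm0 : 0 ≤ s.mm := mul_nonneg (Nat.cast_nonneg _) (Real.log_nonneg (by norm_num))
  have hmm : s.mm = m * Real.log 2 := by
    show (s.R.m : ℝ) * Real.log 2 = _
    rw [s.run.hm]
  have hAA : (2 : ℝ) ^ (cφ * (MIC.gS x m + 61)) ≤ 2 ^ (61 * cφ) * 2 ^ (8 * cφ * (xS x * m)) := by
    rw [← pow_add]
    refine le_of_eq ?_
    congr 1
    unfold MIC.gS
    ring
  refine ⟨errO c0 cφ s.R.m (2 ^ (cφ * (MIC.gS x m + 61))) 3 L1 (colL s Sw L1 L2 Lk (KrS x ρ.J))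
    (I1V s Sw L1 L2 Lk (KrS x ρ.J)) (I2V s Sw L1 L2 Lk (KrS x ρ.J)) (Xe s), Sw,
    s.mm * (CJ x + 3 * (x + 1) + 1), ?_, le_rfl, ?_, ?_, card3 qa qb qc, ?_⟩
  · have := hCJ x
    positivity
  · intro j
    exact errO_nonneg hc0 (Nat.cast_nonneg _) (Nat.cast_nonneg _) (by positivity) (by norm_num)
      (fun j => colL_nonneg s Sw L1 L2 Lk (KrS x ρ.J) j) j
  · exact H4 _ (by positivity) hAA _ _ _ (fun j k => I1V_nonneg s Sw L1 L2 Lk (KrS x ρ.J) j k)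
      (fun j k => I2V_nonneg s Sw L1 L2 Lk (KrS x ρ.J) j k) H3 H2a H2b
  · refine win_of s hρ H6 (fun u => (H683.L2.Dd s).mtr u (bq s)) (Kr := KrS x ρ.J) (by unfold KrS; omega) hLk hc0
      (Nat.cast_nonneg _) (by positivity) qA qN qJ q1 q2' (qc1.trans (le_max_left _ _)) (le_max_right _ _) ?_
      (fun j => colL_nonneg s Sw L1 L2 Lk (KrS x ρ.J) j) (fun t k w1 w2 => W t k w1 w2)
    have e1 : s.mm * (CJ x + 3 * (x + 1) + 1) = s.mm * CJ x + 3 * s.mm * (x + 1) + s.mm := by ring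
    rw [e1]
    have e2 : s.mm = Real.log 2 * m := by rw [hmm]; ring
    linarith

end Vale.Agent.P106.U.H425
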