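import Vale.Agent.P106.U.H683.L2D
import Vale.Agent.P106.U.H513.SIo
import Vale.Agent.P106.U.H404.RowKd
import Vale.Agent.P106.U.H425.RowL2

/-!
# P106 / U / H425 : the sum of the second informations of the light windows of kind 2 (helper425)

* `wat_le`, **`wat_at`** : an admissible pair `(j, k)` of kind 2: `f j + 1 ∈ IdP`, `yx ∈ At' .. d (f j + 1)`, `d ≤ L1 + Kr`.
* **`i2_st`** : the sum of `I2V` over the situation, for every `Sw ⊇ SwL .. Lw`, `L1 + Kr ≤ Lw`.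
* `st_swl` : the set `SwL` is small.
* `HI2a`, `HI2b` : the two halves of `HSI2`; `hSI2_of`; **`hI2b : HI2b`**.
-/

set_option autoImplicit false

namespace Vale.Agent.P106.U.H425

open Finset Vale.Agent.P127 Vale.Agent.P127.Stk
open Vale.Agent.P127.U.CellD (q2 q2_pos)
open Vale.Agent.P106.U.S3 (Run F2b IdP At')
open Vale.Agent.P106.U.S5 (Bs Cst Thr Gv)
open Vale.Agent.P106.U.MIC
open Vale.Agent.P106.U.H833 (aN RN lx I1N I2N)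
open Vale.Agent.P106.U.H101 (lc low)
open Vale.Agent.P106.U.H118 (Sdat)
open Vale.Agent.P106.U.H495 (WAt)
open Vale.Agent.P106.U.H336 (SwL)
open Vale.Agent.P106.U.H652 (Ev3)
open Vale.Agent.P106.U.Cell (Pth)
open Vale.Agent.P106.U.H683.L2

variable {η : ℝ} {x : ℕ} {σ : Cst} {ε : ℝ} {ρ : Thr} {g : Gv} {m B h : ℕ}

theorem wat_le {N : ℕ} {a : ℕ → ℕ} {P : ℕ → Prop} {L1 L2 Lk Kr j k : ℕ} (w : WAt N a P L1 L2 Lk Kr j k) :
    j < k ∧ k ≤ j + L1 ∧ k ≤ N := by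
  obtain ⟨h1, h2, ⟨i1, h3, h4, _⟩, _⟩ := w
  exact ⟨h1, h2, by omega⟩

/-- **the place of an admissible pair** of kind 2 -/
theorem wat_at (s : St η x σ ε ρ g m B h) (hB : 1 ≤ B) {Sw : Finset ℕ} {L1 L2 Lk Kr Lw j k : ℕ} (h0 : 0 < Kr)
    (hLw : L1 + Kr ≤ Lw) (hS : SwL s.R B s.Vs s.Xs Lw ⊆ Sw)
    (w : WAt s.N s.a (Pu s Sw) L1 L2 Lk Kr j k) :
    s.f j + 1 ∈ IdP s.R s.F B s.Vs s.Xs ∧ s.f j + 1 < yx s Kr k ∧
      aN s.R (s.f j + 1) ≤ aN s.R (yx s Kr k) ∧ aN s.R (yx s Kr k) ≤ aN s.R (s.f j + 1) + (L1 + Kr) ∧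
      yx s Kr k ∈ At' s.R s.pn B (aN s.R (yx s Kr k) - aN s.R (s.f j + 1)) (s.f j + 1) := by
  have hP := s.run.ok.pth
  have D := H812.st_sdat s
  obtain ⟨w1, w2, ⟨i1, w3, w4, w5, w6⟩, w7⟩ := w
  obtain ⟨x1, x2, x3, x4⟩ := H833.lx_spec D w4 w3 h0 w6
  have hlN : lx s.N s.a Kr k < s.N := by omega
  have hst := H812.ix_strict (R := s.R) (p := s.pn) (i0 := s.i0) hP
  have f1 : s.f j < s.f (j + 1) := hst _ _ (Nat.lt_succ_self _) (by show j + 1 ≤ s.N; omega)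
  have f2 : s.f (j + 1) ≤ s.f k := s.hf (by omega)
  have f3 : s.f k < s.f (lx s.N s.a Kr k) := hst _ _ x1 (by show lx s.N s.a Kr k ≤ s.N; omega)
  have f4 : s.f (lx s.N s.a Kr k) ≤ s.R.n := H812.ix_le_n _ _ _
  have m1 : aN s.R (s.f j) ≤ aN s.R (s.f j + 1) := H833.aN_mono hP (by omega) (by omega)
  have m2 : aN s.R (s.f j + 1) ≤ aN s.R (s.f k) := H833.aN_mono hP (by omega) (by omega)
  have m3 : aN s.R (s.f k) ≤ aN s.R (s.f (lx s.N s.a Kr k)) := H833.aN_mono hP (by omega) (by omega)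
  have m4 : aN s.R (s.f j + 1) ≤ aN s.R s.R.n := H833.aN_mono hP (by omega) (by omega)
  have e1 : s.a j = aN s.R (s.f j) := rfl
  have e2 : s.a k = aN s.R (s.f k) := rfl
  have e3 : s.a (lx s.N s.a Kr k) = aN s.R (s.f (lx s.N s.a Kr k)) := rfl
  have g3 := D.al (i := j) (j := k) (by omega) (by omega)
  obtain ⟨p1, p2⟩ := w7 (aN s.R (s.f j + 1)) (by omega) (by omega)
  have p3 : aN s.R (s.f j + 1) ∉ SwL s.R B s.Vs s.Xs Lw := fun hh => p1 (hS hh)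
  have p4 : H404.kd3 s.R s.Vs s.Xs (aN s.R (s.f j + 1)) = 2 :=
    (H404.kd3_kd m4 p3).2.1.2 ((H404.kd_cases s _).2.1.1 p2)
  obtain ⟨q1, q2', q3, q4⟩ := H336.idP s.f2 (k := s.f j + 1) hP hB (by omega) p4
  have hA : s.R.IsA (s.f (lx s.N s.a Kr k)) := H812.ix_isA hP hlN (by
    show s.a (lx s.N s.a Kr k + 1) = s.a (lx s.N s.a Kr k) + 1
    omega)
  have r1 : aN s.R (s.f j + 1) ≤ aN s.R (yx s Kr k) := by
    show aN s.R (s.f j + 1) ≤ aN s.R (s.f (lx s.N s.a Kr k))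
    omega
  have r2 : aN s.R (yx s Kr k) ≤ aN s.R (s.f j + 1) + (L1 + Kr) := by
    show aN s.R (s.f (lx s.N s.a Kr k)) ≤ aN s.R (s.f j + 1) + (L1 + Kr)
    omega
  have r3 : s.f j + 1 < yx s Kr k := by
    show s.f j + 1 < s.f (lx s.N s.a Kr k)
    omega
  exact ⟨q2', r3, r1, r2, (H336.at_of (p := s.pn) hP p3 r3 f4 hA (by omega) (by omega)).2⟩

/-- **the sum of the second informations of kind 2** -/
theorem i2_sum (s : St η x σ ε ρ g m B h) (hB : 1 ≤ B) {Sw : Finset ℕ} {L1 L2 Lk Kr Lw : ℕ} (h0 : 0 < Kr)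
    (hLw : L1 + Kr ≤ Lw) (hLB : L1 + Kr ≤ B) (hS : SwL s.R B s.Vs s.Xs Lw ⊆ Sw) :
    ∑ j ∈ range s.N, ∑ k ∈ Ioc j (j + L1), I2V s Sw L1 L2 Lk Kr j k ≤
      (L1 : ℝ) * ∑ d ∈ range (L1 + Kr + 1), F2b s.R s.pn B (μS x m) (KS ρ) d := by
  classical
  have hP := s.run.ok.pth
  set C := fun k : ℕ => (H683.L2.Dd s).fz k k with hC
  set M : ℕ → ℕ → ℝ := fun k i => mi s.R.Q (S3.LTh (C k) (s.R.m * s.R.b1) i) ((C k).cell k s.bV)
    (S3.LDk (C k) (s.R.m * s.R.b1) k) with hM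
  have hM0 : ∀ k i, 0 ≤ M k i := fun k i => mi_nonneg _ _ _ _
  set G := (range s.N ×ˢ range (s.N + 1)).filter (fun q => WAt s.N s.a (Pu s Sw) L1 L2 Lk Kr q.1 q.2) with hG
  have e1 : ∑ j ∈ range s.N, ∑ k ∈ Ioc j (j + L1), I2V s Sw L1 L2 Lk Kr j k = ∑ q ∈ G, M (s.f q.1 + 1) (yx s Kr q.2) :=
    H513.sum_pairs5 s.N L1 (fun j k => WAt s.N s.a (Pu s Sw) L1 L2 Lk Kr j k) (fun j k => M (s.f j + 1) (yx s Kr k))
      fun j k w => wat_le w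
  rw [e1]
  have hq : ∀ q ∈ G, WAt s.N s.a (Pu s Sw) L1 L2 Lk Kr q.1 q.2 := fun q hq => (Finset.mem_filter.1 hq).2
  have hd : ∀ q ∈ G, aN s.R (yx s Kr q.2) - aN s.R (s.f q.1 + 1) ∈ range (L1 + Kr + 1) := by
    intro q hqG
    obtain ⟨_, _, _, h3, _⟩ := wat_at s hB h0 hLw hS (hq q hqG)
    rw [Finset.mem_range]
    omega
  rw [← Finset.sum_fiberwise_of_maps_to hd, Finset.mul_sum]
  refine Finset.sum_le_sum fun d hd' => ?_
  rw [Finset.mem_range] at hd'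
  set Gd := G.filter fun q => aN s.R (yx s Kr q.2) - aN s.R (s.f q.1 + 1) = d with hGd
  have hGd' : ∀ q ∈ Gd, q ∈ G ∧ aN s.R (yx s Kr q.2) - aN s.R (s.f q.1 + 1) = d := fun q hq => Finset.mem_filter.1 hq
  refine (H513.sum_group5 Gd (IdP s.R s.F B s.Vs s.Xs) (At' s.R s.pn B d) (fun q => s.f q.1 + 1) (fun q => yx s Kr q.2) M L1
    hM0 ?_ ?_ ?_).trans (mul_le_mul_of_nonneg_left (s.f2o.P1 d (by omega)) (Nat.cast_nonneg _))
  · intro q hqd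
    exact (wat_at s hB h0 hLw hS (hq q (hGd' q hqd).1)).1
  · intro q hqd
    obtain ⟨h1, h2⟩ := hGd' q hqd
    have := (wat_at s hB h0 hLw hS (hq q h1)).2.2.2.2
    rwa [h2] at this
  · intro k _
    by_cases hne : (Gd.filter fun q => s.f q.1 + 1 = k).Nonempty
    · obtain ⟨q0, hq0⟩ := hne
      rw [Finset.mem_filter] at hq0
      have hst := H812.ix_strict (R := s.R) (p := s.pn) (i0 := s.i0) hP
      have w0 := wat_le (hq q0 (hGd' q0 hq0.1).1)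
      have hsub : (Gd.filter fun q => s.f q.1 + 1 = k) ⊆ ({q0.1} : Finset ℕ) ×ˢ (Ioc q0.1 (q0.1 + L1)) := by
        intro q hqq
        rw [Finset.mem_filter] at hqq
        have w1 := wat_le (hq q (hGd' q hqq.1).1)
        have e2 : q.1 = q0.1 := by
          have e3 : s.f q.1 = s.f q0.1 := by omega
          rcases lt_trichotomy q.1 q0.1 with h | h | h
          · have : s.f q.1 < s.f q0.1 := hst _ _ h (by show q0.1 ≤ s.N; omega)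
            omega
          · exact h
          · have : s.f q0.1 < s.f q.1 := hst _ _ h (by show q.1 ≤ s.N; omega)
            omega
        rw [Finset.mem_product, Finset.mem_singleton, Finset.mem_Ioc]
        exact ⟨e2, by omega, by omega⟩
      refine (Finset.card_le_card hsub).trans ?_
      rw [Finset.card_product, Finset.card_singleton, Nat.card_Ioc]
      omega
    · rw [Finset.not_nonempty_iff_eq_empty.1 hne]
      exact Nat.zero_le _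

theorem KS_nonneg (ρ : Thr) : 0 ≤ KS ρ := by
  unfold KS
  positivity

/-- constant in front of `K' (m + μ + 1) q2 (μ / 8) (h / m)` -/
noncomputable def i2C (K1 : ℝ) (L1 Lb : ℕ) : ℝ := (2 * K1 + 4) * (L1 * ((Lb : ℝ) + 1) ^ 3)

/-- **the sum of the second informations**, in the form of 652's `ev_kind` -/
theorem i2_st (s : St η x σ ε ρ g m B h) (hm : 0 < m) (hJ : (m : ℝ) * (ρ.J + 1) ≤ h) (hB : 1 ≤ B) {Sw : Finset ℕ}
    {L1 L2 Lk Kr Lw : ℕ} (h0 : 0 < Kr) (hLw : L1 + Kr ≤ Lw) (hLB : L1 + Kr ≤ B)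
    (hS : SwL s.R B s.Vs s.Xs Lw ⊆ Sw) :
    ∑ j ∈ range s.N, ∑ k ∈ Ioc j (j + L1), I2V s Sw L1 L2 Lk Kr j k ≤
      H513.siD L1 (L1 + Kr) * ((h : ℝ) / B) + KS ρ * (m + (μS x m : ℕ) + 1) * q2 (μS x m / 8) *
        (i2C σ.K1 L1 (L1 + Kr) * ((h : ℝ) / m)) := by
  refine (i2_sum s hB h0 hLw hLB hS).trans ?_
  set Lb := L1 + Kr with hLb
  have hn : ((s.R.n : ℝ) + s.pn.J + 1) ≤ (2 * σ.K1 + 4) * ((h : ℝ) / m) := by
    have e1 := H931.n_le s.run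
    have hm0 : (0 : ℝ) < m := by exact_mod_cast hm
    rw [← mul_div_assoc, le_div_iff₀ hm0, s.run.hJ]
    nlinarith
  have hn0 : (0 : ℝ) ≤ (s.R.n : ℝ) + s.pn.J + 1 := by positivity
  have hq0 := (q2_pos (μS x m / 8)).le
  have hKS := KS_nonneg ρ
  have hL1 : (0 : ℝ) ≤ L1 := Nat.cast_nonneg _
  have e1 : ∑ d ∈ range (Lb + 1), F2b s.R s.pn B (μS x m) (KS ρ) d ≤
      ((Lb : ℝ) + 1) * ((h : ℝ) / B) + ((Lb : ℝ) + 1) ^ 3 * KS ρ * (m + (μS x m : ℕ) + 1) * q2 (μS x m / 8) *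
        (s.R.n + s.pn.J + 1) := by
    have g := H652.F2bs_le (h := (h : ℝ)) (B := (B : ℝ)) (K := KS ρ) (m := (m : ℝ)) (μ := ((μS x m : ℕ) : ℝ))
      (q := q2 (μS x m / 8)) (n := (s.R.n : ℝ) + s.pn.J + 1) hKS (by positivity) hq0 hn0 Lb
    refine le_trans (le_of_eq (Finset.sum_congr rfl fun d _ => ?_)) g
    unfold F2b
    rw [s.run.hh, s.run.hm]
  have e2 : ((Lb : ℝ) + 1) ^ 3 * KS ρ * (m + (μS x m : ℕ) + 1) * q2 (μS x m / 8) * (s.R.n + s.pn.J + 1) ≤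
      ((Lb : ℝ) + 1) ^ 3 * KS ρ * (m + (μS x m : ℕ) + 1) * q2 (μS x m / 8) * ((2 * σ.K1 + 4) * ((h : ℝ) / m)) :=
    mul_le_mul_of_nonneg_left hn (by positivity)
  have e3 := mul_le_mul_of_nonneg_left (e1.trans (add_le_add le_rfl e2)) hL1
  have e5 : H513.siD L1 Lb * ((h : ℝ) / B) + KS ρ * (m + (μS x m : ℕ) + 1) * q2 (μS x m / 8) *
        (i2C σ.K1 L1 Lb * ((h : ℝ) / m)) =
      (L1 : ℝ) * (((Lb : ℝ) + 1) * ((h : ℝ) / B) + ((Lb : ℝ) + 1) ^ 3 * KS ρ * (m + (μS x m : ℕ) + 1) *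
        q2 (μS x m / 8) * ((2 * σ.K1 + 4) * ((h : ℝ) / m))) := by
    unfold H513.siD i2C
    ring
  rw [e5]
  exact e3

/-- **336's set is small** -/
theorem st_swl (L : ℕ) (K1 : ℝ) {κ : ℝ} (hκ : 0 < κ) :
    Ev3 fun m B h => ∀ {η : ℝ} {x : ℕ} {σ : Cst} {ε : ℝ} {ρ : Thr} {g : Gv} (s : St η x σ ε ρ g m B h), σ.K1 = K1 →
      (m : ℝ) * (SwL s.R B s.Vs s.Xs L).card ≤ κ * h := by
  have h1 := H336.ev_sw ((L + 1) * (4 + (L + 1) * (2 * K1 + 3))) ((L + 1) * (L + 2)) hκ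
  have h2 : H652.Ev3 fun _ B _ => 1 ≤ B := H652.Ev3.of_B' fun _ => H652.ev_nat 1
  refine h1.mono2 h2 fun m B h g1 hB η x σ ε ρ g s hK => ?_
  have g2 := H336.swl_f2 s.f2 s.run.ok.pth (K1 := K1) (by
    rw [s.run.hq, s.run.hr0, s.run.hh, ← hK]
    exact s.run.qr) L hB
  rw [s.run.hm, s.run.hh] at g2
  exact g2.trans g1

/-! ### the two halves of the input (b) -/

/-- first half: the first informations -/
def HI2a : Prop :=
  Pre fun _ η x _ _ σ ε ρ => ∀ Lk : ℕ, KrS x ρ.J ≤ Lk → ∀ L1 L2 : ℕ, 0 < L1 → L1 ≤ L2 → ∀ κ : ℝ, 0 < κ →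
    ∃ (C D K' : ℝ) (X1 : ℕ → ℕ → ℝ), 0 ≤ C ∧ 0 ≤ D ∧ 0 ≤ K' ∧ (∀ m B, 0 ≤ X1 m B) ∧ Suf σ ε fun g m B h =>
      ∀ s : St η x σ ε ρ g m B h, ∃ S0 : Finset ℕ, (m : ℝ) * S0.card ≤ κ * h ∧ ∀ Sw, S0 ⊆ Sw →
        ∑ j ∈ range s.N, ∑ k ∈ Ioc j (j + L1), I1V s Sw L1 L2 Lk (KrS x ρ.J) j k ≤ D * ((h : ℝ) / B) +
          K' * (m + (μS x m : ℕ) + 1) * q2 (μS x m / 8) * (C * ((h : ℝ) / m)) + X1 m B

/-- second half: the second informations -/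
def HI2b : Prop :=
  Pre fun _ η x _ _ σ ε ρ => ∀ Lk : ℕ, KrS x ρ.J ≤ Lk → ∀ L1 L2 : ℕ, 0 < L1 → L1 ≤ L2 → ∀ κ : ℝ, 0 < κ →
    ∃ (C D K' : ℝ) (X1 : ℕ → ℕ → ℝ), 0 ≤ C ∧ 0 ≤ D ∧ 0 ≤ K' ∧ (∀ m B, 0 ≤ X1 m B) ∧ Suf σ ε fun g m B h =>
      ∀ s : St η x σ ε ρ g m B h, ∃ S0 : Finset ℕ, (m : ℝ) * S0.card ≤ κ * h ∧ ∀ Sw, S0 ⊆ Sw →
        ∑ j ∈ range s.N, ∑ k ∈ Ioc j (j + L1), I2V s Sw L1 L2 Lk (KrS x ρ.J) j k ≤ D * ((h : ℝ) / B) +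
          K' * (m + (μS x m : ℕ) + 1) * q2 (μS x m / 8) * (C * ((h : ℝ) / m)) + X1 m B

/-- larger constants -/
theorem form_mono {C C' D D' K K' X X' hB hm w q : ℝ} (hC : 0 ≤ C) (hK : 0 ≤ K) (cC : C ≤ C') (cD : D ≤ D') (cK : K ≤ K')
    (cX : X ≤ X') (h1 : 0 ≤ hB) (h2 : 0 ≤ hm) (h3 : 0 ≤ w) (h4 : 0 ≤ q) :
    D * hB + K * w * q * (C * hm) + X ≤ D' * hB + K' * w * q * (C' * hm) + X' := by
  have hK' := hK.trans cK
  have hC' := hC.trans cC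
  have e1 := mul_le_mul_of_nonneg_right cD h1
  have e2 : K * w * q * (C * hm) ≤ K' * w * q * (C' * hm) := by gcongr
  linarith

/-- **the input (b) from its halves** -/
theorem hSI2_of (h1 : HI2a) (h2 : HI2b) : HSI2 := by
  refine (h1.and h2).mono fun b η x δh e3 σ ε ρ hb hη hx _ _ hσb hσ hε hρ H => ?_
  obtain ⟨h1, h2⟩ := H
  intro Lk hLk L1 L2 hL1 hL12 κ hκ
  have hκ2 : 0 < κ / 2 := by positivity
  obtain ⟨C, D, K, X, hC, hD, hK, hX, h1⟩ := h1 Lk hLk L1 L2 hL1 hL12 (κ / 2) hκ2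
  obtain ⟨C', D', K', X', hC', hD', hK', hX', h2⟩ := h2 Lk hLk L1 L2 hL1 hL12 (κ / 2) hκ2
  refine ⟨max C C', max D D', max K K', fun m B => max (X m B) (X' m B), hC.trans (le_max_left _ _),
    hD.trans (le_max_left _ _), hK.trans (le_max_left _ _), (h1.and h2).mono fun g m B h hg H s => ?_⟩
  obtain ⟨H1, H2⟩ := H
  obtain ⟨Sa, qa, H1⟩ := H1 s
  obtain ⟨Sb, qb, H2⟩ := H2 s
  have hw : (0 : ℝ) ≤ m + (μS x m : ℕ) + 1 := by positivity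
  have hq0 := (q2_pos (μS x m / 8)).le
  refine ⟨Sa ∪ Sb, ?_, fun Sw hSw => ⟨?_, ?_⟩⟩
  · have e1 : ((Sa ∪ Sb).card : ℝ) ≤ Sa.card + Sb.card := by exact_mod_cast Finset.card_union_le Sa Sb
    have e2 := mul_le_mul_of_nonneg_left e1 (Nat.cast_nonneg (α := ℝ) m)
    linarith
  · exact (H1 Sw (Finset.subset_union_left.trans hSw)).trans (form_mono hC hK (le_max_left _ _) (le_max_left _ _)
      (le_max_left _ _) (le_max_left _ _) (by positivity) (by positivity) hw hq0)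
  · exact (H2 Sw (Finset.subset_union_right.trans hSw)).trans (form_mono hC' hK' (le_max_right _ _) (le_max_right _ _)
      (le_max_right _ _) (le_max_right _ _) (by positivity) (by positivity) hw hq0)

/-- **the second half** -/
theorem hI2b : HI2b := by
  intro b hb η hη x δh e3 hx hδh he3
  refine ⟨1, one_pos, fun θ hθ _ => ⟨1, one_pos, fun δ1 hδ1 _ σ hσe hσ => ⟨1, one_pos, fun ε hε _ ρ hρ => ?_⟩⟩⟩
  intro Lk hLk L1 L2 hL1 hL12 κ hκ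
  have hK1 := hσ.bs.K10
  set Kr := KrS x ρ.J with hKr
  have hKr0 : 0 < Kr := by
    rw [hKr]
    unfold KrS
    omega
  refine ⟨i2C σ.K1 L1 (L1 + Kr), H513.siD L1 (L1 + Kr), KS ρ, fun _ _ => 0, by unfold i2C; positivity, H513.siD_nonneg _ _,
    KS_nonneg ρ, fun _ _ => le_rfl, ?_⟩
  have hev : Ev3 fun m B h => ((∀ {η : ℝ} {x : ℕ} {σ' : Cst} {ε : ℝ} {ρ : Thr} {g : Gv} (s : St η x σ' ε ρ g m B h),
      σ'.K1 = σ.K1 → (m : ℝ) * (SwL s.R B s.Vs s.Xs (L1 + Kr)).card ≤ κ * h) ∧ 1 ≤ m) ∧ (L1 + Kr + 1 ≤ B ∧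
      (m : ℝ) * (ρ.J + 1) ≤ h) := by
    have w1 := st_swl (L1 + Kr) σ.K1 hκ
    have w2 : Ev3 fun m _ _ => 1 ≤ m := Ev3.of_m (H652.ev_nat 1)
    have w3 : Ev3 fun _ B _ => L1 + Kr + 1 ≤ B := Ev3.of_B' fun _ => H652.ev_nat (L1 + Kr + 1)
    have w4 : Ev3 fun m B h => (m : ℝ) * (ρ.J + 1) ≤ h := by
      refine Ev3.intro ⟨0, fun m _ => ⟨0, fun B _ => ⟨⌈(m : ℝ) * (ρ.J + 1)⌉₊, fun h hh => ?_⟩⟩⟩
      exact (Nat.le_ceil _).trans (by exact_mod_cast hh)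
    exact (w1.and w2).and (w3.and w4)
  refine Suf.of_ev3 fun g _ => ?_
  obtain ⟨m0, H⟩ := hev.out
  refine ⟨m0, fun m hm => ?_⟩
  obtain ⟨B0, H⟩ := H m hm
  refine ⟨B0, fun B hB => ?_⟩
  obtain ⟨h0, H⟩ := H B hB
  refine ⟨h0, fun h hh s => ?_⟩
  obtain ⟨⟨H1, H2⟩, H3, H4⟩ := H h hh
  refine ⟨SwL s.R B s.Vs s.Xs (L1 + Kr), H1 s rfl, fun Sw hSw => ?_⟩
  have := i2_st s (by omega) H4 (by omega) (L2 := L2) (Lk := Lk) hKr0 le_rfl (by omega) hSw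
  linarith

end Vale.Agent.P106.U.H425
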