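import Vale.Agent.P106.U.H833.Near
import Vale.Agent.P106.U.H61.KL
import Vale.Agent.P106.U.H404.ActF
import Vale.Agent.P106.U.Cell

/-!
# P106 / U / H425 : [ACTC] activity of the time blocks given the cells (helper425)

* `sum_ahead` : `∑_{i<n} I(Y i ; C i | Z i) ≤ H(C 0 | Z 0) + ∑ e i`, `Z i` nested letters of the ray side, `Y i` a function of
  `Z (i+1)`, `e i` the price of the new cell given the ray side (hypotheses only for `i < n`).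
* `act_abs` : `∑_{i ∈ I} colp(X i | C i) ≤ ∑_{i ∈ I} P(atom of X i given (l, t_i) ≥ e^{-c}) + (2/c) (...) + |I| e^{-c/2}`,
  for time blocks `X i`, cells `C i`, letters `U i` of the ray side.
* `actC` : the same for the times `fl1 (a i) t` and the cells of `Cell.Pth`.
-/

set_option autoImplicit false

namespace Vale.Agent.P106.U.H425

open Finset Vale.Agent.P127 Vale.Agent.P127.Stk Vale.Agent.P127.U.Cell Vale.Agent.P127.U.Nonat Vale.Agent.P127.U.Act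
open Vale.Agent.P127.U.Mic (cq colp colp_mono_cond colp_mono_var)
open Vale.Agent.P106.U.H833 (hc_le_near)

section abs

variable {Ω : Type} [Fintype Ω] (P : Law Ω) {S T U V X X' : Type*}

/-- **information of the cells about the next letters** -/
theorem sum_ahead {C : ℕ → Ω → S} {Z : ℕ → Ω → T} {n : ℕ} (hZ : ∀ i < n, Fn P (Z i) (Z (i + 1))) (e : ℕ → ℝ)
    (he : ∀ i < n, hc P (C (i + 1)) (fun ω => (C i ω, Z (i + 1) ω)) ≤ e i) {Y : ℕ → Ω → X}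
    (hY : ∀ i < n, Fn P (Y i) (Z (i + 1))) :
    ∑ i ∈ range n, mi P (Y i) (C i) (Z i) ≤ hc P (C 0) (Z 0) - hc P (C n) (Z n) + ∑ i ∈ range n, e i := by
  induction n with
  | zero => simp
  | succ n ih =>
    rw [sum_range_succ, sum_range_succ]
    have h1 := ih (fun i hi => hZ i (by omega)) (fun i hi => he i (by omega)) (fun i hi => hY i (by omega))
    have h2 : mi P (Y n) (C n) (Z n) ≤ hc P (C n) (Z n) - hc P (C (n + 1)) (Z (n + 1)) + e n := by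
      rw [mi_symm]
      unfold mi
      have g1 : hc P (C n) (Z (n + 1)) ≤ hc P (C n) (fun ω => (Y n ω, Z n ω)) := by
        refine hc_mono_right P _ ?_
        intro a b ha hb e
        exact Prod.ext (hY n (by omega) a b ha hb e) (hZ n (by omega) a b ha hb e)
      have g2 := hc_le_add P (C (n + 1)) (C n) (Z (n + 1))
      have g3 := he n (by omega)
      linarith
    linarith

/-- **activity given the cells** : `Z₀ i = (l, t_i)`, `Z₁ i = (l, t_i, U_i)` the whole letter of the ray side, `X i` the time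
block, `C i` the cell (no function relation between `C i` and `Z₁ i`), `D i` any function of `(C i, Z₁ i)` (the cell, or the
cell with further digits of the slab) -/
theorem act_abs {C : ℕ → Ω → S} {D : ℕ → Ω → V} {Z₀ : ℕ → Ω → T} {Z₁ : ℕ → Ω → U} {X : ℕ → Ω → X'} {n : ℕ}
    (h0 : ∀ i < n, Fn P (Z₀ i) (Z₀ (i + 1))) (h1 : ∀ i < n, Fn P (Z₁ i) (Z₁ (i + 1)))
    (h01 : ∀ i ≤ n, Fn P (Z₀ i) (Z₁ i)) (hX : ∀ i < n, Fn P (X i) (Z₀ (i + 1))) (g e : ℕ → ℝ)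
    (hg : ∀ i < n, hc P (Z₁ (i + 1)) (fun ω => (Z₁ i ω, Z₀ (i + 1) ω)) ≤ g i)
    (he : ∀ i < n, hc P (C (i + 1)) (fun ω => (C i ω, Z₁ (i + 1) ω)) ≤ e i) {c : ℝ} (hc0 : 0 < c) (I : Finset ℕ)
    (hI : I ⊆ range n) (hD : ∀ i ∈ I, Fn P (D i) (fun ω => (C i ω, Z₁ i ω))) :
    ∑ i ∈ I, colp P (X i) (D i) ≤ ∑ i ∈ I, P.pr (gs P (X i) (Z₀ i) c) false +
      2 / c * (hc P (Z₁ 0) (Z₀ 0) + ∑ i ∈ range n, g i + (hc P (C 0) (Z₁ 0) + ∑ i ∈ range n, e i) +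
        I.card * Real.log 2) + I.card * Real.exp (-(c / 2)) := by
  -- one step
  have step : ∀ i ∈ I, colp P (X i) (D i) ≤ P.pr (gs P (X i) (Z₀ i) c) false +
      2 / c * (mi P (X i) (Z₁ i) (Z₀ i) + mi P (X i) (C i) (Z₁ i) + Real.log 2) + Real.exp (-(c / 2)) := by
    intro i hi
    have hin := Finset.mem_range.1 (hI hi)
    have k0 : Fn P (Z₀ i) (fun ω => (C i ω, Z₁ i ω)) := fun a b ha hb e =>
      h01 i hin.le a b ha hb (congrArg Prod.snd e)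
    have k1 := KL.gs_transfer P (X i) (fun ω => (C i ω, Z₁ i ω)) (Z₀ i) k0 hc0
    have k2 := colp_le P (X i) (fun ω => (C i ω, Z₁ i ω)) (c / 2)
    have k3 : colp P (X i) (D i) ≤ colp P (X i) (fun ω => (C i ω, Z₁ i ω)) :=
      colp_mono_cond P (X i) (hD i hi)
    have k4 : colp P (X i) (fun ω => (C i ω, Z₁ i ω)) = P.ex (cp P (X i) (fun ω => (C i ω, Z₁ i ω))) := rfl
    have k5 : hc P (X i) (fun ω => (Z₁ i ω, Z₀ i ω)) = hc P (X i) (Z₁ i) := by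
      refine hc_congr P (fun _ _ _ _ e => congrArg Prod.fst e) (fun _ _ _ _ e => congrArg Prod.fst e) ?_ ?_
      · intro a b ha hb e
        exact Prod.ext e (h01 i hin.le a b ha hb e)
      · intro a b _ _ e
        exact congrArg Prod.fst e
    have k6 : hc P (X i) (Z₀ i) - hc P (X i) (fun ω => (C i ω, Z₁ i ω)) =
        mi P (X i) (Z₁ i) (Z₀ i) + mi P (X i) (C i) (Z₁ i) := by
      unfold mi
      linarith
    rw [k6] at k1
    linarith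
  have s1 := sum_ahead P h0 g hg hX
  have s2 := sum_ahead P h1 e he (Y := X) fun i hi a b ha hb e => hX i hi a b ha hb (h01 (i + 1) hi a b ha hb e)
  have s3 : ∑ i ∈ I, mi P (X i) (Z₁ i) (Z₀ i) ≤ ∑ i ∈ range n, mi P (X i) (Z₁ i) (Z₀ i) :=
    Finset.sum_le_sum_of_subset_of_nonneg hI fun i _ _ => mi_nonneg P _ _ _
  have s4 : ∑ i ∈ I, mi P (X i) (C i) (Z₁ i) ≤ ∑ i ∈ range n, mi P (X i) (C i) (Z₁ i) :=
    Finset.sum_le_sum_of_subset_of_nonneg hI fun i _ _ => mi_nonneg P _ _ _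
  have s5 := Finset.sum_le_sum step
  rw [Finset.sum_add_distrib, Finset.sum_add_distrib, Finset.sum_const, nsmul_eq_mul, ← Finset.mul_sum,
    Finset.sum_add_distrib, Finset.sum_add_distrib, Finset.sum_const, nsmul_eq_mul] at s5
  have s6 : 0 ≤ hc P (Z₁ n) (Z₀ n) := hc_nonneg P _ _
  have s7 : 0 ≤ hc P (C n) (Z₁ n) := hc_nonneg P _ _
  have s8 : (0 : ℝ) ≤ 2 / c := by positivity
  have s9 : 2 / c * (∑ i ∈ I, mi P (X i) (Z₁ i) (Z₀ i) + ∑ i ∈ I, mi P (X i) (C i) (Z₁ i) + I.card * Real.log 2) ≤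
      2 / c * (hc P (Z₁ 0) (Z₀ 0) + ∑ i ∈ range n, g i + (hc P (C 0) (Z₁ 0) + ∑ i ∈ range n, e i) +
        I.card * Real.log 2) := mul_le_mul_of_nonneg_left (by linarith) s8
  linarith

end abs

/-! ### the times of the rays -/

section path

open Vale.Agent.P106.K Vale.Agent.P106.U.H404

variable {Ω : Type} [Fintype Ω] {γ τ S U V : Type} (P : Law Ω)

theorem inac_eq (l : Ω → Ry) (t : Ω → ℝ) (C : Ω → γ) (a a' : ℕ) (v : ℝ) :
    inac P l t C a a' v = P.pr (gs P (fun ω => fl1 a' (t ω)) (fun ω => (l ω, fl1 a (t ω), C ω)) (v * Real.log 2)) false :=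
  prE_gs P _ _ v

/-- the steps of a path of times in blocks of `m` digits -/
theorem sum_inac_le (l : Ω → Ry) (t : Ω → ℝ) (C : Ω → γ) {a : ℕ → ℕ} (hmono : Monotone a) {m : ℕ} (hm : 1 ≤ m) (a0 n' : ℕ)
    (v : ℝ) (I : Finset ℕ) (ham : ∀ i ∈ I, a (i + 1) = a i + m) (haj : ∀ i ∈ I, ∃ j < n', a i = a0 + m * j) :
    ∑ i ∈ I, inac P l t C (a i) (a i + m) v ≤ ∑ j ∈ range n', inac P l t C (a0 + m * j) (a0 + m * (j + 1)) v := by
  classical
  choose! f hf1 hf2 using haj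
  have h1 : ∀ i ∈ I, inac P l t C (a i) (a i + m) v = inac P l t C (a0 + m * f i) (a0 + m * (f i + 1)) v := by
    intro i hi
    rw [hf2 i hi]
    congr 1
    ring
  rw [Finset.sum_congr rfl h1]
  have hinj : Set.InjOn f I := by
    intro i hi i' hi' e
    have e1 : a i = a i' := by rw [hf2 i hi, hf2 i' hi', e]
    rcases lt_trichotomy i i' with h | h | h
    · have h2 := hmono (show i + 1 ≤ i' by omega)
      rw [ham i hi] at h2
      omega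
    · exact h
    · have h2 := hmono (show i' + 1 ≤ i by omega)
      rw [ham i' hi'] at h2
      omega
  rw [← Finset.sum_image (f := fun j => inac P l t C (a0 + m * j) (a0 + m * (j + 1)) v) hinj]
  refine Finset.sum_le_sum_of_subset_of_nonneg ?_ fun j _ _ => inac_nonneg P l t C _ _ v
  intro j hj
  obtain ⟨i, hi, rfl⟩ := Finset.mem_image.1 hj
  exact Finset.mem_range.2 (hf1 i hi)

/-- **activity of the time blocks given the cells**, for the times `t` at the levels `a i`: `Z₁ i` the whole letter of the ray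
side, `Cl i` the cells, `D i` a function of `(Cl i, Z₁ i)` -/
theorem act_time (l : Ω → Ry) (t : Ω → ℝ) (C0 : Ω → γ) {a : ℕ → ℕ} (hmono : Monotone a) {Cl : ℕ → Ω → S}
    {D : ℕ → Ω → V} {Z₁ : ℕ → Ω → U} {n m gg : ℕ} (hmg : m ≤ gg) (I : Finset ℕ) (hI : I ⊆ range n)
    (ham : ∀ i ∈ I, a (i + 1) = a i + m) (h1 : ∀ i < n, Fn P (Z₁ i) (Z₁ (i + 1)))
    (h01 : ∀ i ≤ n, Fn P (fun ω => (l ω, fl1 (a i) (t ω), C0 ω)) (Z₁ i)) (g e : ℕ → ℝ)
    (hg : ∀ i < n, Stk.hc P (Z₁ (i + 1)) (fun ω => (Z₁ i ω, (l ω, fl1 (a (i + 1)) (t ω), C0 ω))) ≤ g i)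
    (he : ∀ i < n, Stk.hc P (Cl (i + 1)) (fun ω => (Cl i ω, Z₁ (i + 1) ω)) ≤ e i)
    (hD : ∀ i ∈ I, Fn P (D i) (fun ω => (Cl i ω, Z₁ i ω))) {v : ℝ} (hv : 0 < v) :
    ∑ i ∈ I, colp P (fun ω => fl1 (a i + gg) (t ω)) (D i) ≤ ∑ i ∈ I, inac P l t C0 (a i) (a i + m) v +
      2 / (v * Real.log 2) * (Stk.hc P (Z₁ 0) (fun ω => (l ω, fl1 (a 0) (t ω), C0 ω)) + ∑ i ∈ range n, g i +
        (Stk.hc P (Cl 0) (Z₁ 0) + ∑ i ∈ range n, e i) + I.card * Real.log 2) + I.card * (2 : ℝ) ^ (-(v / 2)) := by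
  have hlog : 0 < Real.log 2 := Real.log_pos (by norm_num)
  have k0 : ∀ i < n, Fn P (fun ω => (l ω, fl1 (a i) (t ω), C0 ω)) (fun ω => (l ω, fl1 (a (i + 1)) (t ω), C0 ω)) := by
    intro i _ x y _ _ h
    simp only [Prod.mk.injEq] at h ⊢
    exact ⟨h.1, fl1_le (hmono (Nat.le_succ i)) h.2.1, h.2.2⟩
  have kX : ∀ i < n, Fn P (fun ω => fl1 (a (i + 1)) (t ω)) (fun ω => (l ω, fl1 (a (i + 1)) (t ω), C0 ω)) := by
    intro i _ x y _ _ h
    exact (Prod.mk.inj (Prod.mk.inj h).2).1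
  have key := act_abs P (C := Cl) (D := D) (Z₀ := fun i ω => (l ω, fl1 (a i) (t ω), C0 ω)) (Z₁ := Z₁)
    (X := fun i ω => fl1 (a (i + 1)) (t ω)) (n := n) k0 h1 h01 kX g e hg he (c := v * Real.log 2) (mul_pos hv hlog) I hI hD
  have e1 : ∀ i ∈ I, inac P l t C0 (a i) (a i + m) v =
      P.pr (gs P (fun ω => fl1 (a (i + 1)) (t ω)) (fun ω => (l ω, fl1 (a i) (t ω), C0 ω)) (v * Real.log 2)) false := by
    intro i hi
    rw [inac_eq, ham i hi]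
  rw [Finset.sum_congr rfl e1]
  have e2 : Real.exp (-(v * Real.log 2 / 2)) = (2 : ℝ) ^ (-(v / 2)) := by
    rw [Real.rpow_def_of_pos (by norm_num : (0 : ℝ) < 2)]
    congr 1
    ring
  rw [e2] at key
  refine le_trans (Finset.sum_le_sum fun i hi => ?_) key
  refine colp_mono_var P (D i) ?_
  intro x y _ _ h
  have h2 : fl1 (a i + gg) (t x) = fl1 (a i + gg) (t y) := (Prod.mk.inj h).1
  exact fl1_le (by rw [ham i hi]; omega) h2

/-- **[ACTC]** with the bound of `PActX` -/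
theorem actC (l : Ω → Ry) (t : Ω → ℝ) (C0 : Ω → γ) {a : ℕ → ℕ} (hmono : Monotone a) {Cl : ℕ → Ω → S}
    {D : ℕ → Ω → V} {Z₁ : ℕ → Ω → U} {n m gg : ℕ} (hm : 1 ≤ m) (hmg : m ≤ gg) (I : Finset ℕ) (hI : I ⊆ range n)
    (ham : ∀ i ∈ I, a (i + 1) = a i + m) (h1 : ∀ i < n, Fn P (Z₁ i) (Z₁ (i + 1)))
    (h01 : ∀ i ≤ n, Fn P (fun ω => (l ω, fl1 (a i) (t ω), C0 ω)) (Z₁ i)) (g e : ℕ → ℝ)
    (hg : ∀ i < n, Stk.hc P (Z₁ (i + 1)) (fun ω => (Z₁ i ω, (l ω, fl1 (a (i + 1)) (t ω), C0 ω))) ≤ g i)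
    (he : ∀ i < n, Stk.hc P (Cl (i + 1)) (fun ω => (Cl i ω, Z₁ (i + 1) ω)) ≤ e i)
    (hD : ∀ i ∈ I, Fn P (D i) (fun ω => (Cl i ω, Z₁ i ω))) {ct : ℝ} (hct : 0 < ct) {κ B : ℝ} (hκ : 0 < κ) (a0 n' : ℕ)
    (haj : ∀ i ∈ I, ∃ j < n', a i = a0 + m * j)
    (hB : κ * (m * Real.log 2) * ∑ j ∈ range n', inac P l t C0 (a0 + m * j) (a0 + m * (j + 1)) (ct * m) ≤ B) :
    ∑ i ∈ I, colp P (fun ω => fl1 (a i + gg) (t ω)) (D i) ≤ B / (κ * (m * Real.log 2)) +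
      2 / (ct * m * Real.log 2) * (Stk.hc P (Z₁ 0) (fun ω => (l ω, fl1 (a 0) (t ω), C0 ω)) + ∑ i ∈ range n, g i +
        (Stk.hc P (Cl 0) (Z₁ 0) + ∑ i ∈ range n, e i) + I.card * Real.log 2) + I.card * (2 : ℝ) ^ (-(ct * m / 2)) := by
  have hlog : 0 < Real.log 2 := Real.log_pos (by norm_num)
  have hm0 : (0 : ℝ) < m := by exact_mod_cast hm
  have h2 := act_time P l t C0 hmono hmg I hI ham h1 h01 g e hg he hD (v := ct * m) (by positivity)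
  have h3 := sum_inac_le P l t C0 hmono hm a0 n' (ct * m) I ham haj
  have h4 : ∑ j ∈ range n', inac P l t C0 (a0 + m * j) (a0 + m * (j + 1)) (ct * m) ≤ B / (κ * (m * Real.log 2)) := by
    rw [le_div_iff₀ (by positivity)]
    linarith
  linarith

/-- **[ACTC]** over the cells of `Cell.Pth` : `D' = (cell i b, nominal digits of the slope)`; the whole letter `Z₁` of the ray
side contains the digits of the own slope -/
theorem actC_cell (G : Cell.Pth Ω τ) (l : Ω → Ry) (C0 : Ω → γ) (b : ℕ) {Z₁ : ℕ → Ω → U} {n m gg : ℕ} (hm : 1 ≤ m)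
    (hmg : m ≤ gg) (I : Finset ℕ) (hI : I ⊆ range n) (ham : ∀ i ∈ I, G.a (i + 1) = G.a i + m)
    (h1 : ∀ i < n, Fn P (Z₁ i) (Z₁ (i + 1)))
    (h01 : ∀ i ≤ n, Fn P (fun ω => (l ω, fl1 (G.a i) (G.t ω), C0 ω)) (Z₁ i))
    (hray : Fn P G.l l) (hslp : ∀ i ≤ n, Fn P (fun ω => fl1 (G.rf i) (G.p ω)) (Z₁ i)) (g e : ℕ → ℝ)
    (hg : ∀ i < n, Stk.hc P (Z₁ (i + 1)) (fun ω => (Z₁ i ω, (l ω, fl1 (G.a (i + 1)) (G.t ω), C0 ω))) ≤ g i)
    (he : ∀ i < n, Stk.hc P (G.cell (i + 1) b) (fun ω => (G.cell i b ω, Z₁ (i + 1) ω)) ≤ e i)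
    {ct : ℝ} (hct : 0 < ct) {κ B : ℝ} (hκ : 0 < κ) (a0 n' : ℕ) (haj : ∀ i ∈ I, ∃ j < n', G.a i = a0 + m * j)
    (hB : κ * (m * Real.log 2) * ∑ j ∈ range n', inac P l G.t C0 (a0 + m * j) (a0 + m * (j + 1)) (ct * m) ≤ B) (r : ℕ → ℕ) :
    ∑ i ∈ I, colp P (fun ω => fl1 (G.a i + gg) (G.t ω)) (fun ω => (G.cell i b ω, fl1 (r i) (G.sl i b ω + G.o 4))) ≤
      B / (κ * (m * Real.log 2)) +
      2 / (ct * m * Real.log 2) * (Stk.hc P (Z₁ 0) (fun ω => (l ω, fl1 (G.a 0) (G.t ω), C0 ω)) + ∑ i ∈ range n, g i +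
        (Stk.hc P (G.cell 0 b) (Z₁ 0) + ∑ i ∈ range n, e i) + I.card * Real.log 2) +
      I.card * (2 : ℝ) ^ (-(ct * m / 2)) := by
  refine actC P l G.t C0 (a := G.a) (Cl := fun i => G.cell i b) (Z₁ := Z₁) (n := n)
    (D := fun i ω => (G.cell i b ω, fl1 (r i) (G.sl i b ω + G.o 4))) G.ha hm hmg I hI ham h1 h01 g e hg he
    ?_ hct hκ a0 n' haj hB
  intro i hi x y hx hy h
  have hin : i ≤ n := (Finset.mem_range.1 (hI hi)).le
  simp only [Prod.mk.injEq] at h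
  obtain ⟨h2, h3⟩ := h
  have h41 := h01 i hin x y hx hy h3
  simp only [Prod.mk.injEq] at h41
  have h4 : l x = l y := h41.1
  have h5 : G.l x = G.l y := hray x y hx hy h4
  have h6 : fl1 (G.rf i) (G.p x) = fl1 (G.rf i) (G.p y) := hslp i hin x y hx hy h3
  have h7 : G.T i x = G.T i y := congrArg Prod.fst h2
  have h8 : G.F i x = G.F i y := by
    unfold Cell.Pth.F
    rw [h7, h5]
    have : Vale.Agent.P127.U.CellD.rd (G.rf i) (G.p x) = Vale.Agent.P127.U.CellD.rd (G.rf i) (G.p y) := by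
      unfold Vale.Agent.P127.U.CellD.rd
      rw [h6]
    rw [this]
  have h9 : G.sl i b x = G.sl i b y := by
    unfold Cell.Pth.sl
    rw [h8, h5]
  show (G.cell i b x, fl1 (r i) (G.sl i b x + G.o 4)) = (G.cell i b y, fl1 (r i) (G.sl i b y + G.o 4))
  rw [h2, h9]

/-- **[ACTC] for a near-extremal law** : the constant `K` depends only on `lam, N, k, β, β', ct, c, ε` -/
theorem actC_nex {lam N k β β' ct : ℝ} (h0 : 0 ≤ lam) (h1 : lam ≤ 1) (hk : 0 < k) (hN : 0 ≤ N) (hβ' : 0 ≤ β')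
    (hF : FIXA lam N (4 * k) β') (hct : 0 < ct) (hκ : 0 < β' + N - 2 - 4 * k - N * ct) {c : ℝ} (hc : 1 ≤ c) {ε : ℝ}
    (hε : 0 < ε) :
    ∃ K : ℝ, 0 ≤ K ∧ ∀ (Ω : Type) [Fintype Ω] (γ τ U : Type) (P : Law Ω) (G : Cell.Pth Ω τ) (l : Ω → Ry) (C0 : Ω → γ)
      (L h q : ℕ) (W : Ω → W.Cbx) (d : ℝ), NEx c lam N k β d P l G.t C0 L h q W →
      ∀ (b : ℕ) (Z₁ : ℕ → Ω → U) (n m gg : ℕ), 1 ≤ m → m ≤ gg → ∀ I : Finset ℕ, I ⊆ range n →
      (∀ i ∈ I, G.a (i + 1) = G.a i + m) → (∀ i < n, Fn P (Z₁ i) (Z₁ (i + 1))) →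
      (∀ i ≤ n, Fn P (fun ω => (l ω, fl1 (G.a i) (G.t ω), C0 ω)) (Z₁ i)) → Fn P G.l l →
      (∀ i ≤ n, Fn P (fun ω => fl1 (G.rf i) (G.p ω)) (Z₁ i)) → ∀ g e : ℕ → ℝ,
      (∀ i < n, Stk.hc P (Z₁ (i + 1)) (fun ω => (Z₁ i ω, (l ω, fl1 (G.a (i + 1)) (G.t ω), C0 ω))) ≤ g i) →
      (∀ i < n, Stk.hc P (G.cell (i + 1) b) (fun ω => (G.cell i b ω, Z₁ (i + 1) ω)) ≤ e i) →
      ∀ a0 n' : ℕ, a0 + m * n' ≤ h → (∀ i ∈ I, ∃ j < n', G.a i = a0 + m * j) → ∀ r : ℕ → ℕ,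
      ∑ i ∈ I, colp P (fun ω => fl1 (G.a i + gg) (G.t ω)) (fun ω => (G.cell i b ω, fl1 (r i) (G.sl i b ω + G.o 4))) ≤
        ((β' - β + d + ε) * h * Real.log 2 + K * (n' + 1)) / ((β' + N - 2 - 4 * k - N * ct) * (m * Real.log 2)) +
        2 / (ct * m * Real.log 2) * (Stk.hc P (Z₁ 0) (fun ω => (l ω, fl1 (G.a 0) (G.t ω), C0 ω)) + ∑ i ∈ range n, g i +
          (Stk.hc P (G.cell 0 b) (Z₁ 0) + ∑ i ∈ range n, e i) + I.card * Real.log 2) +
        I.card * (2 : ℝ) ^ (-(ct * m / 2)) := by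
  classical
  -- one constant for all values of `β - d`
  obtain ⟨K, hK0, hK⟩ := H404.actX lam N k β β' ct h0 h1 hk hN hβ' hF hκ.le c hc ε hε
  refine ⟨K, hK0, ?_⟩
  intro Ω _ γ τ U P G l C0 L h q W d hX b Z₁ n m gg hm hmg I hI ham h1' h01 hray hslp g e hg he a0 n' han haj r
  have hBd := hK (d * h * Real.log 2) Ω γ P l G.t C0 L h (0, q) W hX.ok (by have := hX.hL; omega) (fun ω hω => by
      obtain ⟨e1, e2, e3⟩ := hX.lb ω hω
      exact ⟨e1, by rw [e2]; simp, e3⟩) (by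
      have := hX.ex
      linarith) m a0 n' han
  have e1 : d * h * Real.log 2 + (β' - β + ε) * h * Real.log 2 + K * (n' + 1) =
      (β' - β + d + ε) * h * Real.log 2 + K * (n' + 1) := by ring
  rw [e1] at hBd
  exact actC_cell P G l C0 b hm hmg I hI ham h1' h01 hray hslp g e hg he hct hκ a0 n' haj hBd r

end path

end Vale.Agent.P106.U.H425
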