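import Vale.Agent.P106.U.H425.LightT
import Vale.Agent.P106.U.H449.RayNum
import Vale.Agent.P106.U.H565.RunF
import Vale.Agent.P106.U.H523.Best

/-!
# P106 / U / H425 : `Run.Light` for helper565's concrete run (helper425)

* `eT_le` : the numbers of the time blocks.
* `light_run` : for every relative accuracy `T` the concrete run has light blocks with `e = T h / m`, `κ₀ = kL ct cr T / m`;
  the activity `ct`, the defect `dT` and the relative price `ηR` of the ray side depend on `T` only.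
-/

set_option autoImplicit false

namespace Vale.Agent.P106.U.H425

open Finset Vale.Agent.P127 Vale.Agent.P127.Stk Vale.Agent.P127.U
open Vale.Agent.P127.U.Mic (colp)
open Vale.Agent.P106.K (Ry)
open Vale.Agent.P106.U Vale.Agent.P106.U.H449
open Vale.Agent.P106.U (NEx)

/-- the numbers of the time blocks -/
theorem eT_le {N k β β' ct d ε K h m n' gU cA β0 T x : ℝ} (hβ0 : 0 < β0) (hct : 0 < ct)
    (hκ : β0 / 2 ≤ β' + N - 2 - 4 * k - N * ct) (hm : 0 < m) (hx : 1 ≤ x) (hh : h = m * x) (hn : n' ≤ x)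
    (hc : cA ≤ x) (hc0 : 0 ≤ cA) (hK : 0 ≤ K) (hs : β' - β + d + ε ≤ T ^ 2 * β0 / 19200)
    (hg : gU ≤ ct * T ^ 2 / 38400 * h) (m1 : 76800 * K ≤ β0 * T ^ 2 * m) (m2 : 38400 ≤ ct * T ^ 2 * m) :
    eT N k β β' ct d ε K h m n' gU cA ≤ T ^ 2 / 1600 * x := by
  have l1 := Ray.log2_lb
  have l2 := Ray.log2_ub
  unfold eT
  set L := Real.log 2 with hL
  have L0 : 0 < L := by linarith
  have hx0 : 0 < x := by linarith
  have hh0 : 0 < h := by rw [hh]; positivity
  have hT2 : 0 ≤ T ^ 2 := sq_nonneg T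
  have hcm : 0 < ct * m := by positivity
  -- the first term
  have t1 : ((β' - β + d + ε) * h * L + K * (n' + 1)) / ((β' + N - 2 - 4 * k - N * ct) * (m * L)) ≤ T ^ 2 / 4800 * x := by
    have a0 : 0 < (β' + N - 2 - 4 * k - N * ct) * (m * L) := mul_pos (by linarith) (by positivity)
    rw [div_le_iff₀ a0]
    have a1 : (β' - β + d + ε) * h * L ≤ T ^ 2 * β0 / 19200 * h * L :=
      mul_le_mul_of_nonneg_right (mul_le_mul_of_nonneg_right hs hh0.le) L0.le
    have a2 : K * (n' + 1) ≤ K * (2 * x) := mul_le_mul_of_nonneg_left (by linarith) hK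
    have a3 : T ^ 2 / 4800 * x * (β0 / 2 * (m * L)) ≤
        T ^ 2 / 4800 * x * ((β' + N - 2 - 4 * k - N * ct) * (m * L)) :=
      mul_le_mul_of_nonneg_left (mul_le_mul_of_nonneg_right hκ (by positivity)) (by positivity)
    have a4 : T ^ 2 / 4800 * x * (β0 / 2 * (m * L)) = T ^ 2 * β0 / 9600 * (m * x) * L := by ring
    have a5 : T ^ 2 * β0 / 19200 * h * L = T ^ 2 * β0 / 19200 * (m * x) * L := by rw [hh]
    -- `K * 2 x ≤ T² β0 / 19200 (m x) L`
    have a6 : K * (2 * x) ≤ T ^ 2 * β0 / 19200 * (m * x) * L := by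
      have b1 : K * (2 * x) = (76800 * K) * x / 38400 := by ring
      have b2 : (76800 * K) * x ≤ β0 * T ^ 2 * m * x := mul_le_mul_of_nonneg_right m1 hx0.le
      have b3 : T ^ 2 * β0 / 19200 * (m * x) * (1 / 2) ≤ T ^ 2 * β0 / 19200 * (m * x) * L :=
        mul_le_mul_of_nonneg_left l1.le (by positivity)
      have b4 : T ^ 2 * β0 / 19200 * (m * x) * (1 / 2) = β0 * T ^ 2 * m * x / 38400 := by ring
      linarith
    have a7 : T ^ 2 * β0 / 19200 * (m * x) * L + T ^ 2 * β0 / 19200 * (m * x) * L = T ^ 2 * β0 / 9600 * (m * x) * L := by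
      ring
    linarith
  -- the second term
  have t2 : 2 / (ct * m * L) * (gU + cA * L) ≤ T ^ 2 / 4800 * x := by
    have a0 : gU + cA * L ≤ ct * T ^ 2 / 38400 * (m * x) + x := by
      have b1 : cA * L ≤ x * 1 := mul_le_mul hc l2.le L0.le hx0.le
      rw [hh] at hg
      linarith
    have a1 : 2 / (ct * m * L) ≤ 4 / (ct * m) := by
      rw [div_le_div_iff₀ (by positivity) hcm]
      have : ct * m * (1 / 2) ≤ ct * m * L := mul_le_mul_of_nonneg_left l1.le hcm.le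
      linarith
    have a2 : 0 ≤ ct * T ^ 2 / 38400 * (m * x) + x := by positivity
    calc 2 / (ct * m * L) * (gU + cA * L) ≤ 2 / (ct * m * L) * (ct * T ^ 2 / 38400 * (m * x) + x) :=
          mul_le_mul_of_nonneg_left a0 (by positivity)
      _ ≤ 4 / (ct * m) * (ct * T ^ 2 / 38400 * (m * x) + x) := mul_le_mul_of_nonneg_right a1 a2
      _ = T ^ 2 / 9600 * x + 4 / (ct * m) * x := by field_simp; ring
      _ ≤ T ^ 2 / 9600 * x + T ^ 2 / 9600 * x := by
          have b1 : 4 / (ct * m) ≤ T ^ 2 / 9600 := by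
            rw [div_le_iff₀ hcm]
            linarith
          have := mul_le_mul_of_nonneg_right b1 hx0.le
          linarith
      _ = T ^ 2 / 4800 * x := by ring
  -- the third term
  have t3 : cA * (2 : ℝ) ^ (-(ct * m / 2)) ≤ T ^ 2 / 9600 * x := by
    have a0 : (2 : ℝ) ^ (-(ct * m / 2)) ≤ 4 / (ct * m) := by
      rw [Real.rpow_neg (by norm_num), ← one_div]
      have b0 : 0 < (2 : ℝ) ^ (ct * m / 2) := Real.rpow_pos_of_pos (by norm_num) _
      rw [div_le_div_iff₀ b0 hcm]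
      have b1 : ct * m / 2 * L + 1 ≤ Real.exp (ct * m / 2 * L) := Real.add_one_le_exp _
      have b2 : (2 : ℝ) ^ (ct * m / 2) = Real.exp (ct * m / 2 * L) := by
        rw [Real.rpow_def_of_pos (by norm_num : (0 : ℝ) < 2), hL, mul_comm]
      have b3 : ct * m / 2 * (1 / 2) ≤ ct * m / 2 * L := mul_le_mul_of_nonneg_left l1.le (by positivity)
      rw [b2]
      linarith
    have a1 : 4 / (ct * m) ≤ T ^ 2 / 9600 := by
      rw [div_le_iff₀ hcm]
      linarith
    calc cA * (2 : ℝ) ^ (-(ct * m / 2)) ≤ cA * (T ^ 2 / 9600) := mul_le_mul_of_nonneg_left (a0.trans a1) hc0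
      _ ≤ x * (T ^ 2 / 9600) := mul_le_mul_of_nonneg_right hc (by positivity)
      _ = T ^ 2 / 9600 * x := mul_comm _ _
  have e : T ^ 2 / 4800 * x + T ^ 2 / 4800 * x + T ^ 2 / 9600 * x ≤ T ^ 2 / 1600 * x := by
    have : 0 ≤ T ^ 2 * x := by positivity
    have e1 : T ^ 2 / 4800 * x + T ^ 2 / 4800 * x + T ^ 2 / 9600 * x = T ^ 2 * x * (5 / 9600) := by ring
    have e2 : T ^ 2 / 1600 * x = T ^ 2 * x * (6 / 9600) := by ring
    rw [e1, e2]
    linarith
  linarith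

/-- the constant of `κ₀` -/
noncomputable def kL (ct cr T : ℝ) : ℝ := 10 / cr + 200 * (4 / ct) / T + 4 / ct

theorem kL_pos {ct cr T : ℝ} (h1 : 0 < ct) (h2 : 0 < cr) (h3 : 0 < T) : 0 < kL ct cr T := by
  unfold kL
  positivity

/-- **light blocks of the concrete run** -/
theorem light_run {lam N β0 : ℝ} (hl0 : 0 ≤ lam) (hl1 : lam ≤ 1) (hβ0 : 0 < β0) (hβ1 : β0 ≤ 2) (hN : 2 ≤ N) {T : ℝ}
    (hT : 0 < T) (hT1 : T ≤ 1) :
    ∃ ct dT ηR : ℝ, 0 < ct ∧ 0 < dT ∧ 0 < ηR ∧ ∀ k β β' : ℝ, 0 < k → k ≤ dT → β0 ≤ β → β ≤ β' → β' ≤ β + dT →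
      FIXA lam N (8 * k) β' → ∀ (cr CA : ℝ) (Md : ℕ), 0 < cr → 0 ≤ CA → ∃ m0 : ℕ,
      ∀ (Ω : Type) [Fintype Ω] (c : H565.C2 Ω) (Rm : ℕ) (cc : ℝ) (Ac rc : ℕ), c.Hyp Rm cc Ac rc → m0 ≤ c.I.m →
        c.Md = Md → c.thr = Ray.thrc cr c.I.m → c.I.m ≤ c.I.h → ∀ d : ℝ, d ≤ dT →
        NEx 100 lam N k β d c.Q c.l c.t (fun _ => ()) c.L c.I.h c.I.q c.W →
        Stk.hc c.run.Q (c.run.U 0) c.run.ry + ∑ i ∈ range (c.run.n + c.num.J), Stk.hc c.run.Q (c.run.U (i + 1))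
          (fun ω => (c.run.Z i ω, fl1 (c.run.C.a (i + 1)) (c.run.t ω))) ≤ ηR * c.I.h →
        Real.log (1 / (c.x1 * c.x2)) ≤ CA * (c.I.h / c.I.m) →
        c.run.Light c.num (T * (c.I.h / c.I.m)) (kL ct cr T / c.I.m) := by
  have hct : 0 < β0 / (4 * N) := by positivity
  set ct := β0 / (4 * N) with hctd
  have hNct : N * ct = β0 / 4 := by rw [hctd]; field_simp
  have hT2 : T ^ 2 ≤ 1 := pow_le_one₀ hT.le hT1
  have hT20 : 0 < T ^ 2 := by positivity
  refine ⟨ct, T ^ 2 * β0 / 57600, ct * T ^ 2 / 38400, hct, by positivity, by positivity, ?_⟩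
  intro k β β' hk hkd hβ hβb hβd hF cr CA Md hcr hCA
  have hd1 : T ^ 2 * β0 / 57600 ≤ β0 / 16 := by
    have : T ^ 2 * β0 ≤ 1 * β0 := mul_le_mul_of_nonneg_right hT2 hβ0.le
    linarith
  have hκ : β0 / 2 ≤ β' + N - 2 - 4 * k - N * ct := by
    rw [hNct]
    linarith
  obtain ⟨K, hK0, hK⟩ := time_nex (lam := lam) (N := N) (k := k) (β := β) (β' := β') (ct := ct) hl0 hl1 hk
    (by linarith) (by linarith) (H523.FIXA_mono hl0 hl1 (by positivity) (by linarith) hF) hct (by linarith)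
    (c := 100) (by norm_num) (ε := T ^ 2 * β0 / 57600) (by positivity)
  obtain ⟨m0, hm0⟩ := exists_nat_ge (max (76800 * K / (β0 * T ^ 2)) (max (38400 / (ct * T ^ 2))
    (max (80 * ((Md + 1) * CA + 1) / (T * cr)) (64 / (T * cr)))))
  refine ⟨m0, ?_⟩
  intro Ω _ c Rm cc Ac rc H hm hMd hthr hmh d hd hX hprU hw
  have hU := H565.C2.hasU H
  have hmN : 1 ≤ c.I.m := hU.m1
  have hmr : (0 : ℝ) < c.I.m := by exact_mod_cast hmN
  have hm0r : (m0 : ℝ) ≤ c.I.m := by exact_mod_cast hm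
  have q1 : 76800 * K / (β0 * T ^ 2) ≤ c.I.m := (le_max_left _ _).trans (hm0.trans hm0r)
  have q2 : 38400 / (ct * T ^ 2) ≤ c.I.m := ((le_max_left _ _).trans (le_max_right _ _)).trans (hm0.trans hm0r)
  have q3 : 80 * ((Md + 1) * CA + 1) / (T * cr) ≤ c.I.m :=
    (((le_max_left _ _).trans (le_max_right _ _)).trans (le_max_right _ _)).trans (hm0.trans hm0r)
  have q4 : 64 / (T * cr) ≤ c.I.m :=
    (((le_max_right _ _).trans (le_max_right _ _)).trans (le_max_right _ _)).trans (hm0.trans hm0r)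
  rw [div_le_iff₀ (by positivity)] at q1 q2 q3 q4
  have hhr : (c.I.m : ℝ) ≤ c.I.h := by exact_mod_cast hmh
  set x : ℝ := (c.I.h : ℝ) / c.I.m with hx
  have hx1 : 1 ≤ x := by rw [hx, one_le_div hmr]; exact hhr
  have hhx : (c.I.h : ℝ) = c.I.m * x := by rw [hx]; field_simp
  have hA : (c.I.pm.A : ℝ) ≤ x := by
    have h1 := c.good.hah
    have h2 : ((c.I.m * c.I.ha : ℕ) : ℝ) ≤ c.I.h := by exact_mod_cast h1
    push_cast at h2
    rw [hx, le_div_iff₀ hmr]
    show (c.I.ha : ℝ) * c.I.m ≤ c.I.h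
    linarith
  have hcard : (c.run.aS.card : ℝ) ≤ x := by
    have h1 : c.run.aS.card ≤ c.I.pm.A := hU.card_aS
    have h2 : (c.run.aS.card : ℝ) ≤ c.I.pm.A := by exact_mod_cast h1
    linarith
  have htime := hK Ω _ _ c.run c.num (ct * T ^ 2 / 38400 * c.I.h) d (H565.C2.path H) (fun i _ => hU.Ut i) hprU hX
    c.I.pm.A c.good.hah (fun i _ => ⟨c.D.li i, hU.li_lt i, hU.ra i⟩)
  have he : eT N k β β' ct d (T ^ 2 * β0 / 57600) K c.run.h c.run.m c.I.pm.A (ct * T ^ 2 / 38400 * c.I.h)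
      c.run.aS.card ≤ T ^ 2 / 1600 * x :=
    eT_le hβ0 hct hκ hmr hx1 hhx hA hcard (Nat.cast_nonneg _) hK0 (by linarith) le_rfl (by
      show 76800 * K ≤ β0 * T ^ 2 * (c.I.m : ℝ)
      linarith) (by
      show 38400 ≤ ct * T ^ 2 * (c.I.m : ℝ)
      linarith)
  have hM : ((c.I.pm.M : ℕ) : ℝ) ≤ Md := by
    have h1 := H.st.Md2
    have h2 : c.I.pm.M ≤ Md := by omega
    exact_mod_cast h2
  rw [show c.thr = Ray.thrc cr c.I.m from hthr] at hU
  refine hU.light (T := T) (k₂ := 4 / ct) (CA := CA) (x := x) hT hT1 hcr (by positivity) hCA (by linarith) ?_ ?_ ?_ hA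
    hw he (by positivity) ?_ htime
  · have h1 : (c.I.pm.M + 1) * CA ≤ (Md + 1) * CA := mul_le_mul_of_nonneg_right (by linarith) hCA
    linarith
  · rw [hMd]
    linarith
  · linarith
  · show 2 / (ct * (c.I.m : ℝ) * Real.log 2) ≤ 4 / ct / c.I.m
    have l1 := Ray.log2_lb
    rw [div_div, div_le_div_iff₀ (by positivity) (by positivity)]
    have : ct * c.I.m * (1 / 2) ≤ ct * c.I.m * Real.log 2 := mul_le_mul_of_nonneg_left l1.le (by positivity)
    linarith

end Vale.Agent.P106.U.H425
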