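import Vale.Agent.P106.U.H683.L2H
import Vale.Agent.P106.U.H425.SI2b
import Vale.Agent.P106.U.H958.SI2
import Vale.Agent.P106.U.H786.HSC2

/-! # P106 / U / H425 : the input (b) (over helper958's `si2_st`) and the row `RowL 2` are theorems (helper425) -/

set_option autoImplicit false

namespace Vale.Agent.P106.U.H425

open Vale.Agent.P106.U.MIC
open Vale.Agent.P106.U.H683.L2 (KrS)

/-- **the input (b)** -/
theorem hSI2 : HSI2 := by
  intro b hb η hη x δh e3 hx hδh he3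
  refine ⟨1, one_pos, fun θ hθ _ => ⟨1, one_pos, fun δ1 hδ1 _ σ hσe hσ => ⟨1, one_pos, fun ε hε _ ρ hρ => ?_⟩⟩⟩
  intro Lk hLk L1 L2 hL1 hL12 κ hκ
  set Kr := KrS x ρ.J with hKr
  have hKr0 : 0 < Kr := by
    rw [hKr]
    unfold KrS
    omega
  have hKr1 : ρ.J * MuS x ≤ Kr := by
    rw [hKr]
    unfold KrS
    nlinarith
  have hK1 := hσ.bs.K10
  have hC : 0 ≤ H958.s2C ρ.K σ.K1 L1 (L1 + Kr) := by
    have hF := H958.cF_nn ρ.K
    unfold H958.s2C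
    positivity
  refine ⟨H958.s2C ρ.K σ.K1 L1 (L1 + Kr), H513.siD L1 (L1 + Kr), KS ρ, fun m _ => H958.s2X L1 L2 Kr x m, hC,
    H513.siD_nonneg _ _, KS_nonneg ρ, ?_⟩
  have h1 := H336.sw_suf η x σ ε ρ hκ (L1 + Kr)
  have h2 : Suf σ ε _ := Suf.of_ev3 fun g _ => (H958.ev_num2 σ hσ ρ x L1 Kr).out
  refine (h1.and h2).mono fun g m B h hg H s => ⟨_, H.1 s, fun Sw hSw => ?_⟩
  obtain ⟨n1, n2, n3, n4, n5⟩ := H.2
  exact H958.si2_st hσ hρ s n1 n2 n3 n4 (hL1.trans_le hL12) hKr1 hKr0 hLk le_rfl n5 hSw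

/-- **the row `RowL 2`** -/
theorem row_L2 : MIC.RowL 2 := rowL2_of H683.L2.hw2 hSI2 H786.SC.hsc2

end Vale.Agent.P106.U.H425
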