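import Vale.Agent.P106.U.H61.Nrm
import Vale.Agent.P106.U.H457.Ev
import Vale.Agent.P106.U.H428.SlbC

/-!
# P106 / U / H425 : [SW] the functional of `W` is a function of `(l, t_a1)` (helper425)

* `Sw K a r h P l t W` : on the support, for two points with the same ray and the same time to `a` digits, the functionals of
  the labels agree to `r` digits (up to sign) on the ball of level `a`: own normals, lines of `κ`, curvatures.
* `pSw` : a near-extremal system in normal form can be conditioned (same price, weights at most doubled) on an event on which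
  `Sw` holds, with `r = q - C₁ (h - a)`, `h - a ≥ η₁ h`.
-/

set_option autoImplicit false

namespace Vale.Agent.P106.U.H425

open Finset Vale.Agent.P127 Vale.Agent.P127.Stk Vale.Agent.P127.U Vale.Agent.P106.W Vale.Agent.P106.K Vale.Agent.P106.U
open Vale.Agent.P106.U.H118 (two two_supp)
open Vale.Agent.P106.U.H428 (Fa Fl W0 Ag nv G0 G1)
open Vale.Agent.P106.U.H416
open Vale.Agent.P106.U.H61

/-- **functionals of the labels agree** on the ball of level `a` to `r` digits, for equal ray and equal time to `a` digits -/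
structure Sw (K : ℝ) (a r h : ℕ) {Ω : Type} [Fintype Ω] (P : Law Ω) (l : Ω → Ry) (t : Ω → ℝ) (W : Ω → Cbx) : Prop where
  ah : a ≤ h
  ag : ∀ ω ω', 0 < P.w ω → 0 < P.w ω' → l ω = l ω' → fl1 a (t ω) = fl1 a (t ω') → ∃ σ : ℝ, (σ = 1 ∨ σ = -1) ∧
    (∀ k, |nrm (W ω) (bl h (l ω) (t ω)) k - σ * nrm (W ω') (bl h (l ω') (t ω')) k| ≤ K * (1 / 2 : ℝ) ^ r) ∧
    |(W ω).κ - 2 * (2 ^ h * (qa h (t ω) - qa h (t ω'))) * (W ω).α - σ * (W ω').κ| ≤ K * (1 / 2 : ℝ) ^ r ∧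
    2 ^ (h - a) * |(W ω).α - σ * (W ω').α| ≤ K * (1 / 2 : ℝ) ^ r

/-- `Sw` only depends on the support -/
theorem Sw.mono {K : ℝ} {a r h : ℕ} {Ω : Type} [Fintype Ω] {P Q : Law Ω} {l : Ω → Ry} {t : Ω → ℝ} {W : Ω → Cbx}
    (H : Sw K a r h P l t W) (hs : ∀ ω, 0 < Q.w ω → 0 < P.w ω) : Sw K a r h Q l t W :=
  ⟨H.ah, fun ω ω' h1 h2 => H.ag ω ω' (hs ω h1) (hs ω' h2)⟩

/-- `Sw` in a law on another space with a projection -/
theorem Sw.comap {K : ℝ} {a r h : ℕ} {Ω Ω' : Type} [Fintype Ω] [Fintype Ω'] {P : Law Ω} {Q : Law Ω'} {π : Ω' → Ω}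
    {l : Ω → Ry} {t : Ω → ℝ} {W : Ω → Cbx}
    (H : Sw K a r h P l t W) (hs : ∀ ω, 0 < Q.w ω → 0 < P.w (π ω)) :
    Sw K a r h Q (fun ω => l (π ω)) (fun ω => t (π ω)) (fun ω => W (π ω)) :=
  ⟨H.ah, fun ω ω' h1 h2 => H.ag (π ω) (π ω') (hs ω h1) (hs ω' h2)⟩

open Classical in
/-- **the mode** : a relation of two copies given `Z` which fails with probability `≤ ρ` holds with a point chosen from `Z`,
outside an event of probability `≤ ρ` -/
theorem mode {Ω ζ : Type} [Fintype Ω] (P : Law Ω) (Z : Ω → ζ) (Rel : Ω → Ω → Prop) {ρ : ℝ}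
    (hρ : (two P Z).ex (fun x => if Rel x.fst x.snd then 0 else 1) ≤ ρ) :
    ∃ s : ζ → Ω, (∀ ω, 0 < P.w ω → 0 < P.w (s (Z ω)) ∧ Z (s (Z ω)) = Z ω) ∧
      P.ex (fun ω => if Rel ω (s (Z ω)) then 0 else 1) ≤ ρ := by
  obtain ⟨ω0, -⟩ : ∃ ω : Ω, True := by
    by_contra hno
    push Not at hno
    have h1 := P.sum_one
    have : IsEmpty Ω := ⟨fun ω => (hno ω).elim⟩
    simp at h1
  have hmin : ∀ z, ∃ s : Ω, (∀ b, 0 < P.w b → Z b = z → 0 < P.w s ∧ Z s = z) ∧ ∀ b, 0 < P.w b → Z b = z →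
      ∑ a with Z a = z, P.w a * (if Rel a s then 0 else 1 : ℝ) ≤ ∑ a with Z a = z, P.w a * (if Rel a b then 0 else 1 : ℝ) := by
    intro z
    by_cases h : (univ.filter fun b => 0 < P.w b ∧ Z b = z).Nonempty
    · obtain ⟨b, hb, hb'⟩ := Finset.exists_min_image _
        (fun b => ∑ a with Z a = z, P.w a * (if Rel a b then 0 else 1 : ℝ)) h
      refine ⟨b, fun _ _ _ => ?_, fun b' h1 h2 => hb' b' ?_⟩
      · simpa using hb
      · simp [h1, h2]
    · refine ⟨ω0, fun b h1 h2 => absurd ⟨b, ?_⟩ h, fun b h1 h2 => absurd ⟨b, ?_⟩ h⟩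
      · simp [h1, h2]
      · simp [h1, h2]
  choose s hs1 hs2 using hmin
  refine ⟨s, fun ω hω => hs1 (Z ω) ω hω rfl, le_trans ?_ hρ⟩
  have e1 : (two P Z).ex (fun x => if Rel x.fst x.snd then 0 else 1) =
      ∑ a, ∑ b with Z b = Z a, P.w a * P.w b / P.pr Z (Z a) * (if Rel a b then 0 else 1 : ℝ) := by
    rw [← Law.GT_sum Z Z (fun a b => P.w a * P.w b / P.pr Z (Z a) * (if Rel a b then 0 else 1 : ℝ))]
    rfl
  rw [e1]
  unfold Law.ex
  rw [← Finset.sum_fiberwise_of_maps_to (g := Z) (t := img Z) (by simp),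
    ← Finset.sum_fiberwise_of_maps_to (s := univ) (g := Z) (t := img Z) (by simp)]
  refine Finset.sum_le_sum fun z _ => ?_
  have e2 : ∑ a with Z a = z, P.w a * (if Rel a (s (Z a)) then 0 else 1 : ℝ) =
      ∑ a with Z a = z, P.w a * (if Rel a (s z) then 0 else 1 : ℝ) := by
    refine Finset.sum_congr rfl fun a ha => ?_
    have : Z a = z := by simpa using ha
    rw [this]
  have e3 : ∑ a with Z a = z, ∑ b with Z b = Z a, P.w a * P.w b / P.pr Z (Z a) * (if Rel a b then 0 else 1 : ℝ) =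
      ∑ b with Z b = z, P.w b / P.pr Z z * ∑ a with Z a = z, P.w a * (if Rel a b then 0 else 1 : ℝ) := by
    have : ∀ a ∈ univ.filter (fun a => Z a = z), ∑ b with Z b = Z a, P.w a * P.w b / P.pr Z (Z a) *
        (if Rel a b then 0 else 1 : ℝ) = ∑ b with Z b = z, P.w b / P.pr Z z * (P.w a * (if Rel a b then 0 else 1 : ℝ)) := by
      intro a ha
      have h1 : Z a = z := by simpa using ha
      rw [h1]
      refine Finset.sum_congr rfl fun b _ => ?_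
      ring
    rw [Finset.sum_congr rfl this, Finset.sum_comm]
    refine Finset.sum_congr rfl fun b _ => ?_
    rw [Finset.mul_sum]
  rw [e2, e3]
  have hw : ∑ b with Z b = z, P.w b = P.pr Z z := rfl
  rcases (P.pr_nonneg Z z).eq_or_lt with h0 | h0
  · have h1 : ∑ a with Z a = z, P.w a * (if Rel a (s z) then 0 else 1 : ℝ) = 0 := by
      refine Finset.sum_eq_zero fun a ha => ?_
      have h2 : Z a = z := by simpa using ha
      have h3 := P.w_le_pr Z a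
      rw [h2, ← h0] at h3
      rw [le_antisymm h3 (P.nn a), zero_mul]
    rw [h1]
    refine Finset.sum_nonneg fun b _ => mul_nonneg (div_nonneg (P.nn b) (P.pr_nonneg Z z)) (Finset.sum_nonneg fun a _ =>
      mul_nonneg (P.nn a) ?_)
    split_ifs <;> norm_num
  · set m := ∑ a with Z a = z, P.w a * (if Rel a (s z) then 0 else 1 : ℝ) with hm
    have h1 : m = ∑ b with Z b = z, P.w b / P.pr Z z * m := by
      rw [← Finset.sum_mul, ← Finset.sum_div, hw, div_self h0.ne', one_mul]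
    rw [h1]
    refine Finset.sum_le_sum fun b hb => ?_
    have hb' : Z b = z := by simpa using hb
    rcases (P.nn b).eq_or_lt with h2 | h2
    · rw [← h2]
      simp
    · exact mul_le_mul_of_nonneg_left (hs2 z b h2 hb') (div_nonneg (P.nn b) h0.le)

/-- composition of two agreements -/
theorem ag_trans {δ σ σ' : ℝ} (hσ : σ = 1 ∨ σ = -1) (hσ' : σ' = 1 ∨ σ' = -1) {F F' F0 : Cbx} {m : Ry} (h : Ag δ F F0 m σ)
    (h' : Ag δ F' F0 m σ') : Ag (2 * δ) F F' m (σ * σ') := by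
  have key : ∀ x y z : ℝ, |x - σ * z| ≤ δ → |y - σ' * z| ≤ δ → |x - σ * σ' * y| ≤ 2 * δ := by
    intro x y z h1 h2
    have e : x - σ * σ' * y = (x - σ * z) - σ * σ' * (y - σ' * z) := by
      rcases hσ' with rfl | rfl <;> ring
    rw [e]
    have h3 := abs_sub (x - σ * z) (σ * σ' * (y - σ' * z))
    have h4 : |σ * σ' * (y - σ' * z)| = |y - σ' * z| := by
      rw [abs_mul]
      have : |σ * σ'| = 1 := by
        rcases hσ with rfl | rfl <;> rcases hσ' with rfl | rfl <;> norm_num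
      rw [this, one_mul]
    linarith
  exact ⟨fun k => key _ _ _ (h.1 k) (h'.1 k), key _ _ _ h.2.1 h'.2.1, key _ _ _ h.2.2 h'.2.2⟩

/-- the agreement in the window, in the coordinates of the level `h` -/
theorem ag_nat {δ σ : ℝ} {a w : ℕ} {W W' : Cbx} {l : Ry} {t t' : ℝ} (ht : fl1 a t = fl1 a t')
    (h : Ag δ (Fa w (H428.wW a w W l t) (wt a t)) (Fa w (H428.wW a w W' l t') (wt a t')) (bl 0 (wR a l t) (wt a t)) σ) :
    (∀ k, |nrm W (bl (a + w) l t) k - σ * nrm W' (bl (a + w) l t') k| ≤ 3 * δ) ∧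
    |W.κ - 2 * (2 ^ (a + w) * (qa (a + w) t - qa (a + w) t')) * W.α - σ * W'.κ| ≤ 3 * δ ∧
    2 ^ w * |W.α - σ * W'.α| ≤ 3 * δ := by
  have hb : bl a l t = bl a l t' := bl_congr ht
  have hw : wR a l t = wR a l t' := by
    unfold wR wo wh
    rw [hb]
  obtain ⟨h1, h2, h3⟩ := h
  rw [bl_wR_zero] at h1
  have hδ : 0 ≤ δ := (abs_nonneg _).trans h2
  have h2w : (0 : ℝ) < 2 ^ w := by positivity
  have hα : ∀ (V : Cbx) (s : ℝ), (Fa w (H428.wW a w V l s) (wt a s)).α = 2 ^ w * V.α := fun V s => rfl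
  have hκ : ∀ (V : Cbx) (s : ℝ), (Fa w (H428.wW a w V l s) (wt a s)).κ = V.κ - 2 * H513.tau a w s * 2 ^ w * V.α := by
    intro V s
    have : (Fa w (H428.wW a w V l s) (wt a s)).κ = V.κ - 2 * H513.tau 0 w (wt a s) * 2 ^ w * V.α := rfl
    rw [this, H428.tau_wt]
  refine ⟨fun k => ?_, ?_, ?_⟩
  · have h4 := h1 k
    rw [H428.nv_Fa_win, hw, H428.nv_Fa_win, H428.nv_Fl, H428.nv_Fl] at h4
    rw [H428.nrm_eq, H428.nrm_eq]
    linarith
  · rw [hκ, hκ] at h2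
    rw [hα, hα] at h3
    have h5 : 2 ^ w * |W.α - σ * W'.α| ≤ δ := by
      have e : 2 ^ w * W.α - σ * (2 ^ w * W'.α) = 2 ^ w * (W.α - σ * W'.α) := by ring
      rw [e, abs_mul, abs_of_pos h2w] at h3
      exact h3
    have hq : qa a t = qa a t' := by unfold qa; rw [ht]
    have e : W.κ - 2 * (2 ^ (a + w) * (qa (a + w) t - qa (a + w) t')) * W.α - σ * W'.κ =
        ((W.κ - 2 * H513.tau a w t * 2 ^ w * W.α) - σ * (W'.κ - 2 * H513.tau a w t' * 2 ^ w * W'.α)) +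
          2 * H513.tau a w t' * (2 ^ w * (W.α - σ * W'.α)) := by
      unfold H513.tau
      rw [hq, pow_add]
      ring
    rw [e]
    have h6 := abs_add_le ((W.κ - 2 * H513.tau a w t * 2 ^ w * W.α) - σ * (W'.κ - 2 * H513.tau a w t' * 2 ^ w * W'.α))
      (2 * H513.tau a w t' * (2 ^ w * (W.α - σ * W'.α)))
    have h7 : |2 * H513.tau a w t' * (2 ^ w * (W.α - σ * W'.α))| ≤ 2 * δ := by
      have t0 := H513.tau_nonneg a w t'
      have t1 := H513.tau_le a w t'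
      rw [abs_mul, abs_mul, abs_mul, abs_two, abs_of_nonneg t0, abs_of_pos h2w]
      nlinarith [mul_nonneg t0 hδ]
    linarith
  · rw [hα, hα] at h3
    have e : 2 ^ w * W.α - σ * (2 ^ w * W'.α) = 2 ^ w * (W.α - σ * W'.α) := by ring
    rw [e, abs_mul, abs_of_pos h2w] at h3
    linarith

/-- the relation of `Sw` -/
def SwR (K : ℝ) (a r h : ℕ) {Ω : Type} (l : Ω → Ry) (t : Ω → ℝ) (W : Ω → Cbx) (ω ω' : Ω) : Prop :=
  ∃ σ : ℝ, (σ = 1 ∨ σ = -1) ∧
    (∀ k, |nrm (W ω) (bl h (l ω) (t ω)) k - σ * nrm (W ω') (bl h (l ω') (t ω')) k| ≤ K * (1 / 2 : ℝ) ^ r) ∧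
    |(W ω).κ - 2 * (2 ^ h * (qa h (t ω) - qa h (t ω'))) * (W ω).α - σ * (W ω').κ| ≤ K * (1 / 2 : ℝ) ^ r ∧
    2 ^ (h - a) * |(W ω).α - σ * (W ω').α| ≤ K * (1 / 2 : ℝ) ^ r

theorem SwR.mono {K K' : ℝ} (hK : K ≤ K') {a r h : ℕ} {Ω : Type} {l : Ω → Ry} {t : Ω → ℝ} {W : Ω → Cbx} {ω ω' : Ω}
    (H : SwR K a r h l t W ω ω') : SwR K' a r h l t W ω ω' := by
  have hp : K * (1 / 2 : ℝ) ^ r ≤ K' * (1 / 2 : ℝ) ^ r := mul_le_mul_of_nonneg_right hK (by positivity)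
  obtain ⟨σ, h1, h2, h3, h4⟩ := H
  exact ⟨σ, h1, fun k => (h2 k).trans hp, h3.trans hp, h4.trans hp⟩

open Classical in
/-- **[SUBW]** : an event of probability `≥ 1 - ρ1` on which the functionals are functions of `(l, t_a)` to `r` digits -/
theorem subw {lam N : ℝ} (h0 : 0 < lam) (h1 : lam ≤ 1) (hN : 0 ≤ N) {k β' : ℝ} (hk : 0 < k) (hk1 : k ≤ lam / 16)
    (hβ' : 0 ≤ β') (hF : FIXA lam N (4 * k) β') {c : ℝ} (hc : 1 ≤ c) {ρ1 : ℝ} (hρ1 : 0 < ρ1) {K1 : ℝ}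
    (hK1 : 1 + 6 / (lam * ρ1) ≤ K1) {ε : ℝ} (hε : 0 < ε) :
    ∃ (D K : ℝ) (n0 : ℕ), 0 ≤ D ∧ 0 ≤ K ∧ ∀ (β d : ℝ) (Ω : Type) [Fintype Ω] (P : Law Ω) (l : Ω → Ry) (t : Ω → ℝ)
      (L h q : ℕ) (W : Ω → Cbx), NEx c lam N k β d P l t (fun _ => ()) L h q W → ∀ a w : ℕ, a + w = h → n0 ≤ w →
      (d * h + (β' + ε - β) * a) * Real.log 2 + K ≤ β * w * Real.log 2 → ∀ r : ℕ, (r : ℝ) + K1 * w ≤ q →
      ∃ E : Ω → Prop, P.ex (fun ω => if E ω then 0 else 1) ≤ ρ1 ∧ ∀ ω ω', 0 < P.w ω → 0 < P.w ω' → E ω → E ω' →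
        l ω = l ω' → fl1 a (t ω) = fl1 a (t ω') → SwR D a r h l t W ω ω' := by
  obtain ⟨K, hK, hsel⟩ := wsel lam N k β' h0.le h1 hk hN hβ' hF c hc ε hε
  obtain ⟨D, n0, hD, hrel⟩ := H457.rel_pr h0 h1 hN (k := 2 * k) (by linarith) (by linarith) hc hρ1 hK1
  refine ⟨6 * D, K, n0, by positivity, hK, ?_⟩
  intro β d Ω _ P l t L h q W hne a w haw hw hd r hr
  have hs := hsel β d Ω Unit Unit P l t (fun _ => ()) (fun _ => ()) L h q W hne a w haw
  have z1 : Stk.hc P (fun _ : Ω => ()) (fun ω => (W ω, fl1 h (t ω), ())) = 0 := Stk.hc_zero P fun _ _ _ _ _ => rfl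
  have z2 : Stk.hc P (fun _ : Ω => ()) (fun ω => (l ω, ())) = 0 := Stk.hc_zero P fun _ _ _ _ _ => rfl
  rw [z1, z2, mul_zero, add_zero, add_zero] at hs
  set l' : Ω → Ry := fun ω => wR a (l ω) (t ω) with hl'
  set t' : Ω → ℝ := fun ω => wt a (t ω) with ht'
  set C' : Ω → Unit × ((Unit × ℤ × (Fin 2 → ℤ) × ℤ) × Unit) := fun ω => ((), (wC a l t (fun _ => ()) ω, ())) with hC'
  -- the system of the window
  have hne' : NEx c lam N (2 * k) β β P l' t' C' (L - a) w q (wB a w l t W) := by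
    refine ⟨syOk_win hne.ok, ?_, fun ω hω => ?_, ?_⟩
    · have := hne.hL
      omega
    · obtain ⟨g1, g2, g3⟩ := hne.lb ω hω
      rw [← haw] at g1
      exact ⟨lb_win g1, g2, g3⟩
    · have e : Df c lam N (2 * k) β P l' t' C' (L - a) w q (wB a w l t W) ≤ β * w * Real.log 2 := hs.trans hd
      unfold Df at e
      rw [sub_self, zero_mul, zero_mul]
      linarith
  have hR := hrel β β Ω _ P l' t' C' (L - a) w q (wB a w l t W) hw le_rfl hne' r hr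
  obtain ⟨s, hs1, hs2⟩ := mode P (zl l' t' C') (H457.Rl D l' t' w r (wB a w l t W)) hR
  refine ⟨fun ω => H457.Rl D l' t' w r (wB a w l t W) ω (s (zl l' t' C' ω)), hs2, ?_⟩
  intro ω ω' hω hω' hE hE' hll htt
  have hbl : bl a (l ω) (t ω) = bl a (l ω') (t ω') := by rw [hll]; exact bl_congr htt
  have hwo : wo a (l ω) (t ω) = wo a (l ω') (t ω') := by unfold wo; rw [hbl]
  have hwh : wh a (l ω) (t ω) = wh a (l ω') (t ω') := by unfold wh; rw [hbl]
  have hz : zl l' t' C' ω = zl l' t' C' ω' := by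
    have f0 : fl1 0 (wt a (t ω)) = fl1 0 (wt a (t ω')) := by
      rw [fl1_wt_iff htt]
      exact htt
    show (wR a (l ω) (t ω), fl1 0 (wt a (t ω)), ((), (((), fl1 a (t ω), wo a (l ω) (t ω), wh a (l ω) (t ω)), ()))) =
      (wR a (l ω') (t ω'), fl1 0 (wt a (t ω')), ((), (((), fl1 a (t ω'), wo a (l ω') (t ω'), wh a (l ω') (t ω')), ())))
    rw [f0, htt, hwo, hwh]
    unfold wR
    rw [hbl, hwo, hwh]
  obtain ⟨p0, z0⟩ := hs1 ω hω
  rw [← hz] at hE'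
  set ω0 := s (zl l' t' C' ω) with hω0
  obtain ⟨σ, hσ, hA⟩ := hE
  obtain ⟨σ', hσ', hA'⟩ := hE'
  have em : bl 0 (l' ω) (t' ω) = bl 0 (l' ω') (t' ω') := by
    obtain ⟨q1, q2, -⟩ := H457.zl_eq hz
    rw [q1]
    exact bl_congr q2
  rw [← em] at hA'
  have hB := ag_trans hσ hσ' hA hA'
  have e1 : wB a w l t W ω = H428.wW a w (W ω) (l ω) (t ω) := rfl
  have e2 : wB a w l t W ω' = H428.wW a w (W ω') (l ω) (t ω') := by
    unfold wB H428.wW
    rw [hll]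
  rw [e1, e2] at hB
  obtain ⟨n1, n2, n3⟩ := ag_nat htt hB
  refine ⟨σ * σ', ?_, fun k => ?_, ?_, ?_⟩
  · rcases hσ with rfl | rfl <;> rcases hσ' with rfl | rfl <;> norm_num
  · rw [← haw, ← hll]
    refine (n1 k).trans (le_of_eq ?_)
    ring
  · rw [← haw]
    refine n2.trans (le_of_eq ?_)
    ring
  · have : h - a = w := by omega
    rw [this]
    refine n3.trans (le_of_eq ?_)
    ring

theorem SwR.down {K : ℝ} (hK : 0 ≤ K) {a r r' h : ℕ} (hr : r' ≤ r) {Ω : Type} {l : Ω → Ry} {t : Ω → ℝ} {W : Ω → Cbx}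
    {ω ω' : Ω} (H : SwR K a r h l t W ω ω') : SwR K a r' h l t W ω ω' := by
  have hp : K * (1 / 2 : ℝ) ^ r ≤ K * (1 / 2 : ℝ) ^ r' :=
    mul_le_mul_of_nonneg_left (pow_le_pow_of_le_one (by norm_num) (by norm_num) hr) hK
  obtain ⟨σ, h1, h2, h3, h4⟩ := H
  exact ⟨σ, h1, fun k => (h2 k).trans hp, h3.trans hp, h4.trans hp⟩

/-- `Sw` at the level `a`, with the loss `C (h - a)` of precision -/
def SwA (K C : ℝ) (a h q : ℕ) {Ω : Type} [Fintype Ω] (P : Law Ω) (l : Ω → Ry) (t : Ω → ℝ) (W : Ω → Cbx) : Prop :=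
  ∀ r : ℕ, (r : ℝ) + C * ((h : ℝ) - a) ≤ q → Sw K a r h P l t W

theorem SwA.mono {K C : ℝ} {a h q : ℕ} {Ω : Type} [Fintype Ω] {P Q : Law Ω} {l : Ω → Ry} {t : Ω → ℝ} {W : Ω → Cbx}
    (H : SwA K C a h q P l t W) (hs : ∀ ω, 0 < Q.w ω → 0 < P.w ω) : SwA K C a h q Q l t W :=
  fun r hr => (H r hr).mono hs

/-- the constant of the loss -/
noncomputable def C1 (lam : ℝ) : ℝ := 1 + 48 / lam

theorem C1_ge {lam : ℝ} (h : 0 < lam) : 1 ≤ C1 lam := by
  unfold C1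
  have : 0 < 48 / lam := by positivity
  linarith

open Classical in
/-- the event of one level -/
theorem swa_ev {lam N : ℝ} (h0 : 0 < lam) (h1 : lam ≤ 1) (hN : 0 ≤ N) {k β' : ℝ} (hk : 0 < k) (hk1 : k ≤ lam / 16)
    (hβ' : 0 ≤ β') (hF : FIXA lam N (4 * k) β') {c : ℝ} (hc : 1 ≤ c) {ε : ℝ} (hε : 0 < ε) :
    ∃ (D K : ℝ) (n0 : ℕ), 0 ≤ D ∧ 0 ≤ K ∧ ∀ (β d : ℝ) (Ω : Type) [Fintype Ω] (P : Law Ω) (l : Ω → Ry) (t : Ω → ℝ)
      (L h q : ℕ) (W : Ω → Cbx), NEx c lam N k β d P l t (fun _ => ()) L h q W → ∀ a : ℕ, a ≤ h → n0 ≤ h - a →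
      (d * h + (β' + ε - β) * a) * Real.log 2 + K ≤ β * ((h : ℝ) - a) * Real.log 2 →
      ∃ E : Ω → Prop, P.ex (fun ω => if E ω then 0 else 1) ≤ 1 / 8 ∧ ∀ r : ℕ, (r : ℝ) + C1 lam * ((h : ℝ) - a) ≤ q →
        ∀ ω ω', 0 < P.w ω → 0 < P.w ω' → E ω → E ω' → l ω = l ω' → fl1 a (t ω) = fl1 a (t ω') →
          SwR D a r h l t W ω ω' := by
  obtain ⟨D, K, n0, hD, hK, hsub⟩ := subw h0 h1 hN hk hk1 hβ' hF hc (ρ1 := 1 / 8) (by norm_num) (K1 := C1 lam)
    (le_of_eq (by unfold C1; field_simp; norm_num)) hε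
  refine ⟨D, K, n0, hD, hK, ?_⟩
  intro β d Ω _ P l t L h q W hne a ha hn hd
  have hw : ((h - a : ℕ) : ℝ) = (h : ℝ) - a := by rw [Nat.cast_sub ha]
  by_cases hq : C1 lam * ((h : ℝ) - a) ≤ q
  · set r1 : ℕ := ⌊(q : ℝ) - C1 lam * ((h : ℝ) - a)⌋₊ with hr1
    have hr1' : (r1 : ℝ) ≤ (q : ℝ) - C1 lam * ((h : ℝ) - a) := Nat.floor_le (by linarith)
    obtain ⟨E, hE1, hE2⟩ := hsub β d Ω P l t L h q W hne a (h - a) (by omega) hn (by rw [hw]; exact hd) r1
      (by rw [hw]; linarith)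
    refine ⟨E, hE1, fun r hr ω ω' p p' e e' g g' => (hE2 ω ω' p p' e e' g g').down hD ?_⟩
    exact Nat.le_floor (by linarith)
  · refine ⟨fun _ => True, ?_, fun r hr => ?_⟩
    · simp only [if_true]
      rw [Law.ex_const]
      norm_num
    · exfalso
      have : (0 : ℝ) ≤ r := Nat.cast_nonneg _
      linarith

open Classical in
/-- **[SW]** : conditioning of a system in normal form; two levels -/
theorem pSw {lam N β₀ : ℝ} (hl0 : 0 < lam) (hl1 : lam < 1) (hlβ : lam < β₀) (hN : 2 ≤ N) {η1 d' : ℝ} (hη1 : 0 < η1)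
    (hd' : 0 < d') : ∃ d : ℝ, 0 < d ∧ ∀ k β β' : ℝ, 0 < k → k ≤ d → β₀ ≤ β → β ≤ β' → β' ≤ β + d → FIXA lam N (4 * k) β' →
      ∃ K2 : ℝ, 0 ≤ K2 ∧ ∀ (K0 K1 : ℝ) (Rm : ℕ), ∃ h0 : ℕ, ∀ (Ω : Type) [Fintype Ω] (P : Law Ω) (l : Ω → Ry) (t : Ω → ℝ)
        (L h q r0 : ℕ) (W : Ω → Cbx) (S : Cbx), h0 ≤ h → Nrm K0 K1 Rm lam N k β d P l t L h q r0 W S →
        ∀ a1 a2 : ℕ, a1 ≤ h → a2 ≤ h → η1 * h ≤ (h : ℝ) - a1 → η1 * h ≤ (h : ℝ) - a2 →
        ∃ P' : Law Ω, (∀ ω, P'.w ω ≤ 2 * P.w ω) ∧ Nrm K0 K1 Rm lam N k β d' P' l t L h q r0 W S ∧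
          SwA K2 (C1 lam) a1 h q P' l t W ∧ SwA K2 (C1 lam) a2 h q P' l t W := by
  have hl2 : 0 < Real.log 2 := Real.log_pos (by norm_num)
  have hβ₀ : 0 < β₀ := hl0.trans hlβ
  have hN0 : 0 ≤ N := by linarith
  set ε : ℝ := min (β₀ * η1 / 8) (d' / 8) with hε
  have hε0 : 0 < ε := lt_min (by positivity) (by positivity)
  have hε1 : ε ≤ β₀ * η1 / 8 := min_le_left _ _
  have hε2 : ε ≤ d' / 8 := min_le_right _ _
  refine ⟨min ε (lam / 16), lt_min hε0 (by positivity), ?_⟩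
  intro k β β' hk hkd hβ0 hββ hβd hF
  have hkl : k ≤ lam / 16 := hkd.trans (min_le_right _ _)
  have hβε : β' ≤ β + ε := hβd.trans (by linarith [min_le_left ε (lam / 16)])
  have hβ'0 : 0 ≤ β' := by linarith
  set d : ℝ := min ε (lam / 16) with hdd
  have hdε : d ≤ ε := min_le_left _ _
  obtain ⟨D, Ke, n0, hD, hKe, hev⟩ := swa_ev hl0 hl1.le hN0 hk hkl hβ'0 hF (c := 100) (by norm_num) hε0
  obtain ⟨Kp, hKp, hpick⟩ := pick lam N k (4 * k) β' hl0.le hl1.le hk.le (by linarith) hN0 hF 100 (by norm_num) ε hε0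
  refine ⟨D, hD, ?_⟩
  intro K0 K1 Rm
  obtain ⟨n1, hn1⟩ := exists_nat_ge ((n0 : ℝ) / η1)
  obtain ⟨n2, hn2⟩ := exists_nat_ge (Ke / (β₀ * η1 / 8 * Real.log 2))
  obtain ⟨n3, hn3⟩ := exists_nat_ge ((Kp + (N + 1) * Real.log 2) / (d' / 4 * Real.log 2))
  refine ⟨max n1 (max n2 n3), ?_⟩
  intro Ω _ P l t L h q r0 W S hh hne a1 a2 ha1 ha2 hw1 hw2
  have hh1 : n1 ≤ h := (le_max_left _ _).trans hh
  have hh2 : n2 ≤ h := ((le_max_left _ _).trans (le_max_right _ _)).trans hh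
  have hh3 : n3 ≤ h := ((le_max_right _ _).trans (le_max_right _ _)).trans hh
  have hh0 : (0 : ℝ) ≤ h := Nat.cast_nonneg _
  -- the events
  have hlev : ∀ a : ℕ, a ≤ h → η1 * h ≤ (h : ℝ) - a → n0 ≤ h - a ∧
      (d * h + (β' + ε - β) * a) * Real.log 2 + Ke ≤ β * ((h : ℝ) - a) * Real.log 2 := by
    intro a ha hw
    constructor
    · have g1 : (n0 : ℝ) ≤ η1 * h := by
        have : (n0 : ℝ) / η1 ≤ h := hn1.trans (by exact_mod_cast hh1)
        rw [div_le_iff₀ hη1] at this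
        linarith
      have g2 : (n0 : ℝ) ≤ ((h - a : ℕ) : ℝ) := by
        rw [Nat.cast_sub ha]
        linarith
      exact_mod_cast g2
    · have g1 : Ke ≤ β₀ * η1 / 8 * Real.log 2 * h := by
        have : Ke / (β₀ * η1 / 8 * Real.log 2) ≤ h := hn2.trans (by exact_mod_cast hh2)
        rw [div_le_iff₀ (by positivity)] at this
        linarith
      have ha' : (a : ℝ) ≤ h := by exact_mod_cast ha
      have ha0 : (0 : ℝ) ≤ a := Nat.cast_nonneg _
      have g2 : d * h + (β' + ε - β) * a ≤ 3 * (β₀ * η1 / 8) * h := by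
        have i1 : d * h ≤ β₀ * η1 / 8 * h := mul_le_mul_of_nonneg_right (hdε.trans hε1) hh0
        have i2 : (β' + ε - β) * a ≤ 2 * (β₀ * η1 / 8) * h := by
          have j1 : (β' + ε - β) * a ≤ (2 * (β₀ * η1 / 8)) * a := mul_le_mul_of_nonneg_right (by linarith) ha0
          have j2 : (2 * (β₀ * η1 / 8)) * a ≤ (2 * (β₀ * η1 / 8)) * h := mul_le_mul_of_nonneg_left ha' (by positivity)
          linarith
        linarith
      have g3 : β₀ * (η1 * h) ≤ β * ((h : ℝ) - a) := by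
        have j1 : β₀ * (η1 * h) ≤ β₀ * ((h : ℝ) - a) := mul_le_mul_of_nonneg_left hw hβ₀.le
        have j2 : β₀ * ((h : ℝ) - a) ≤ β * ((h : ℝ) - a) := mul_le_mul_of_nonneg_right hβ0 (by linarith)
        linarith
      have g4 := mul_le_mul_of_nonneg_right g2 hl2.le
      have g5 := mul_le_mul_of_nonneg_right g3 hl2.le
      have g6 : 0 ≤ β₀ * η1 / 8 * h * Real.log 2 := by positivity
      nlinarith
  obtain ⟨E1, e11, e12⟩ := hev β d Ω P l t L h q W hne.nex a1 ha1 (hlev a1 ha1 hw1).1 (hlev a1 ha1 hw1).2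
  obtain ⟨E2, e21, e22⟩ := hev β d Ω P l t L h q W hne.nex a2 ha2 (hlev a2 ha2 hw2).1 (hlev a2 ha2 hw2).2
  set G : Ω → Bool := fun ω => decide (E1 ω ∧ E2 ω) with hG
  have hpE : (3 / 4 : ℝ) ≤ prE P (fun ω => G ω = true) := by
    have x1 : (1 : ℝ) ≤ P.ex (fun ω => (if G ω = true then (1 : ℝ) else 0) +
        ((if E1 ω then (0 : ℝ) else 1) + (if E2 ω then (0 : ℝ) else 1))) := by
      have := P.ex_mono (f := fun _ => (1 : ℝ)) (g := fun ω => (if G ω = true then (1 : ℝ) else 0) +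
        ((if E1 ω then (0 : ℝ) else 1) + (if E2 ω then (0 : ℝ) else 1))) (fun ω _ => by
          by_cases h1 : E1 ω <;> by_cases h2 : E2 ω <;> simp [hG, h1, h2])
      rwa [Law.ex_const] at this
    rw [P.ex_add, P.ex_add] at x1
    rw [H457.prE_ex]
    linarith
  have hcost : ∀ (δ : Type) (Z : Ω → δ), Stk.hc P G Z ≤ Real.log 2 := fun δ Z => by
    have := H127.hc_le_card P G Z Finset.univ (fun _ _ => Finset.mem_univ _)
    rwa [Finset.card_univ, Fintype.card_bool] at this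
  obtain ⟨z, hz1, hz2, hz3⟩ := hpick β d d' (3 / 4) Ω Unit Bool P l t (fun _ => ()) G L h q W hne.nex
    (fun z => z.2 = true) (by norm_num) hpE (by
      have c1 := hcost _ (fun ω => (W ω, fl1 h (t ω), ()))
      have c2 := mul_le_mul_of_nonneg_left (hcost _ (fun ω => (l ω, ()))) hN0
      have c3 : max 0 (β' + ε - β) ≤ d' / 4 := max_le (by positivity) (by linarith)
      have c4 : (d + max 0 (β' + ε - β)) * h * Real.log 2 ≤ (3 / 8 * d') * h * Real.log 2 := by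
        refine mul_le_mul_of_nonneg_right (mul_le_mul_of_nonneg_right ?_ hh0) hl2.le
        linarith
      have c5 : Kp + (N + 1) * Real.log 2 ≤ d' / 4 * Real.log 2 * h := by
        have : (Kp + (N + 1) * Real.log 2) / (d' / 4 * Real.log 2) ≤ h := hn3.trans (by exact_mod_cast hh3)
        rw [div_le_iff₀ (by positivity)] at this
        linarith
      have c6 : 0 ≤ d' * h * Real.log 2 := by positivity
      have c7 : (3 / 8 * d') * h * Real.log 2 = 3 / 8 * (d' * h * Real.log 2) := by ring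
      have c8 : d' / 4 * Real.log 2 * h = 1 / 4 * (d' * h * Real.log 2) := by ring
      rw [c7] at c4
      rw [c8] at c5
      linarith)
  have hpz : (3 / 4 : ℝ) ≤ P.pr (fun ω => ((), G ω)) z := by
    have e : P.pr (fun ω => ((), G ω)) z = prE P (fun ω => G ω = true) := by
      unfold Law.pr prE
      congr 1
      ext ω
      simp only [Finset.mem_filter, Finset.mem_univ, true_and]
      constructor
      · intro h
        rw [← hz1, ← h]
      · intro h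
        exact Prod.ext rfl (by rw [h, hz1])
    rw [e]
    exact hpE
  have hsup : ∀ ω, 0 < (P.cond (fun ω => ((), G ω)) z).w ω → 0 < P.w ω ∧ E1 ω ∧ E2 ω := fun ω hω => by
    obtain ⟨g1, g2⟩ := cpos hz2 hω
    refine ⟨g1, ?_⟩
    have g3 : G ω = true := by rw [← hz1, ← g2]
    simpa [hG] using g3
  refine ⟨P.cond (fun ω => ((), G ω)) z, fun ω => ?_, ⟨hz3, fun ω hω => hne.str ω (hsup ω hω).1,
    fun ω hω => hne.t1 ω (hsup ω hω).1, fun ω hω => hne.slb ω (hsup ω hω).1, ?_, hne.rm, hne.r0q, hne.qr0⟩, ?_, ?_⟩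
  · rw [P.cond_w _ z hz2]
    have := P.nn ω
    split_ifs
    · rw [div_le_iff₀ hz2]
      nlinarith
    · linarith
  · obtain ⟨ν, ρ, q1, q2, q3⟩ := hne.nu
    exact ⟨ν, ρ, q1, q2, fun ω hω => q3 ω (hsup ω hω).1⟩
  · intro r hr
    exact ⟨ha1, fun ω ω' p p' g g' => e12 r hr ω ω' (hsup ω p).1 (hsup ω' p').1 (hsup ω p).2.1 (hsup ω' p').2.1 g g'⟩
  · intro r hr
    exact ⟨ha2, fun ω ω' p p' g g' => e22 r hr ω ω' (hsup ω p).1 (hsup ω' p').1 (hsup ω p).2.2 (hsup ω' p').2.2 g g'⟩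

end Vale.Agent.P106.U.H425
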