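import Vale.Agent.P106.U.H425.Sw
import Vale.Agent.P106.U.S5.Run
import Vale.Agent.P106.U.H786.Adp

/-!
# P106 / U / H425 : the field `sw` of the record from `Sw` (helper425)

`swF_of` : `Sw D a (r + j)` in the coordinates of the boxes gives `S5.SwF R 1 a r` (own slope and line of `κ`), if
`73 K^9 (D + 1) ≤ 2^j`.
-/

set_option autoImplicit false

namespace Vale.Agent.P106.U.H425

open Finset Vale.Agent.P127 Vale.Agent.P127.Stk Vale.Agent.P127.U Vale.Agent.P106.W Vale.Agent.P106.K Vale.Agent.P106.U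
open Vale.Agent.P127.U.CellD (q2 rd)
open Vale.Agent.P122.C2 (fw fn)
open Vale.Agent.P106.U.S3
open Vale.Agent.P106.U.S5 (SwF)

theorem fn_sub (θ σ : ℝ) (u v : Fin 2 → ℝ) {δ : ℝ} (h : ∀ k, |u k - σ * v k| ≤ δ) : |fn θ u - σ * fn θ v| ≤ 2 * δ := by
  have e : fn θ u - σ * fn θ v = -Real.sin θ * (u 0 - σ * v 0) + Real.cos θ * (u 1 - σ * v 1) := by
    simp only [fn]
    ring
  rw [e]
  have hδ : 0 ≤ δ := (abs_nonneg _).trans (h 0)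
  have h1 : |-Real.sin θ * (u 0 - σ * v 0)| ≤ δ := by
    rw [abs_mul, abs_neg]
    have := mul_le_mul (Real.abs_sin_le_one θ) (h 0) (abs_nonneg _) zero_le_one
    linarith
  have h2 : |Real.cos θ * (u 1 - σ * v 1)| ≤ δ := by
    rw [abs_mul]
    have := mul_le_mul (Real.abs_cos_le_one θ) (h 1) (abs_nonneg _) zero_le_one
    linarith
  have := abs_add_le (-Real.sin θ * (u 0 - σ * v 0)) (Real.cos θ * (u 1 - σ * v 1))
  linarith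

theorem fw_sub (θ σ : ℝ) (u v : Fin 2 → ℝ) {δ : ℝ} (h : ∀ k, |u k - σ * v k| ≤ δ) : |fw θ u - σ * fw θ v| ≤ 2 * δ := by
  have e : fw θ u - σ * fw θ v = Real.cos θ * (u 0 - σ * v 0) + Real.sin θ * (u 1 - σ * v 1) := by
    simp only [fw]
    ring
  rw [e]
  have h1 : |Real.sin θ * (u 1 - σ * v 1)| ≤ δ := by
    rw [abs_mul]
    have := mul_le_mul (Real.abs_sin_le_one θ) (h 1) (abs_nonneg _) zero_le_one
    linarith
  have h2 : |Real.cos θ * (u 0 - σ * v 0)| ≤ δ := by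
    rw [abs_mul]
    have := mul_le_mul (Real.abs_cos_le_one θ) (h 0) (abs_nonneg _) zero_le_one
    linarith
  have := abs_add_le (Real.cos θ * (u 0 - σ * v 0)) (Real.sin θ * (u 1 - σ * v 1))
  linarith

/-- own slope -/
theorem slope_num {K δ σ ρ x y x' y' p p' : ℝ} (hK : 1 ≤ K) (hρ : |ρ| ≤ K) (hc : 1 ≤ 2 * K * (ρ * x))
    (hp : p * x = -y) (hp' : p' * x' = -y') (hp1 : |p'| ≤ 1) (hx : |x - σ * x'| ≤ 2 * δ) (hy : |y - σ * y'| ≤ 2 * δ) :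
    |p' - p| ≤ 8 * K ^ 2 * δ := by
  have e1 : (p - p') * x = -(y - σ * y') - p' * (x - σ * x') := by
    linear_combination hp - σ * hp'
  have h1 : |(p - p') * x| ≤ 4 * δ := by
    rw [e1]
    have a1 := abs_sub (-(y - σ * y')) (p' * (x - σ * x'))
    rw [abs_neg, abs_mul] at a1
    have a2 := mul_le_mul hp1 hx (abs_nonneg _) zero_le_one
    linarith
  have hx0 : 1 ≤ 2 * K ^ 2 * |x| := by
    have b1 : ρ * x ≤ |ρ| * |x| := by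
      rw [← abs_mul]
      exact le_abs_self _
    have b2 : |ρ| * |x| ≤ K * |x| := mul_le_mul_of_nonneg_right hρ (abs_nonneg _)
    nlinarith
  rw [abs_mul] at h1
  rw [abs_sub_comm]
  have h2 : |p - p'| * 1 ≤ |p - p'| * (2 * K ^ 2 * |x|) := mul_le_mul_of_nonneg_left hx0 (abs_nonneg _)
  have h3 : |p - p'| * (2 * K ^ 2 * |x|) = 2 * K ^ 2 * (|p - p'| * |x|) := by ring
  have h4 : 2 * K ^ 2 * (|p - p'| * |x|) ≤ 2 * K ^ 2 * (4 * δ) := mul_le_mul_of_nonneg_left h1 (by positivity)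
  linarith

/-- the factors of normalisation -/
theorem fac_num {K δ q σ ρ ρ' x y x' y' : ℝ} (hK : 1 ≤ K) (hδ : 0 ≤ δ) (hσ : σ = 1 ∨ σ = -1) (hqK : K * q ≤ 1)
    (hρ : |ρ| ≤ K) (hρ1 : 1 ≤ K * |ρ|) (hρ' : |ρ'| ≤ K) (hρ1' : 1 ≤ K * |ρ'|)
    (hc : 1 ≤ 2 * K * (ρ * x)) (hc' : 1 ≤ 2 * K * (ρ' * x'))
    (hn : |ρ ^ 2 * (x ^ 2 + y ^ 2) - 1| ≤ K * q) (hn' : |ρ' ^ 2 * (x' ^ 2 + y' ^ 2) - 1| ≤ K * q)
    (hx : |x - σ * x'| ≤ 2 * δ) (hy : |y - σ * y'| ≤ 2 * δ) (hsm : 8 * K ^ 2 * δ ≤ 1) :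
    |ρ * σ - ρ'| ≤ 64 * K ^ 8 * δ + 8 * K ^ 6 * q := by
  have hK0 : 0 < K := by linarith
  have hσ2 : σ ^ 2 = 1 := by rcases hσ with rfl | rfl <;> norm_num
  -- sizes
  have size : ∀ {r u v : ℝ}, 1 ≤ K * |r| → |r ^ 2 * (u ^ 2 + v ^ 2) - 1| ≤ K * q → u ^ 2 + v ^ 2 ≤ 2 * K ^ 2 := by
    intro r u v h1 h2
    have h3 := (abs_le.1 h2).2
    have h4 : 1 ≤ K ^ 2 * r ^ 2 := by
      have : 1 ≤ (K * |r|) ^ 2 := one_le_pow₀ h1
      rw [mul_pow, sq_abs] at this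
      exact this
    have h5 : 0 ≤ u ^ 2 + v ^ 2 := by positivity
    nlinarith
  have s1 := size hρ1 hn
  have s2 := size hρ1' hn'
  have bd : ∀ {u v : ℝ}, u ^ 2 + v ^ 2 ≤ 2 * K ^ 2 → |u| ≤ 2 * K ∧ |v| ≤ 2 * K := by
    intro u v h1
    constructor
    · refine abs_le_of_sq_le_sq ?_ (by positivity)
      nlinarith [sq_nonneg v]
    · refine abs_le_of_sq_le_sq ?_ (by positivity)
      nlinarith [sq_nonneg u]
  obtain ⟨x1, y1⟩ := bd s1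
  obtain ⟨x2, y2⟩ := bd s2
  -- difference of the norms
  have d1 : |(x ^ 2 + y ^ 2) - (x' ^ 2 + y' ^ 2)| ≤ 16 * K * δ := by
    have e : (x ^ 2 + y ^ 2) - (x' ^ 2 + y' ^ 2) = (x - σ * x') * (x + σ * x') + (y - σ * y') * (y + σ * y') := by
      linear_combination (x' ^ 2 + y' ^ 2) * hσ2
    have ab : ∀ {u v : ℝ}, |u| ≤ 2 * K → |v| ≤ 2 * K → |u + σ * v| ≤ 4 * K := by
      intro u v h1 h2
      have h3 := abs_add_le u (σ * v)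
      have h4 : |σ * v| = |v| := by rcases hσ with rfl | rfl <;> simp
      linarith
    rw [e]
    have h1 := abs_add_le ((x - σ * x') * (x + σ * x')) ((y - σ * y') * (y + σ * y'))
    rw [abs_mul, abs_mul] at h1
    have h2 := mul_le_mul hx (ab x1 x2) (abs_nonneg _) (by positivity)
    have h3 := mul_le_mul hy (ab y1 y2) (abs_nonneg _) (by positivity)
    linarith
  -- lower bound of the norm
  have low : 1 ≤ 4 * K ^ 4 * (x' ^ 2 + y' ^ 2) := by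
    have h1 : ρ' * x' ≤ K * |x'| := by
      have := le_abs_self (ρ' * x')
      rw [abs_mul] at this
      have := mul_le_mul_of_nonneg_right hρ' (abs_nonneg x')
      linarith
    have h2 : 1 ≤ 2 * K ^ 2 * |x'| := by nlinarith
    have h3 : 1 ≤ (2 * K ^ 2 * |x'|) ^ 2 := one_le_pow₀ h2
    have h4 : (2 * K ^ 2 * |x'|) ^ 2 = 4 * K ^ 4 * x' ^ 2 := by
      rw [mul_pow, mul_pow, sq_abs]
      ring
    have h5 : 0 ≤ 4 * K ^ 4 * y' ^ 2 := by positivity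
    nlinarith
  -- difference of the squares
  have d2 : |ρ ^ 2 - ρ' ^ 2| ≤ 64 * K ^ 7 * δ + 8 * K ^ 5 * q := by
    have e : (ρ ^ 2 - ρ' ^ 2) * (x' ^ 2 + y' ^ 2) = -(ρ ^ 2 * ((x ^ 2 + y ^ 2) - (x' ^ 2 + y' ^ 2))) +
        (ρ ^ 2 * (x ^ 2 + y ^ 2) - 1) - (ρ' ^ 2 * (x' ^ 2 + y' ^ 2) - 1) := by ring
    have h1 : |(ρ ^ 2 - ρ' ^ 2) * (x' ^ 2 + y' ^ 2)| ≤ 16 * K ^ 3 * δ + 2 * (K * q) := by
      rw [e]
      have a1 := abs_sub (-(ρ ^ 2 * ((x ^ 2 + y ^ 2) - (x' ^ 2 + y' ^ 2))) + (ρ ^ 2 * (x ^ 2 + y ^ 2) - 1))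
        (ρ' ^ 2 * (x' ^ 2 + y' ^ 2) - 1)
      have a2 := abs_add_le (-(ρ ^ 2 * ((x ^ 2 + y ^ 2) - (x' ^ 2 + y' ^ 2)))) (ρ ^ 2 * (x ^ 2 + y ^ 2) - 1)
      rw [abs_neg, abs_mul] at a2
      have a3 : |ρ ^ 2| ≤ K ^ 2 := by
        rw [abs_pow]
        exact pow_le_pow_left₀ (abs_nonneg _) hρ 2
      have a4 := mul_le_mul a3 d1 (abs_nonneg _) (by positivity)
      have a5 : K ^ 2 * (16 * K * δ) = 16 * K ^ 3 * δ := by ring
      linarith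
    rw [abs_mul, abs_of_nonneg (by positivity : 0 ≤ x' ^ 2 + y' ^ 2)] at h1
    have h2 : |ρ ^ 2 - ρ' ^ 2| * 1 ≤ |ρ ^ 2 - ρ' ^ 2| * (4 * K ^ 4 * (x' ^ 2 + y' ^ 2)) :=
      mul_le_mul_of_nonneg_left low (abs_nonneg _)
    have h3 : |ρ ^ 2 - ρ' ^ 2| * (4 * K ^ 4 * (x' ^ 2 + y' ^ 2)) =
        4 * K ^ 4 * (|ρ ^ 2 - ρ' ^ 2| * (x' ^ 2 + y' ^ 2)) := by ring
    have h4 := mul_le_mul_of_nonneg_left h1 (by positivity : 0 ≤ 4 * K ^ 4)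
    have h5 : 4 * K ^ 4 * (16 * K ^ 3 * δ + 2 * (K * q)) = 64 * K ^ 7 * δ + 8 * K ^ 5 * q := by ring
    linarith
  -- the signs
  have sg : |ρ'| ≤ |ρ * σ + ρ'| := by
    have h1 : 0 < (ρ * σ) * x' := by
      have e : (ρ * σ) * x' = ρ * x - ρ * (x - σ * x') := by ring
      have h2 : |ρ * (x - σ * x')| ≤ 2 * K * δ := by
        rw [abs_mul]
        have := mul_le_mul hρ hx (abs_nonneg _) hK0.le
        linarith
      have h3 := (abs_le.1 h2).2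
      rw [e]
      have h4 : 2 * K * (2 * K * δ) < 1 := by nlinarith
      have h5 : 2 * K * (ρ * (x - σ * x')) < 1 := lt_of_le_of_lt (mul_le_mul_of_nonneg_left h3 (by positivity)) h4
      have h6 : 0 < 2 * K * (ρ * x - ρ * (x - σ * x')) := by linarith
      exact (mul_pos_iff_of_pos_left (by positivity)).1 h6
    have h2 : 0 < ρ' * x' := (mul_pos_iff_of_pos_left (by positivity : 0 < 2 * K)).1 (by linarith)
    have h3 : 0 < (ρ * σ) * ρ' := by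
      have h4 : 0 < ((ρ * σ) * x') * (ρ' * x') := mul_pos h1 h2
      have h5 : ((ρ * σ) * x') * (ρ' * x') = ((ρ * σ) * ρ') * x' ^ 2 := by ring
      rw [h5] at h4
      exact pos_of_mul_pos_left h4 (sq_nonneg _)
    refine sq_le_sq.1 ?_
    nlinarith [sq_nonneg (ρ * σ)]
  have f1 : |ρ * σ - ρ'| * |ρ * σ + ρ'| = |ρ ^ 2 - ρ' ^ 2| := by
    rw [← abs_mul]
    congr 1
    linear_combination ρ ^ 2 * hσ2
  have f2 : |ρ * σ - ρ'| * 1 ≤ K * (|ρ * σ - ρ'| * |ρ * σ + ρ'|) := by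
    have h1 : 1 ≤ K * |ρ * σ + ρ'| := hρ1'.trans (mul_le_mul_of_nonneg_left sg hK0.le)
    have h2 := mul_le_mul_of_nonneg_left h1 (abs_nonneg (ρ * σ - ρ'))
    linarith
  rw [f1] at f2
  have f3 := mul_le_mul_of_nonneg_left d2 hK0.le
  have f4 : K * (64 * K ^ 7 * δ + 8 * K ^ 5 * q) = 64 * K ^ 8 * δ + 8 * K ^ 6 * q := by ring
  linarith

/-- the functional of `W` has a positive `N`-coefficient -/
theorem cN_pos {Ω : Type} [Fintype Ω] {τ υ : Type} {R : Run Ω τ υ} {p : Run.Num} {K c' g' gU : ℝ} (h : R.Ok p K c' g' gU)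
    (hK : 1 ≤ K) (hsm : 2 * K ^ 2 * q2 (R.C.rk 0) ≤ 1) {ω : Ω} (hω : 0 < R.Q.w ω) :
    1 ≤ 2 * K * (R.FW ω).cN (R.C.l ω) (R.tW ω) := by
  have h1 := (h.agW ω hω 0 (Nat.zero_le _)).cN
  have h2 := (h.ok ω hω).n1 0
  have e : ((R.C.F 0 ω).sh (R.tW ω - R.C.s 0 ω)).cN (R.C.l ω) (R.tW ω) = (R.C.F 0 ω).cN (R.C.l ω) (R.C.s 0 ω) := by
    have := Cell.Fu.cN_sh (R.C.F 0 ω) (R.C.l ω) (R.C.s 0 ω) (R.tW ω - R.C.s 0 ω)
    rwa [add_sub_cancel] at this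
  rw [e] at h1
  have h3 := (abs_le.1 h1).1
  have hq := (CellD.q2_pos (R.C.rk 0)).le
  have h4 : K * (K * q2 (R.C.rk 0)) ≤ 1 / 2 := by nlinarith
  have h5 := mul_le_mul_of_nonneg_left h3 (by linarith : 0 ≤ K)
  nlinarith

/-- **the field `sw` of the record** -/
theorem swF_of {Ω : Type} [Fintype Ω] {τ υ : Type} {R : Run Ω τ υ} {p : Run.Num} {K c' g' gU : ℝ} (h : R.Ok p K c' g' gU)
    (hK : 1 ≤ K) (hsm : 2 * K ^ 2 * q2 (R.C.rk 0) ≤ 1) (hκ : ∀ ω, 0 < R.Q.w ω → |(R.W ω).κ| ≤ K) {D : ℝ} (hD : 0 ≤ D)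
    {a r j : ℕ} (hS : Sw D a (r + j) R.h R.Q R.ry R.t R.W) (hj : 73 * K ^ 9 * (D + 1) ≤ 2 ^ j) (hq : r + j ≤ R.q) :
    SwF R 1 a r := by
  have hK0 : 0 < K := by linarith
  have hK9 : K ≤ K ^ 9 := le_self_pow₀ hK (by norm_num)
  have hK8 : 1 ≤ K ^ 8 := one_le_pow₀ hK
  have hp0 : (0 : ℝ) < (1 / 2) ^ (r + j) := by positivity
  have hqj : q2 (r + j) = (1 / 2 : ℝ) ^ (r + j) := rfl
  set δ : ℝ := D * (1 / 2 : ℝ) ^ (r + j) with hδd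
  have hδ : 0 ≤ δ := by positivity
  -- total error
  have htot : 73 * K ^ 9 * (D + 1) * q2 (r + j) ≤ q2 r := by
    rw [CellD.q2_add]
    have h1 := mul_le_mul_of_nonneg_right hj (CellD.q2_pos j).le
    rw [CellD.q2_mul_pow] at h1
    have h2 := mul_le_mul_of_nonneg_right h1 (CellD.q2_pos r).le
    nlinarith
  have hqr1 : q2 r ≤ 1 := by
    unfold q2
    exact pow_le_one₀ (by norm_num) (by norm_num)
  have hδ1 : 73 * K ^ 9 * δ + 73 * K ^ 9 * q2 (r + j) ≤ q2 r := by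
    refine le_trans (le_of_eq ?_) htot
    rw [hδd, hqj]
    ring
  have hqq : q2 R.q ≤ q2 (r + j) := CellD.q2_le hq
  have hqq0 := (CellD.q2_pos R.q).le
  have hqr0 := (CellD.q2_pos (r + j)).le
  have h9d : 0 ≤ K ^ 9 * δ := by positivity
  have h9q : 0 ≤ K ^ 9 * q2 (r + j) := by positivity
  have hKq : K * q2 R.q ≤ 1 := by
    have h1 : K * q2 R.q ≤ K ^ 9 * q2 (r + j) := mul_le_mul hK9 hqq hqq0 (by positivity)
    linarith
  have hsmd : 8 * K ^ 2 * δ ≤ 1 := by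
    have h1 : K ^ 2 * δ ≤ K ^ 9 * δ := mul_le_mul_of_nonneg_right (pow_le_pow_right₀ hK (by norm_num)) hδ
    linarith
  -- the data of one point
  have hdat : ∀ ω, 0 < R.Q.w ω → ∃ ρ : ℝ, 1 ≤ K * |ρ| ∧ |ρ| ≤ K ∧
      1 ≤ 2 * K * (ρ * fn R.θ (nrm (R.W ω) (bl R.h (R.ry ω) (R.t ω)))) ∧
      |ρ ^ 2 * (fn R.θ (nrm (R.W ω) (bl R.h (R.ry ω) (R.t ω))) ^ 2 +
        fw R.θ (nrm (R.W ω) (bl R.h (R.ry ω) (R.t ω))) ^ 2) - 1| ≤ K * q2 R.q ∧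
      R.C.p ω * fn R.θ (nrm (R.W ω) (bl R.h (R.ry ω) (R.t ω))) = -fw R.θ (nrm (R.W ω) (bl R.h (R.ry ω) (R.t ω))) ∧
      R.κ ω = -(ρ * (R.W ω).κ) ∧ (R.FW ω).al = ρ * (2 * (R.W ω).α * 2 ^ R.h) := by
    intro ω hω
    obtain ⟨ρ, r1, r2, r3⟩ := h.FWW ω hω
    have hl := h.Cl ω
    have etW : R.tW ω = qa R.h (R.t ω) := rfl
    have hcov : ∀ k, (H786.Adp.fuW R.h (R.W ω) (R.t ω)).cov (R.ry ω) k =
        nrm (R.W ω) (bl R.h (R.ry ω) (R.t ω)) k := by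
      intro k
      rw [H786.Adp.fuW_cov, H428.nrm_eq]
      rfl
    have hcov' : (H786.Adp.fuW R.h (R.W ω) (R.t ω)).cov (R.ry ω) = nrm (R.W ω) (bl R.h (R.ry ω) (R.t ω)) := funext hcov
    have eN : (R.FW ω).cN (R.C.l ω) (R.tW ω) = ρ * fn R.θ (nrm (R.W ω) (bl R.h (R.ry ω) (R.t ω))) := by
      have g1 := H786.Adp.toF_cN R.θ (R.tW ω) (H786.Adp.fuW R.h (R.W ω) (R.t ω)) (R.ry ω)
      rw [hcov'] at g1
      rw [← g1, r3, hl]
      simp only [Cell.Fu.cN]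
      ring
    have eV : (R.FW ω).cV (R.C.l ω) (R.tW ω) = -(ρ * fw R.θ (nrm (R.W ω) (bl R.h (R.ry ω) (R.t ω)))) := by
      have g1 := H786.Adp.toF_cV R.θ (R.tW ω) (H786.Adp.fuW R.h (R.W ω) (R.t ω)) (R.ry ω)
      rw [hcov'] at g1
      have g2 : (R.FW ω).cV (R.C.l ω) (R.tW ω) = ρ * (H786.Adp.toF R.θ (R.tW ω)
          (H786.Adp.fuW R.h (R.W ω) (R.t ω))).cV (H786.Adp.toR R.θ (R.ry ω)) (R.tW ω) := by
        rw [r3, hl]
        simp only [Cell.Fu.cV]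
        ring
      rw [g2, g1]
      ring
    have hρ0 : ρ ≠ 0 := by
      rintro rfl
      rw [abs_zero, mul_zero] at r1
      linarith
    refine ⟨ρ, r1, r2, ?_, ?_, ?_, ?_, ?_⟩
    · rw [← eN]
      exact cN_pos h hK hsm hω
    · have g1 := h.FWn ω hω
      rw [eN, eV] at g1
      refine le_trans (le_of_eq ?_) g1
      congr 1
      ring
    · have g1 := h.Cp ω hω
      rw [eN, eV] at g1
      have g2 : ρ * (R.C.p ω * fn R.θ (nrm (R.W ω) (bl R.h (R.ry ω) (R.t ω)))) =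
          ρ * -fw R.θ (nrm (R.W ω) (bl R.h (R.ry ω) (R.t ω))) := by
        linear_combination g1
      exact mul_left_cancel₀ hρ0 g2
    · show (R.FW ω).ka = _
      rw [r3]
      simp only [H786.Adp.toF, H786.Adp.fuW, H786.Adp.unlev, H786.fuB]
      rw [etW]
      ring
    · rw [r3]
      simp only [H786.Adp.toF, H786.Adp.fuW, H786.Adp.unlev, H786.fuB]
      ring
  constructor
  · intro ω ω' hω hω' hl ht
    obtain ⟨σ, hσ, n1, n2, n3⟩ := hS.ag ω ω' hω hω' hl ht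
    obtain ⟨ρ, a1, a2, a3, a4, a5, a6, a7⟩ := hdat ω hω
    obtain ⟨ρ', b1, b2, b3, b4, b5, b6, b7⟩ := hdat ω' hω'
    have hp1 : |R.C.p ω'| ≤ 1 := by
      refine ((h.ok ω' hω').p1).trans ?_
      unfold q2
      exact pow_le_one₀ (by norm_num) (by norm_num)
    have g1 := slope_num hK a2 a3 a5 b5 hp1 (fn_sub R.θ σ _ _ n1) (fw_sub R.θ σ _ _ n1)
    rw [one_mul]
    refine g1.trans ?_
    have h1 : K ^ 2 * δ ≤ K ^ 9 * δ := mul_le_mul_of_nonneg_right (pow_le_pow_right₀ hK (by norm_num)) hδ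
    have h2 : 8 * K ^ 2 * δ = 8 * (K ^ 2 * δ) := by ring
    linarith
  · intro ω ω' hω hω' hl ht
    obtain ⟨σ, hσ, n1, n2, n3⟩ := hS.ag ω ω' hω hω' hl ht
    obtain ⟨ρ, a1, a2, a3, a4, a5, a6, a7⟩ := hdat ω hω
    obtain ⟨ρ', b1, b2, b3, b4, b5, b6, b7⟩ := hdat ω' hω'
    have g1 := fac_num hK hδ hσ hKq a2 a1 b2 b1 a3 b3 a4 b4 (fn_sub R.θ σ _ _ n1) (fw_sub R.θ σ _ _ n1) hsmd
    have e : R.κ ω' - R.κ ω + (R.FW ω).al * (R.tW ω' - R.tW ω) =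
        ρ * ((R.W ω).κ - 2 * (2 ^ R.h * (qa R.h (R.t ω) - qa R.h (R.t ω'))) * (R.W ω).α - σ * (R.W ω').κ) +
          (ρ * σ - ρ') * (R.W ω').κ := by
      rw [a6, a7, b6]
      show -(ρ' * (R.W ω').κ) - -(ρ * (R.W ω).κ) + ρ * (2 * (R.W ω).α * 2 ^ R.h) * (qa R.h (R.t ω') - qa R.h (R.t ω)) = _
      ring
    rw [e, one_mul]
    have g2 := abs_add_le (ρ * ((R.W ω).κ - 2 * (2 ^ R.h * (qa R.h (R.t ω) - qa R.h (R.t ω'))) * (R.W ω).α -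
      σ * (R.W ω').κ)) ((ρ * σ - ρ') * (R.W ω').κ)
    rw [abs_mul, abs_mul] at g2
    have g3 := mul_le_mul a2 n2 (abs_nonneg _) hK0.le
    have g4 := mul_le_mul g1 (hκ ω' hω') (abs_nonneg _) (by positivity)
    have h1 : K * δ ≤ K ^ 9 * δ := mul_le_mul_of_nonneg_right hK9 hδ
    have h2 : (64 * K ^ 8 * δ + 8 * K ^ 6 * q2 R.q) * K ≤ 64 * (K ^ 9 * δ) + 8 * (K ^ 9 * q2 (r + j)) := by
      have f1 : K ^ 7 * q2 R.q ≤ K ^ 9 * q2 (r + j) :=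
        mul_le_mul (pow_le_pow_right₀ hK (by norm_num)) hqq hqq0 (by positivity)
      have f2 : (64 * K ^ 8 * δ + 8 * K ^ 6 * q2 R.q) * K = 64 * (K ^ 9 * δ) + 8 * (K ^ 7 * q2 R.q) := by ring
      linarith
    linarith

theorem swF_mono {Ω : Type} [Fintype Ω] {τ υ : Type} {R : Run Ω τ υ} {K K' : ℝ} (hK : K ≤ K') {a r : ℕ} (h : SwF R K a r) :
    SwF R K' a r :=
  ⟨fun ω ω' h1 h2 h3 h4 => (h.p ω ω' h1 h2 h3 h4).trans (mul_le_mul_of_nonneg_right hK (CellD.q2_pos r).le),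
    fun ω ω' h1 h2 h3 h4 => (h.ka ω ω' h1 h2 h3 h4).trans (mul_le_mul_of_nonneg_right hK (CellD.q2_pos r).le)⟩

/-- **the field `sw` of the record**, from `SwA` (the result of `pSw`) -/
theorem swF_rec {Ω : Type} [Fintype Ω] {τ υ : Type} {R : Run Ω τ υ} {p : Run.Num} {K c' g' gU : ℝ} (h : R.Ok p K c' g' gU)
    (hK : 1 ≤ K) (hsm : 2 * K ^ 2 * q2 (R.C.rk 0) ≤ 1) (hκ : ∀ ω, 0 < R.Q.w ω → |(R.W ω).κ| ≤ K) {D C : ℝ} (hD : 0 ≤ D)
    {a r j : ℕ} (hS : SwA D C a R.h R.q R.Q R.ry R.t R.W) (hC : 0 ≤ C) (ha : a ≤ R.h) (hj : 73 * K ^ 9 * (D + 1) ≤ 2 ^ j)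
    (hr : (r : ℝ) + j + C * ((R.h : ℝ) - a) ≤ R.q) {K' : ℝ} (hK' : 1 ≤ K') : SwF R K' a r := by
  have hha : (0 : ℝ) ≤ (R.h : ℝ) - a := by
    have : (a : ℝ) ≤ R.h := by exact_mod_cast ha
    linarith
  have h1 := hS (r + j) (by push_cast; exact hr)
  refine swF_mono hK' (swF_of h hK hsm hκ hD h1 hj ?_)
  have h2 : ((r + j : ℕ) : ℝ) ≤ R.q := by
    push_cast
    have := mul_nonneg hC hha
    linarith
  exact_mod_cast h2

end Vale.Agent.P106.U.H425
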