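import Vale.Agent.P106.U.S3.Props

/-!
# P106 / U / H425 : [TOP], core (helper425)

* `near_bad` : points all of whose partners (same `Z`) are at distance `≤ 1` have probability `≤ 3 colp`.
* `top_core` : at a time step `i` of a level `≥ a1` whose blocks are light given the ray side (no further condition), if the
  functional of `W` is a function of `(l, t_a1)` to `r1` digits (`SwF`), the precision `rk i` of the path is at least
  `min r1 QF - (s + 2) m`.
-/

set_option autoImplicit false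

namespace Vale.Agent.P106.U.H425

open Finset Vale.Agent.P127 Vale.Agent.P127.Stk Vale.Agent.P127.U Vale.Agent.P106.W
open Vale.Agent.P127.U.Mic (colp)
open Vale.Agent.P127.U.CellD (q2 rd)
open Vale.Agent.P106.U.S3
open Vale.Agent.P106.K (Ry)

open Classical in
/-- points all of whose partners are near -/
theorem near_bad {Ω T : Type} [Fintype Ω] (P : Law Ω) (X : Ω → ℤ) (Z : Ω → T) :
    prE P (fun ω => ∀ ω', 0 < P.w ω' → Z ω' = Z ω → |X ω - X ω'| ≤ 1) ≤ 3 * colp P X Z := by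
  have h1 := Mic.pair_near_le P X Z 1
  have h2 : prE P (fun ω => ∀ ω', 0 < P.w ω' → Z ω' = Z ω → |X ω - X ω'| ≤ 1) ≤
      P.ex (fun ω => (P.cond Z (Z ω)).ex (fun ω' => Law.ind (|X ω - X ω'| ≤ ((1 : ℕ) : ℤ)))) := by
    have e : prE P (fun ω => ∀ ω', 0 < P.w ω' → Z ω' = Z ω → |X ω - X ω'| ≤ 1) =
        P.ex (fun ω => if (∀ ω', 0 < P.w ω' → Z ω' = Z ω → |X ω - X ω'| ≤ 1) then (1 : ℝ) else 0) := by
      unfold prE Law.ex
      rw [Finset.sum_filter]
      refine Finset.sum_congr rfl fun ω _ => ?_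
      by_cases h : (∀ ω', 0 < P.w ω' → Z ω' = Z ω → |X ω - X ω'| ≤ 1)
      · simp only [if_pos h, mul_one]
      · simp only [if_neg h, mul_zero]
    rw [e]
    refine P.ex_mono fun ω hω => ?_
    by_cases h : (∀ ω', 0 < P.w ω' → Z ω' = Z ω → |X ω - X ω'| ≤ 1)
    · rw [if_pos h]
      have h3 : (P.cond Z (Z ω)).ex (fun _ => (1 : ℝ)) ≤
          (P.cond Z (Z ω)).ex (fun ω' => Law.ind (|X ω - X ω'| ≤ ((1 : ℕ) : ℤ))) := by
        refine (P.cond Z (Z ω)).ex_mono fun ω' hω' => ?_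
        have hp := P.pr_pos Z hω
        have hw : 0 < P.w ω' ∧ Z ω' = Z ω := by
          rw [P.cond_w Z _ hp] at hω'
          by_cases hd : Z ω' = Z ω
          · rw [if_pos hd] at hω'
            refine ⟨?_, hd⟩
            rcases (P.nn ω').eq_or_lt with h0 | h0
            · rw [← h0, zero_div] at hω'
              exact absurd hω' (lt_irrefl _)
            · exact h0
          · rw [if_neg hd] at hω'
            exact absurd hω' (lt_irrefl _)
        rw [Law.ind_of (by exact_mod_cast h ω' hw.1 hw.2)]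
      rwa [Law.ex_const] at h3
    · rw [if_neg h]
      exact (P.cond Z (Z ω)).ex_nonneg fun _ _ => Mic.ind_nonneg _
  refine h2.trans (h1.trans (le_of_eq ?_))
  norm_num

/-- all partners near: the collision probability is at least `1 / 3` -/
theorem near_all {Ω T : Type} [Fintype Ω] (P : Law Ω) (X : Ω → ℤ) (Z : Ω → T)
    (h : ∀ ω ω', 0 < P.w ω → 0 < P.w ω' → Z ω' = Z ω → |X ω - X ω'| ≤ 1) : 1 ≤ 3 * colp P X Z := by
  classical
  refine le_trans (le_of_eq ?_) (near_bad P X Z)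
  unfold prE
  rw [← P.sum_one, Finset.sum_filter]
  refine Finset.sum_congr rfl fun ω _ => ?_
  rcases (P.nn ω).eq_or_lt with h0 | h0
  · rw [← h0]; simp
  · rw [if_pos fun ω' h1 h2 => h ω ω' h0 h1 h2]

theorem fl1_near1 {n : ℕ} {x y : ℝ} (h : |x - y| ≤ q2 n) : |fl1 n x - fl1 n y| ≤ 1 := by
  have h2 : (0 : ℝ) < 2 ^ n := by positivity
  have e : (2 : ℝ) ^ n * q2 n = 1 := by
    unfold q2
    rw [← mul_pow]
    norm_num
  have h3 : |2 ^ n * x - 2 ^ n * y| ≤ 1 := by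
    rw [← mul_sub, abs_mul, abs_of_pos h2, ← e]
    exact mul_le_mul_of_nonneg_left h h2.le
  unfold fl1
  have a1 := Int.floor_le (2 ^ n * x)
  have a2 := Int.lt_floor_add_one (2 ^ n * x)
  have b1 := Int.floor_le (2 ^ n * y)
  have b2 := Int.lt_floor_add_one (2 ^ n * y)
  rw [abs_le] at h3 ⊢
  constructor
  · have : (-2 : ℝ) < (⌊2 ^ n * x⌋ - ⌊2 ^ n * y⌋ : ℤ) := by
      push_cast
      linarith
    have h5 : (-2 : ℤ) < ⌊2 ^ n * x⌋ - ⌊2 ^ n * y⌋ := by exact_mod_cast this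
    omega
  · have : ((⌊2 ^ n * x⌋ - ⌊2 ^ n * y⌋ : ℤ) : ℝ) < 2 := by
      push_cast
      linarith
    have h5 : ⌊2 ^ n * x⌋ - ⌊2 ^ n * y⌋ < (2 : ℤ) := by exact_mod_cast this
    omega

/-- points in blocks which are not adjacent -/
theorem far_of {n h : ℕ} (hn : n ≤ h) {x y : ℝ} (hxy : ¬ |fl1 n x - fl1 n y| ≤ 1) : q2 n ≤ |rd h x - rd h y| := by
  by_contra hlt
  push Not at hlt
  apply hxy
  have x1 := CellD.rd_mono hn x
  have y1 := CellD.rd_mono hn y
  have x2 := CellD.rd_le h x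
  have y2 := CellD.rd_le h y
  have x3 := CellD.lt_rd n x
  have y3 := CellD.lt_rd n y
  rw [abs_lt] at hlt
  have e : (2 : ℝ) ^ n * q2 n = 1 := CellD.q2_mul_pow n
  have h2 : (0 : ℝ) < 2 ^ n := by positivity
  have ex : ∀ z : ℝ, rd n z = (fl1 n z : ℝ) * q2 n := fun z => by
    unfold rd
    rw [CellD.div_pow_eq]
  have hd : |rd n x - rd n y| < 2 * q2 n := by
    rw [abs_lt]
    constructor <;> linarith
  rw [ex, ex, ← sub_mul, abs_mul, abs_of_pos (CellD.q2_pos n)] at hd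
  have h4 : |(fl1 n x : ℝ) - fl1 n y| < 2 := lt_of_mul_lt_mul_right hd (CellD.q2_pos n).le
  have h5 : |fl1 n x - fl1 n y| < 2 := by exact_mod_cast h4
  omega

/-- **core of [TOP]** -/
theorem top_core {Ω : Type} [Fintype Ω] {τ υ : Type} {R : Run Ω τ υ} {p : Run.Num} {K c' g' gU : ℝ} (h : R.Ok p K c' g' gU)
    {a1 r1 : ℕ} {K2 : ℝ}
    (hsp : ∀ ω ω', 0 < R.Q.w ω → 0 < R.Q.w ω' → R.ry ω = R.ry ω' → fl1 a1 (R.t ω) = fl1 a1 (R.t ω') →
      |R.C.p ω' - R.C.p ω| ≤ K2 * q2 r1)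
    (hsk : ∀ ω ω', 0 < R.Q.w ω → 0 < R.Q.w ω' → R.ry ω = R.ry ω' → fl1 a1 (R.t ω) = fl1 a1 (R.t ω') →
      |R.κ ω' - R.κ ω + (R.FW ω).al * (R.tW ω' - R.tW ω)| ≤ K2 * q2 r1)
    {i : ℕ} (hi : i < R.n) (hA : R.IsA i) (htime : 3 * colp R.Q (R.tb i) (R.Z i) ≤ c')
    (hfb : R.C.rf i < p.QF → R.C.rf i < R.rI i + p.B₁ → 3 * colp R.Q (R.fb i) (R.Z i) < 1) {ε : ℝ} (hε : ε < 1)
    (hln : R.rI i < R.C.rf i → NoStrip R.Q R.tW R.κ (R.Z i) (q2 (R.rI i + R.m)) ε)
    (ha : a1 ≤ R.C.a i) (hK : 4 * K * q2 R.m ≤ 1) (hK20 : 0 ≤ K2)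
    (hK2 : 4 * K2 * q2 R.m ≤ 1) (hs3 : 3 ≤ p.s) (hB : 1 ≤ p.B₁) : min r1 p.QF ≤ R.C.rk i + (p.s + 2) * R.m := by
  classical
  have hm := h.pth.m1
  have hq0 := CellD.q2_pos
  have hJ := h.pth.J1
  have hiJ : i < R.n + p.J := by omega
  have hah : R.C.a i + R.m ≤ R.h := by
    have h1 : R.C.a (i + 1) ≤ R.C.a (R.n + p.J) := R.C.ha (by omega)
    have h2 := h.pth.rA
    have h3 : R.C.a (i + 1) = R.C.a i + R.m := hA
    omega
  obtain ⟨l1, l2, l3⟩ := h.pth.leI i hiJ hA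
  -- equal ray-side letters: equal rays, equal times to `a1` digits
  have hZ : ∀ ω ω', 0 < R.Q.w ω → 0 < R.Q.w ω' → R.Z i ω = R.Z i ω' →
      R.ry ω = R.ry ω' ∧ fl1 a1 (R.t ω) = fl1 a1 (R.t ω') := fun ω ω' p p' e =>
    ⟨congrArg Prod.fst e, CellD.fl1_fl1 ha (h.Ut i hiJ.le ω ω' p p' e)⟩
  have hKm : ∀ {x : ℝ} {s r : ℕ}, 4 * x * q2 R.m ≤ 1 → s + 2 * R.m ≤ r → 4 * (x * q2 r) ≤ q2 (s + R.m) := by
    intro x s r hx hr
    by_cases hx0 : 0 ≤ x
    · have e1 : q2 r ≤ q2 (s + R.m) * q2 R.m := by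
        rw [← CellD.q2_add]
        exact CellD.q2_le (by omega)
      have e2 : 4 * (x * q2 r) ≤ (4 * x * q2 R.m) * q2 (s + R.m) := by
        have := mul_le_mul_of_nonneg_left e1 hx0
        nlinarith
      exact e2.trans ((mul_le_mul_of_nonneg_right hx (hq0 _).le).trans (le_of_eq (one_mul _)))
    · push Not at hx0
      have e1 : x * q2 r ≤ 0 := mul_nonpos_of_nonpos_of_nonneg hx0.le (hq0 r).le
      have e2 := (hq0 (s + R.m)).le
      linarith
  -- the own slope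
  have hphi : R.C.rf i < p.QF → R.C.rf i < R.rI i + p.B₁ → r1 < R.C.rf i + 2 * R.m := by
    intro g1 g2
    by_contra hcon
    push Not at hcon
    have g3 := hfb g1 g2
    have g4 := near_all R.Q (R.fb i) (R.Z i) (by
      intro ω ω' p0 p0' e
      obtain ⟨e1, e2⟩ := hZ ω ω' p0 p0' e.symm
      have e3 := hsp ω ω' p0 p0' e1 e2
      have e4 := hKm hK2 hcon
      have e5 := (hq0 (R.C.rf i + R.m)).le
      have e6 := (hq0 r1).le
      refine fl1_near1 ?_
      rw [abs_sub_comm]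
      have e7 : 0 ≤ K2 * q2 r1 := mul_nonneg hK20 e6
      linarith)
    linarith
  -- the line
  have hline : R.rI i < R.C.rf i → r1 < R.rI i + 2 * R.m := by
    intro g1
    by_contra hcon
    push Not at hcon
    have g3 := hln g1
    -- a representative of every value
    have hrep : ∀ x : Ry × υ, ∃ y : ℝ × ℝ, ∀ ω, 0 < R.Q.w ω → R.Z i ω = x →
        |R.κ ω - (y.1 + y.2 * R.tW ω)| ≤ q2 (R.rI i + R.m) := by
      intro x
      by_cases hx : ∃ ω, 0 < R.Q.w ω ∧ R.Z i ω = x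
      · obtain ⟨ω0, p0, e0⟩ := hx
        refine ⟨(R.κ ω0 + (R.FW ω0).al * R.tW ω0, -(R.FW ω0).al), fun ω p1 e1 => ?_⟩
        obtain ⟨e2, e3⟩ := hZ ω0 ω p0 p1 (e0.trans e1.symm)
        have e4 := hsk ω0 ω p0 p1 e2 e3
        have e5 := hKm hK2 hcon
        have e6 : 0 ≤ K2 * q2 r1 := mul_nonneg hK20 (hq0 r1).le
        have e7 : R.κ ω - ((R.κ ω0 + (R.FW ω0).al * R.tW ω0) + -(R.FW ω0).al * R.tW ω) =
            R.κ ω - R.κ ω0 + (R.FW ω0).al * (R.tW ω - R.tW ω0) := by ring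
        show |R.κ ω - ((R.κ ω0 + (R.FW ω0).al * R.tW ω0) + -(R.FW ω0).al * R.tW ω)| ≤ _
        rw [e7]
        linarith
      · exact ⟨(0, 0), fun ω p1 e1 => absurd ⟨ω, p1, e1⟩ hx⟩
    choose y hy using hrep
    have g4 := g3 y
    have g5 : (1 : ℝ) ≤ prE R.Q (fun ω => |R.κ ω - ((y (R.Z i ω)).1 + (y (R.Z i ω)).2 * R.tW ω)| ≤
        q2 (R.rI i + R.m)) := by
      unfold prE
      rw [← R.Q.sum_one, Finset.sum_filter]
      refine Finset.sum_le_sum fun ω _ => ?_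
      rcases (R.Q.nn ω).eq_or_lt with h0 | h0
      · rw [← h0]; simp
      · rw [if_pos (hy _ ω h0 rfl)]
    linarith
  -- `rI`
  have hrI : min r1 p.QF ≤ R.rI i + 2 * R.m := by
    rcases lt_or_ge (R.rI i) (R.C.rf i) with g | g
    · have := hline g
      exact (min_le_left _ _).trans this.le
    · have g1 : R.rI i = R.C.rf i := le_antisymm l2 g
      rcases lt_or_ge (R.C.rf i) p.QF with g2 | g2
      · have := hphi g2 (by omega)
        refine (min_le_left _ _).trans ?_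
        omega
      · refine (min_le_right _ _).trans ?_
        omega
  -- `rk`
  by_contra hcon
  push Not at hcon
  have hms : (p.s + 2) * R.m = p.s * R.m + 2 * R.m := by ring
  have hms3 : 3 * R.m ≤ p.s * R.m := Nat.mul_le_mul_right _ hs3
  have c1 : R.C.rk i + p.s * R.m < R.rI i := by omega
  have c2 : R.C.rk i + 3 * R.m ≤ r1 := by
    have := min_le_left r1 p.QF
    omega
  have hunk := h.unk i hi hA c1
  -- the bad event
  set Bd : Ω → Prop := fun ω => ∀ ω', 0 < R.Q.w ω' → R.Z i ω' = R.Z i ω → |R.tb i ω - R.tb i ω'| ≤ 1 with hBd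
  have hbd : prE R.Q Bd ≤ c' := by
    exact (near_bad R.Q (R.tb i) (R.Z i)).trans htime
  -- outside it the slope is the slope of `W`
  have hgood : ∀ ω, 0 < R.Q.w ω → ¬ Bd ω → |R.al i ω - (R.FW ω).al| * q2 (R.C.a i) ≤ q2 (R.C.rk i + R.m) := by
    intro ω hω hnb
    simp only [hBd] at hnb
    push Not at hnb
    obtain ⟨ω', p', e', f'⟩ := hnb
    obtain ⟨e1, e2⟩ := hZ ω ω' hω p' e'.symm
    have f1 := h.lin i hiJ.le ω ω' hω p' e'.symm
    have f2 := hsk ω ω' hω p' e1 e2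
    have f3 : q2 (R.C.a i + R.m) ≤ |R.tW ω - R.tW ω'| := far_of hah (by
      rw [not_le]
      exact f')
    have f4 : (R.al i ω - (R.FW ω).al) * (R.tW ω' - R.tW ω) =
        (R.κ ω' - R.κ ω + R.al i ω * (R.tW ω' - R.tW ω)) - (R.κ ω' - R.κ ω + (R.FW ω).al * (R.tW ω' - R.tW ω)) := by
      ring
    have f5 : |R.al i ω - (R.FW ω).al| * |R.tW ω' - R.tW ω| ≤ K * q2 (R.rI i) + K2 * q2 r1 := by
      rw [← abs_mul, f4]
      exact (abs_sub _ _).trans (add_le_add f1 f2)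
    have f6 : |R.al i ω - (R.FW ω).al| * q2 (R.C.a i + R.m) ≤ K * q2 (R.rI i) + K2 * q2 r1 := by
      refine le_trans (mul_le_mul_of_nonneg_left ?_ (abs_nonneg _)) f5
      rwa [abs_sub_comm]
    have k1 : 4 * (K * q2 (R.rI i)) ≤ q2 (R.C.rk i + R.m + R.m) := hKm hK (by omega)
    have k2 : 4 * (K2 * q2 r1) ≤ q2 (R.C.rk i + R.m + R.m) := hKm hK2 (by omega)
    rw [CellD.q2_add] at f6
    rw [CellD.q2_add (R.C.rk i + R.m)] at k1 k2
    have k3 : (|R.al i ω - (R.FW ω).al| * q2 (R.C.a i)) * q2 R.m ≤ q2 (R.C.rk i + R.m) * q2 R.m := by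
      have := mul_pos (hq0 (R.C.rk i + R.m)) (hq0 R.m)
      nlinarith
    exact le_of_mul_le_mul_right k3 (hq0 R.m)
  -- the slope of `W` is a function of `W'`
  have hFW : ∀ ω ω', 0 < R.Q.w ω → 0 < R.Q.w ω' → R.W' ω = R.W' ω' → (R.FW ω).al = (R.FW ω').al := by
    intro ω ω' p0 p0' e
    have e1 : R.F 0 ω = R.F 0 ω' := by
      have e2 : ((R.W ω, fl1 R.h (R.t ω)), fl1 (R.m * R.b1) (R.C.l ω).v) =
        ((R.W ω', fl1 R.h (R.t ω')), fl1 (R.m * R.b1) (R.C.l ω').v) := h.W0 ω ω' p0 p0' e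
      show ((R.W ω, fl1 R.h (R.t ω)), fl1 (R.m * 0) (R.C.l ω).v) =
        ((R.W ω', fl1 R.h (R.t ω')), fl1 (R.m * 0) (R.C.l ω').v)
      simp only [Prod.mk.injEq] at e2 ⊢
      refine ⟨e2.1, CellD.fl1_fl1 (by omega) e2.2⟩
    rw [h.FWf ω ω' p0 p0' e1]
  -- sum over the values of `W'`
  have hex : ∀ A : Ω → Prop, prE R.Q A = ∑ ω, (if A ω then R.Q.w ω else 0) := fun A => by
    unfold prE
    rw [Finset.sum_filter]
  have hsum : ∀ (A : Ω → Prop), prE R.Q A = ∑ z ∈ img R.W', prE R.Q (fun ω => R.W' ω = z ∧ A ω) := by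
    intro A
    simp only [hex]
    rw [Finset.sum_comm]
    refine Finset.sum_congr rfl fun ω _ => ?_
    have hmem : R.W' ω ∈ img R.W' := by simp
    rw [Finset.sum_eq_single_of_mem (R.W' ω) hmem]
    · by_cases g2 : A ω <;> simp [g2]
    · intro z _ hz
      rw [if_neg]
      exact fun e => hz e.1.symm
  have hlt : prE R.Q (fun ω => ¬ Bd ω) < 1 - c' := by
    have hone : ∑ z ∈ img R.W', R.Q.pr R.W' z = 1 := R.Q.sum_pr_image R.W'
    have e1 : (1 - c' : ℝ) = ∑ z ∈ img R.W', (1 - c') * R.Q.pr R.W' z := by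
      rw [← Finset.mul_sum, hone, mul_one]
    rw [hsum, e1]
    have hz : ∀ z ∈ img R.W', 0 < R.Q.pr R.W' z →
        prE R.Q (fun ω => R.W' ω = z ∧ ¬ Bd ω) < (1 - c') * R.Q.pr R.W' z := by
      intro z _ hz0
      obtain ⟨ω0, hω0, hz1⟩ : ∃ ω0, 0 < R.Q.w ω0 ∧ R.W' ω0 = z := by
        by_contra hno
        push Not at hno
        have : R.Q.pr R.W' z = 0 := by
          unfold Law.pr
          refine Finset.sum_eq_zero fun ω hω => ?_
          simp only [Finset.mem_filter, Finset.mem_univ, true_and] at hω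
          rcases (R.Q.nn ω).eq_or_lt with h0 | h0
          · exact h0.symm
          · exact absurd hω (hno ω h0)
        linarith
      have g1 := hunk ω0 hω0 (R.FW ω0).al
      rw [hz1] at g1
      refine lt_of_le_of_lt ?_ g1
      rw [hex, hex]
      refine Finset.sum_le_sum fun ω _ => ?_
      rcases (R.Q.nn ω).eq_or_lt with h0 | h0
      · rw [← h0]; simp
      · by_cases g2 : R.W' ω = z ∧ ¬ Bd ω
        · rw [if_pos g2, if_pos]
          refine ⟨g2.1, ?_⟩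
          rw [← hFW ω ω0 h0 hω0 (g2.1.trans hz1.symm)]
          exact hgood ω h0 g2.2
        · rw [if_neg g2]
          split_ifs
          · exact h0.le
          · exact le_rfl
    have hz' : ∀ z ∈ img R.W', prE R.Q (fun ω => R.W' ω = z ∧ ¬ Bd ω) ≤ (1 - c') * R.Q.pr R.W' z := by
      intro z hz1
      rcases (R.Q.pr_nonneg R.W' z).eq_or_lt with h0 | h0
      · rw [← h0, mul_zero]
        rw [hex]
        refine le_of_eq (Finset.sum_eq_zero fun ω _ => ?_)
        split_ifs with hω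
        · have h1 := R.Q.w_le_pr R.W' ω
          rw [hω.1, ← h0] at h1
          exact le_antisymm h1 (R.Q.nn ω)
        · rfl
      · exact (hz z hz1 h0).le
    obtain ⟨z0, hz0, hz1⟩ : ∃ z ∈ img R.W', 0 < R.Q.pr R.W' z := by
      by_contra hno
      push Not at hno
      have : ∑ z ∈ img R.W', R.Q.pr R.W' z ≤ 0 := Finset.sum_nonpos hno
      linarith
    exact Finset.sum_lt_sum hz' ⟨z0, hz0, hz z0 hz0 hz1⟩
  have hnot : prE R.Q (fun ω => ¬ Bd ω) + prE R.Q Bd = 1 := by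
    rw [hex, hex, ← R.Q.sum_one, ← Finset.sum_add_distrib]
    refine Finset.sum_congr rfl fun ω _ => ?_
    by_cases g : Bd ω <;> simp [g]
  linarith

/-! ### counting -/

open Classical in
/-- the blocks of the time step are light given the ray side -/
structure TG {Ω : Type} [Fintype Ω] {τ υ : Type} (R : Run Ω τ υ) (p : Run.Num) (c' : ℝ) (i : ℕ) : Prop where
  time : 3 * colp R.Q (R.tb i) (R.Z i) ≤ c'
  phi : R.C.rf i < p.QF → R.C.rf i < R.rI i + p.B₁ → 3 * colp R.Q (R.fb i) (R.Z i) < 1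
  line : R.rI i < R.C.rf i → NoStrip R.Q R.tW R.κ (R.Z i) (q2 (R.rI i + R.m)) (1 / 2)

theorem mi_unit {Ω S T : Type} [Fintype Ω] (P : Law Ω) (X : Ω → S) (Z : Ω → T) : mi P X (fun _ => ()) Z = 0 := by
  have h1 : mi P X (fun _ => ()) Z = Stk.hc P X Z - Stk.hc P X (fun ω => ((), Z ω)) := rfl
  have h2 : Stk.hc P X (fun ω => ((), Z ω)) = Stk.hc P X Z :=
    le_antisymm (Stk.hc_mono_right P X fun ω ω' _ _ e => congrArg Prod.snd e)
      (Stk.hc_mono_right P X fun ω ω' _ _ e => Prod.ext rfl e)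
  rw [h1, h2, sub_self]

open Classical in
/-- few time steps are not light given the ray side -/
theorem tbad {Ω : Type} [Fintype Ω] {τ υ : Type} {R : Run Ω τ υ} {p : Run.Num} {e κ₀ c' : ℝ} (hL : R.Light p e κ₀)
    (hc0 : 0 < c') (hc1 : c' ≤ 1) : ((R.aS.filter fun i => ¬ TG R p c' i).card : ℝ) * c' ≤ 8 * e := by
  have hcu : ∀ {S : Type} (X : Ω → S) (i : ℕ), colp R.Q X (fun ω => (R.Z i ω, ())) = colp R.Q X (R.Z i) := fun X i =>
    Mic.colp_congr R.Q (fun _ _ _ _ e => congrArg Prod.fst e) (fun _ _ _ _ e => congrArg Prod.fst e)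
      (fun _ _ _ _ e => Prod.ext e rfl) (fun _ _ _ _ e => congrArg Prod.fst e)
  -- the three sums
  have s1 : ∑ i ∈ R.aS, colp R.Q (R.tb i) (R.Z i) ≤ e := by
    have h1 := hL.time Unit fun _ _ => ()
    simp only [hcu, mi_unit, Finset.sum_const_zero, mul_zero, add_zero] at h1
    exact h1
  have s2 : ∑ i ∈ R.aF p, colp R.Q (R.fb i) (R.Z i) ≤ e := by
    have h1 := hL.phi Unit fun _ _ => ()
    simp only [hcu, mi_unit, Finset.sum_const_zero, mul_zero, add_zero] at h1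
    exact h1
  have hx : ∀ i, ∃ x : Ry × υ → ℝ × ℝ, ¬ NoStrip R.Q R.tW R.κ (R.Z i) (q2 (R.rI i + R.m)) (1 / 2) →
      1 / 2 < prE R.Q (fun ω => |R.κ ω - ((x (R.Z i ω)).1 + (x (R.Z i ω)).2 * R.tW ω)| ≤ q2 (R.rI i + R.m)) := by
    intro i
    by_cases hn : NoStrip R.Q R.tW R.κ (R.Z i) (q2 (R.rI i + R.m)) (1 / 2)
    · exact ⟨fun _ => (0, 0), fun h => absurd hn h⟩
    · unfold NoStrip at hn
      push Not at hn
      obtain ⟨x, hx⟩ := hn
      exact ⟨x, fun _ => hx⟩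
  choose x hx using hx
  have s3 : ∑ i ∈ R.aK, prE R.Q (fun ω => |R.κ ω - ((x i (R.Z i ω)).1 + (x i (R.Z i ω)).2 * R.tW ω)| ≤
      q2 (R.rI i + R.m)) ≤ e := by
    have h1 := hL.line Unit (fun _ _ => ()) fun i z => x i z.1
    simp only [mi_unit, Finset.sum_const_zero, mul_zero, add_zero] at h1
    exact h1
  set B1 := R.aS.filter fun i => ¬ 3 * colp R.Q (R.tb i) (R.Z i) ≤ c' with hB1
  set B2 := (R.aF p).filter fun i => ¬ 3 * colp R.Q (R.fb i) (R.Z i) < 1 with hB2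
  set B3 := R.aK.filter fun i => ¬ NoStrip R.Q R.tW R.κ (R.Z i) (q2 (R.rI i + R.m)) (1 / 2) with hB3
  have hsub : (R.aS.filter fun i => ¬ TG R p c' i) ⊆ B1 ∪ (B2 ∪ B3) := by
    intro i hi
    rw [Finset.mem_filter] at hi
    obtain ⟨h1, h2⟩ := hi
    by_contra hcon
    apply h2
    simp only [Finset.mem_union, not_or] at hcon
    obtain ⟨c1, c2, c3⟩ := hcon
    refine ⟨?_, fun g1 g2 => ?_, fun g1 => ?_⟩
    · by_contra hn
      exact c1 (Finset.mem_filter.2 ⟨h1, hn⟩)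
    · by_contra hn
      exact c2 (Finset.mem_filter.2 ⟨Finset.mem_filter.2 ⟨h1, g1, g2⟩, hn⟩)
    · by_contra hn
      exact c3 (Finset.mem_filter.2 ⟨Finset.mem_filter.2 ⟨h1, g1⟩, hn⟩)
  have b1 : (B1.card : ℝ) * c' ≤ 3 * e := by
    have h1 : (B1.card : ℝ) * c' ≤ ∑ i ∈ B1, 3 * colp R.Q (R.tb i) (R.Z i) := by
      rw [← nsmul_eq_mul]
      refine Finset.card_nsmul_le_sum _ _ _ fun i hi => ?_
      have := (Finset.mem_filter.1 hi).2
      linarith
    have h2 : ∑ i ∈ B1, 3 * colp R.Q (R.tb i) (R.Z i) ≤ ∑ i ∈ R.aS, 3 * colp R.Q (R.tb i) (R.Z i) :=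
      Finset.sum_le_sum_of_subset_of_nonneg (Finset.filter_subset _ _) fun i _ _ =>
        mul_nonneg (by norm_num) (Mic.colp_nonneg _ _ _)
    simp only [← Finset.mul_sum] at h1 h2
    linarith
  have b2 : (B2.card : ℝ) ≤ 3 * e := by
    have h1 : (B2.card : ℝ) * 1 ≤ ∑ i ∈ B2, 3 * colp R.Q (R.fb i) (R.Z i) := by
      rw [← nsmul_eq_mul]
      refine Finset.card_nsmul_le_sum _ _ _ fun i hi => ?_
      have := (Finset.mem_filter.1 hi).2
      linarith
    have h2 : ∑ i ∈ B2, 3 * colp R.Q (R.fb i) (R.Z i) ≤ ∑ i ∈ R.aF p, 3 * colp R.Q (R.fb i) (R.Z i) :=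
      Finset.sum_le_sum_of_subset_of_nonneg (Finset.filter_subset _ _) fun i _ _ =>
        mul_nonneg (by norm_num) (Mic.colp_nonneg _ _ _)
    simp only [← Finset.mul_sum] at h1 h2
    linarith
  have b3 : (B3.card : ℝ) ≤ 2 * e := by
    have h1 : (B3.card : ℝ) * (1 / 2) ≤ ∑ i ∈ B3, prE R.Q (fun ω => |R.κ ω - ((x i (R.Z i ω)).1 +
        (x i (R.Z i ω)).2 * R.tW ω)| ≤ q2 (R.rI i + R.m)) := by
      rw [← nsmul_eq_mul]
      refine Finset.card_nsmul_le_sum _ _ _ fun i hi => ?_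
      exact (hx i (Finset.mem_filter.1 hi).2).le
    have h2 : ∑ i ∈ B3, prE R.Q (fun ω => |R.κ ω - ((x i (R.Z i ω)).1 + (x i (R.Z i ω)).2 * R.tW ω)| ≤
        q2 (R.rI i + R.m)) ≤ ∑ i ∈ R.aK, prE R.Q (fun ω => |R.κ ω - ((x i (R.Z i ω)).1 +
          (x i (R.Z i ω)).2 * R.tW ω)| ≤ q2 (R.rI i + R.m)) :=
      Finset.sum_le_sum_of_subset_of_nonneg (Finset.filter_subset _ _) fun i _ _ => by
        unfold prE
        exact Finset.sum_nonneg fun ω _ => R.Q.nn ω
    linarith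
  have hcard : ((R.aS.filter fun i => ¬ TG R p c' i).card : ℝ) ≤ B1.card + (B2.card + B3.card) := by
    have := (Finset.card_le_card hsub).trans ((Finset.card_union_le _ _).trans
      (Nat.add_le_add_left (Finset.card_union_le _ _) _))
    exact_mod_cast this
  have h4 := mul_le_mul_of_nonneg_right hcard hc0.le
  have h5 : ((B2.card : ℝ) + B3.card) * c' ≤ 5 * e := by
    have g1 : ((B2.card : ℝ) + B3.card) * c' ≤ ((B2.card : ℝ) + B3.card) * 1 :=
      mul_le_mul_of_nonneg_left hc1 (by positivity)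
    linarith
  rw [add_mul] at h4
  linarith

open Classical in
/-- many time steps above the level `a1` -/
theorem win_card {Ω : Type} [Fintype Ω] {τ υ : Type} {R : Run Ω τ υ} {p : Run.Num} (h : R.Path p) (a1 : ℕ) :
    ∀ k ≤ R.n, R.C.a k ≤ a1 + R.m + R.m * ((range k).filter fun i => R.IsA i ∧ a1 ≤ R.C.a i).card := by
  intro k
  induction k with
  | zero =>
    intro _
    rw [h.a0]
    exact Nat.zero_le _
  | succ k ih =>
    intro hk
    have h1 := ih (by omega)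
    have hJ := h.J1
    have hst := h.stp k (by omega)
    rw [Finset.range_add_one, Finset.filter_insert]
    by_cases hA : R.IsA k
    · by_cases ha : a1 ≤ R.C.a k
      · rw [if_pos ⟨hA, ha⟩, Finset.card_insert_of_notMem (by simp)]
        have h2 : R.C.a (k + 1) = R.C.a k + R.m := hA
        rw [h2]
        have : R.m * (((range k).filter fun i => R.IsA i ∧ a1 ≤ R.C.a i).card + 1) =
          R.m * ((range k).filter fun i => R.IsA i ∧ a1 ≤ R.C.a i).card + R.m := by ring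
        omega
      · rw [if_neg fun g => ha g.2]
        have h2 : R.C.a (k + 1) = R.C.a k + R.m := hA
        omega
    · rw [if_neg fun g => hA g.1]
      have h2 : R.C.a (k + 1) = R.C.a k := by
        rcases hst with g | g | g
        · exact absurd g.1 hA
        · exact g.1
        · exact g.1
      omega

open Classical in
/-- a light time step of a level `≥ a1` -/
theorem ex_good {Ω : Type} [Fintype Ω] {τ υ : Type} {R : Run Ω τ υ} {p : Run.Num} {e κ₀ c' : ℝ} (h : R.Path p)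
    (hL : R.Light p e κ₀) (hc0 : 0 < c') (hc1 : c' ≤ 1) {a1 : ℕ}
    (hcnt : 8 * e * R.m < c' * ((R.C.a R.n : ℝ) - a1 - R.m)) : ∃ i < R.n, R.IsA i ∧ a1 ≤ R.C.a i ∧ TG R p c' i := by
  by_contra hno
  push Not at hno
  have h1 := win_card h a1 R.n le_rfl
  have h2 : ((range R.n).filter fun i => R.IsA i ∧ a1 ≤ R.C.a i) ⊆ R.aS.filter fun i => ¬ TG R p c' i := by
    intro i hi
    rw [Finset.mem_filter, Finset.mem_range] at hi
    refine Finset.mem_filter.2 ⟨Finset.mem_filter.2 ⟨Finset.mem_range.2 hi.1, hi.2.1⟩, ?_⟩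
    exact hno i hi.1 hi.2.1 hi.2.2
  have h3 : ((((range R.n).filter fun i => R.IsA i ∧ a1 ≤ R.C.a i).card : ℕ) : ℝ) ≤
      ((R.aS.filter fun i => ¬ TG R p c' i).card : ℝ) := by
    exact_mod_cast Finset.card_le_card h2
  have h4 := tbad hL hc0 hc1
  have h5 : (R.C.a R.n : ℝ) ≤ a1 + R.m + R.m * (((range R.n).filter fun i => R.IsA i ∧ a1 ≤ R.C.a i).card : ℕ) := by
    exact_mod_cast h1
  have hm : (0 : ℝ) ≤ R.m := Nat.cast_nonneg _
  have h6 : (R.C.a R.n : ℝ) - a1 - R.m ≤ R.m * ((R.aS.filter fun i => ¬ TG R p c' i).card : ℝ) := by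
    have := mul_le_mul_of_nonneg_left h3 hm
    linarith
  have h7 := mul_le_mul_of_nonneg_left h6 hc0.le
  have h8 := mul_le_mul_of_nonneg_right h4 hm
  nlinarith

end Vale.Agent.P106.U.H425
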